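import Vale.Agent.P155SG.Bas
import Vale.Agent.P155I.GS
import Vale.Agent.P155I.MS
import Vale.Agent.P155.U.CplLoc
import Vale.Agent.P155.U.Cm
import Vale.Agent.P155.U.Loc
import Vale.Agent.P155.U613.Sep

/-!
# P155, block (G): the canonical carpets and their field (helper57)
-/

set_option linter.all false

namespace Vale.Agent.P155.SG

open MeasureTheory ProbabilityTheory Set Metric TopologicalSpace Filter Topology Vale.Agent.P155
  Vale.Agent.P155.Q1 Vale.Agent.P155.Uq Vale.Agent.P155.Soup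
open Vale.Agent.P155.Tree (Dom Carp)
open scoped NNReal ENNReal

namespace Cn

variable {Ω K : Set ℂ}

theorem perp_coe {g : GV Ω} (hg : g ∈ (Uq.Vk Ω K)ᗮ) : (g : Uq.HL) ∈ (GV (Ω \ K))ᗮ := by
  rw [Submodule.mem_orthogonal] at hg ⊢
  intro u hu
  exact hg ⟨u, U.GV_mono sdiff_subset hu⟩ hu

end Cn

open Cn in
/-- **CAN0** -/
theorem can0 : CAN0 := by
  intro V hV
  obtain ⟨Θ, m, P, G, H, hP, h, e⟩ := Gs.isL1 hV
  obtain ⟨Q, hQ, eQ⟩ := NT730Y.exists_canon hV.1 hV.2.1 hV.2.2.1 h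
  have := hQ.prob
  have m1 : Measurable (fun (s : Sp V) (k : ℕ) => (s k).1) :=
    measurable_pi_lambda _ fun k => measurable_fst.comp (measurable_pi_apply k)
  have e1 : L1 V = Q.map fun s : Sp V => (s 1).1 := by
    rw [e, ← Gs.seq_one h, eQ, Measure.map_map (measurable_pi_apply 1) m1]
    rfl
  obtain ⟨W, w1, w2, w3⟩ := locStmt V hV.1 hV.2.1 hV.2.2.1 _ (isR_Rv hV.2.1) Q hQ
  refine ⟨Q, W, hV, hQ, w2, ⟨hV.1, hV.2.1, hQ.prob, w1, Uq.measurable_past 1, meas_lv, ?_⟩,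
    SW802.path_ae SW802.dj hV.1 hV.2.1 hV.2.2.1 hV.2.2.2 hQ, e1.symm⟩
  intro K hK w hw hwK f hf g hg
  have k := w3 1 K hK {t | (lv t : Set ℂ) ⊆ K} (meas_lv (meas_subset hK)) (fun _ h => h) w hw f g
    hf (perp_coe hg)
  have e2 : {t : Past V 1 | (lv t : Set ℂ) ⊆ K}.indicator w = w :=
    indicator_eq_self.2 fun t ht => hwK t ht
  rw [e2] at k
  exact k

/-- **HLM** -/
theorem hlm : HLM := by
  intro Ω F ho hb hF hne
  have sub (A : NC) : closure (SWR.KK Ω F A) ⊆ F ∪ closure Ω := by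
    refine closure_minimal (union_subset subset_union_left (sUnion_subset ?_))
      (hF.isClosed.union isClosed_closure)
    rintro _ ⟨U, hU, -, rfl⟩
    exact (closure_mono (hole_subset hU)).trans subset_union_right
  have bn (A : NC) : Bornology.IsBounded (SWR.KK Ω F A) ∧ (SWR.KK Ω F A).Nonempty :=
    ⟨(hF.isBounded.union hb.closure).subset (subset_closure.trans (sub A)),
      hne.mono (SWR.sub_KK _ _ _)⟩
  have co (A : NC) : (hl Ω F A : Set ℂ) = closure (SWR.KK Ω F A) :=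
    coe_toNC (bn A).1.isCompact_closure (bn A).2.closure
  refine ⟨(hit_KK (hit_nc measurable_id) (fun A : NC => A.isCompact.isClosed) (ROp.const ho)
    hF.isClosed).nc bn, fun A => ?_⟩
  rw [co]
  exact ⟨(SWR.sub_KK _ _ _).trans subset_closure, sub A,
    fun h => (SWR.isConnected_KK ⟨hne, h⟩ A).isPreconnected.closure,
    fun h => (SWR.isClosed_KK hF.isClosed h.fin hb).closure_eq⟩

namespace Cn

variable {Ω : Set ℂ}

/-- the points near which the height is `σ` -/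
def Aσ (Ω G : Set ℂ) (h : Fld Ω) (σ : ℝ) : Set ℂ :=
  {z | ∃ r, 0 < r ∧ ball z r ⊆ Ω \ G ∧
    ∀ᵐ w ∂(volume.restrict Ω : Measure ℂ), w ∈ ball z r → h w = σ}

/-- the same, in a measurable form -/
def Pσ (Ω : Set ℂ) (σ : ℝ) (t : Past Ω 1) : Set ℂ :=
  {z | ∃ n : ℕ, closedBall z (2 / (n + 1)) ⊆ Ω \ lv t ∧
    pr (t (Fin.last 1)).2 (UK.bump z (1 / (n + 1))) = σ}

theorem ms_P (ho : IsOpen Ω) (σ : ℝ) (z : ℂ) : MeasurableSet {t | z ∈ Pσ Ω σ t} := by
  refine ms_ex fun n => (((ROp.const ho).diff (hit_nc meas_lv)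
    fun t => (lv t).isCompact.isClosed).sub isClosed_closedBall).inter ?_
  exact measurableSet_eq_fun ((Uq.measurable_pr (UK.bump_test (Ω := univ)
    Nat.one_div_pos_of_nat (subset_univ _))).comp
      (measurable_snd.comp (measurable_pi_apply _))) measurable_const

variable {G : Set ℂ} {h : Fld Ω} {σ : ℝ} {z : ℂ}

theorem A_sub : Aσ Ω G h σ ⊆ Ω \ G := fun _ ⟨_, h0, h1, _⟩ => h1 (mem_ball_self h0)

theorem A_open : IsOpen (Aσ Ω G h σ) := by
  refine Metric.isOpen_iff.2 fun z ⟨r, h0, h1, h2⟩ => ⟨r, h0, fun y hy => ?_⟩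
  obtain ⟨s, hs, h3⟩ := Metric.isOpen_iff.1 isOpen_ball y hy
  exact ⟨s, hs, h3.trans h1, h2.mono fun w hw hw' => hw (h3 hw')⟩

theorem pr_bump (ho : IsOpen Ω) {r s : ℝ} (hs : 0 < s) (hsr : s < r) (h1 : ball z r ⊆ Ω)
    (h2 : ∀ᵐ w ∂(volume.restrict Ω : Measure ℂ), w ∈ ball z r → h w = σ) :
    pr h (UK.bump z s) = σ := by
  rw [U613.pr_of_eq_const ho.measurableSet h1 h2 (UK.bump_test hs (closedBall_subset_ball hsr)),
    UK.integral_bump z hs, mul_one]

theorem A_disj (ho : IsOpen Ω) : Disjoint (Aσ Ω G h 1) (Aσ Ω G h (-1)) := by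
  refine Set.disjoint_left.2 fun z ⟨r, h0, h1, h2⟩ ⟨r', k0, k1, k2⟩ => ?_
  have hm : 0 < min r r' := lt_min h0 k0
  have a := pr_bump ho (half_pos hm) ((half_lt_self hm).trans_le (min_le_left _ _))
    (h1.trans sdiff_subset) h2
  have b := pr_bump ho (half_pos hm) ((half_lt_self hm).trans_le (min_le_right _ _))
    (k1.trans sdiff_subset) k2
  linarith

theorem A_ae : ∀ᵐ w ∂(volume.restrict Ω : Measure ℂ), w ∈ Aσ Ω G h σ → h w = σ := by
  refine measure_null_of_locally_null _ fun x hx => ?_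
  simp only [mem_compl_iff, mem_setOf_eq, Classical.not_imp] at hx
  obtain ⟨r, h0, -, h2⟩ := hx.1
  refine ⟨_, inter_mem_nhdsWithin _ (ball_mem_nhds x h0), measure_mono_null ?_ h2⟩
  rintro w ⟨h3, h4⟩ h5
  exact h3 fun _ => h5 h4

theorem sign1 {s : Sp Ω} (hs : SWR.Path Ω s) {r : ℝ} (hr : 0 < r)
    (h1 : closedBall z r ⊆ Ω \ (s 1).1) : ∃ τ : ℝ, (τ = 1 ∨ τ = -1) ∧
      ∀ᵐ w ∂(volume.restrict Ω : Measure ℂ), w ∈ ball z r → (s 1).2 w = τ := by
  obtain ⟨τ, h2, h3⟩ := hs.sign 0 z r hr (h1.trans sdiff_subset) (subset_sdiff.1 h1).2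
  refine ⟨τ, h2, ?_⟩
  rw [hs.zero.2] at h3
  filter_upwards [h3, Lp.coeFn_zero ℝ 2 (volume.restrict Ω : Measure ℂ)] with w k1 k2 k3
  have := k1 k3
  rw [k2] at this
  simpa using this

theorem P_eq (ho : IsOpen Ω) {s : Sp Ω} (hs : SWR.Path Ω s) :
    Pσ Ω σ (past 1 s) = Aσ Ω (s 1).1 (s 1).2 σ := by
  have lt (n : ℕ) : (1 : ℝ) / (n + 1) < 2 / (n + 1) :=
    div_lt_div_of_pos_right one_lt_two (by positivity)
  ext z
  constructor
  · rintro ⟨n, h1, h2⟩
    have h0 : (0 : ℝ) < 2 / (n + 1) := by positivity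
    obtain ⟨τ, -, h3⟩ := sign1 hs h0 h1
    have h4 := pr_bump ho Nat.one_div_pos_of_nat (lt n)
      (ball_subset_closedBall.trans (h1.trans sdiff_subset)) h3
    have e : σ = τ := h2.symm.trans h4
    exact ⟨_, h0, ball_subset_closedBall.trans h1, e ▸ h3⟩
  · rintro ⟨r, h0, h1, h2⟩
    obtain ⟨n, hn⟩ := exists_nat_one_div_lt (half_pos h0)
    have h3 : (2 : ℝ) / (n + 1) < r := by
      have : (2 : ℝ) / (n + 1) = 2 * (1 / (n + 1)) := by ring
      linarith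
    exact ⟨n, (closedBall_subset_ball h3).trans h1,
      pr_bump ho Nat.one_div_pos_of_nat ((lt n).trans h3) (h1.trans sdiff_subset) h2⟩

theorem A_cover (ho : IsOpen Ω) {s : Sp Ω} (hs : SWR.Path Ω s) :
    Ω \ (s 1).1 ⊆ Aσ Ω (s 1).1 (s 1).2 1 ∪ Aσ Ω (s 1).1 (s 1).2 (-1) := by
  intro z hz
  obtain ⟨r, h0, h1⟩ := nhds_basis_closedBall.mem_iff.1
    ((ho.sdiff (s 1).1.isCompact.isClosed).mem_nhds hz)
  obtain ⟨τ, rfl | rfl, h3⟩ := sign1 hs h0 h1
  exacts [Or.inl ⟨r, h0, ball_subset_closedBall.trans h1, h3⟩,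
    Or.inr ⟨r, h0, ball_subset_closedBall.trans h1, h3⟩]

theorem A_un (ho : IsOpen Ω) {s : Sp Ω} (hs : SWR.Path Ω s) (hσ : σ = 1 ∨ σ = -1) :
    Un Ω (s 1).1 (Aσ Ω (s 1).1 (s 1).2 σ) := by
  refine ⟨A_sub, fun S h1 h2 h3 => ?_⟩
  rcases hσ with rfl | rfl
  · exact h1.subset_left_of_subset_union A_open A_open (A_disj ho) (h2.trans (A_cover ho hs)) h3
  · exact h1.subset_right_of_subset_union A_open A_open (A_disj ho) (h2.trans (A_cover ho hs)) h3

theorem zc (mom : MOM) {Q : Measure (Sp Ω)} {W : GV Ω →ₗᵢ[ℝ] Lp ℝ 2 Q} (c : Can Ω Q W)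
    {φ : ℂ → ℝ} (hφ : IsTest Ω φ) :
    ∀ᵐ s ∂Q, Zc W (past 1) lv (Rv Ω φ) s = cst * pr (s 1).2 φ := by
  have := c.can.prob
  obtain ⟨ho, hb, hne, -⟩ := id c.dom
  obtain ⟨-, -, -, m4, -⟩ := mom _ _ _ _ _ _ _ c.loc
  have one : BM (fun _ : Past Ω 1 => (1 : ℝ)) := ⟨measurable_const, 1, fun _ => by simp⟩
  set f := Rv Ω φ with hf
  set Y := Yc W (past 1) lv f with hY
  set B : ℝ := ∫ z in Ω, |φ z| with hB
  set w : Past Ω 1 → ℝ := fun t => max (-B) (min B (pr (t (Fin.last 1)).2 φ)) with hw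
  have hB0 : 0 ≤ B := integral_nonneg fun _ => abs_nonneg _
  have bw : BM w := ⟨measurable_const.max (measurable_const.min ((Uq.measurable_pr hφ).comp
    (measurable_snd.comp (measurable_pi_apply _)))), B, fun t => abs_le.2
      ⟨le_max_left _ _, max_le (by linarith) (min_le_left _ _)⟩⟩
  have ew : ∀ᵐ s ∂Q, w (past 1 s) = pr (s 1).2 φ := by
    filter_upwards [c.can.bdd] with s hs
    have := abs_le.1 (abs_pr_le (hs 1) hφ)
    simp only [Nat.cast_one, one_mul] at this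
    show max (-B) (min B (pr (s 1).2 φ)) = _
    rw [min_eq_right this.2, max_eq_right this.1]
  obtain ⟨a1, a2, -⟩ := m4 _ one f f
  obtain ⟨-, -, a3⟩ := m4 _ bw f f
  have a4 := (cmStmt Ω ho hb hne _ (isR_Rv hb) Q c.can W c.cc 1).2 (Finset.univ : Finset Unit)
    (fun _ _ => 1) (fun _ => φ) (fun _ => (Rv Ω φ).2) (fun _ _ => one) fun _ _ => hφ
  simp only [Finset.univ_unique, Finset.sum_singleton, one_mul] at a1 a2 a4
  have e4 : ∀ s : Sp Ω, greenEnergy (Ω \ (s 1).1) φ = inner ℝ (Pj Ω (lv (past 1 s)) f) f :=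
    fun s => by rw [Pj_self, green_Pj hb (test_univ hφ)]; rfl
  simp only [e4] at a4
  set D : Sp Ω → ℝ := fun s => W f s - cst * pr (s 1).2 φ with hD
  have mD : MemLp D 2 Q := (Lp.memLp _).sub ((memLp_pr c.can 1 hφ).const_mul cst)
  have mY : MemLp Y 2 Q := Lp.memLp _
  have iYY : Integrable (fun s => Y s * Y s) Q := mY.integrable_mul mY
  have iYW : Integrable (fun s => Y s * W f s) Q := mY.integrable_mul (Lp.memLp _)
  have iYp : Integrable (fun s => pr (s 1).2 φ * Y s) Q := (memLp_pr c.can 1 hφ).integrable_mul mY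
  have a5 : ∫ s, pr (s 1).2 φ * Y s ∂Q = 0 := by
    rw [← a3]
    exact integral_congr_ae (ew.mono fun s hs => by simp only [hs]; rfl)
  have iD : Integrable (fun s => D s ^ 2) Q := mD.integrable_sq
  have z : ∫ s, (Y s - D s) ^ 2 ∂Q = 0 := by
    have e : ∀ s, (Y s - D s) ^ 2 = (Y s * Y s - 2 * (Y s * W f s)) +
        (2 * cst * (pr (s 1).2 φ * Y s) + D s ^ 2) := fun s => by simp only [hD]; ring
    simp only [e]
    have j1 : Integrable (fun s => Y s * Y s - 2 * (Y s * W f s)) Q := iYY.sub (iYW.const_mul 2)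
    have j2 : Integrable (fun s => 2 * cst * (pr (s 1).2 φ * Y s) + D s ^ 2) Q :=
      (iYp.const_mul _).add iD
    rw [integral_add j1 j2,
      integral_sub iYY (iYW.const_mul 2), integral_add (iYp.const_mul _) iD, integral_const_mul,
      integral_const_mul, a5, a1, a2]
    have : ∫ s, D s ^ 2 ∂Q = ∫ s, inner ℝ (Pj Ω (lv (past 1 s)) f) f ∂Q := a4
    rw [this]
    ring
  filter_upwards [(integral_eq_zero_iff_of_nonneg (fun s => sq_nonneg _)
    (mY.sub mD).integrable_sq).1 z] with s hs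
  have : Y s - D s = 0 := pow_eq_zero_iff two_ne_zero |>.1 hs
  simp only [Zc, hD] at this ⊢
  linarith

end Cn

open Cn in
/-- **CAN1** -/
theorem can1_of (mom : MOM) : CAN1 := by
  intro Ω Q W c
  obtain ⟨ho, hb, hne, -⟩ := id c.dom
  have hc : 0 ≤ cst := Real.sqrt_nonneg _
  have side (σ : ℝ) (hσ : σ = 1 ∨ σ = -1) : Side W (past 1) lv σ (Pσ Ω σ) := by
    refine ⟨hσ, ms_P ho σ, c.path.mono fun s hs => ?_, fun φ hφ => ?_⟩
    · rw [P_eq ho hs]
      exact A_un ho hs hσ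
    · filter_upwards [zc mom c hφ, c.path] with s h1 hs h2
      rw [P_eq ho hs] at h2
      rw [h1, U613.pr_of_eq_const ho.measurableSet (A_sub.trans sdiff_subset) A_ae (test_of hφ h2)]
      rcases hσ with rfl | rfl <;> ring
  refine ⟨fun φ hφ => zc mom c hφ, fun φ hφ => ?_, _, _, side 1 (Or.inl rfl), side (-1) (Or.inr rfl),
    c.path.mono fun s hs => ?_⟩
  · filter_upwards [zc mom c hφ, c.can.bdd] with s h1 h2 _
    have := abs_pr_le (h2 1) hφ
    rw [h1, abs_mul, abs_of_nonneg hc]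
    refine mul_le_mul_of_nonneg_left (this.trans ?_) hc
    rw [Nat.cast_one, one_mul]
    exact setIntegral_le_integral
      (hφ.1.continuous.integrable_of_hasCompactSupport hφ.2.1).abs
      (Eventually.of_forall fun _ => abs_nonneg _)
  · rw [P_eq ho hs, P_eq ho hs]
    exact A_cover ho hs

end Vale.Agent.P155.SG
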