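import Vale.Agent.P155SG.Bas
import Vale.Agent.P155.U.CplLoc

/-!
# P155, block (G): the conditionally independent coupling
-/

set_option linter.all false

namespace Vale.Agent.P155.SG

open MeasureTheory ProbabilityTheory Set Metric TopologicalSpace Filter Topology Vale.Agent.P155
  Vale.Agent.P155.Q1 Vale.Agent.P155.Uq Vale.Agent.P155.Soup

/-- from indicators of rectangles to all weights -/
theorem perp_of_rect {Ω : Set ℂ} {X T T' : Type} [MeasurableSpace X] [MeasurableSpace T]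
    [MeasurableSpace T'] {μ : Measure X} [IsProbabilityMeasure μ] {W : GV Ω →ₗᵢ[ℝ] Lp ℝ 2 μ}
    {M : Submodule ℝ (GV Ω)} {p : X → T} {p' : X → T'} (hp : Measurable p) (hp' : Measurable p')
    {E : Set T} {E' : Set T'} (hE : MeasurableSet E) (hE' : MeasurableSet E')
    (h : ∀ A A', MeasurableSet A → MeasurableSet A' → A ⊆ E → A' ⊆ E' →
      Perp W M fun x => A.indicator 1 (p x) * A'.indicator 1 (p' x))
    {w : T × T' → ℝ} (hw : BM w) (h0 : ∀ t, w t ≠ 0 → t.1 ∈ E ∧ t.2 ∈ E') :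
    Perp W M fun x => w (p x, p' x) := fun f hf g hg => by
  obtain ⟨hm, C, hC⟩ := hw
  set c : ℂ := Complex.exp (-(‖f‖ ^ 2 / 2 : ℝ))
  have mS := (hp hE).inter (hp' hE')
  have i1 := int_exp (μ := μ) (W (g + f))
  have i2 := int_exp (μ := μ) (W g)
  have iF := (i1.sub (i2.const_mul c)).indicator mS
  have bd : ∀ {F : X → ℂ}, Integrable F μ → Integrable (fun x => (w (p x, p' x) : ℂ) * F x) μ :=
    fun hF => hF.bdd_mul (Complex.measurable_ofReal.comp
      (hm.comp (hp.prodMk hp'))).aestronglyMeasurable (c := C)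
        (.of_forall fun x => by rw [Complex.norm_real, Real.norm_eq_abs]; exact hC _)
  have h1 := zero_of_sets (hp.prodMk hp') iF (fun _ hT => zero_of_rect hp hp' iF (fun A A' a a' => by
    have h2 := h _ _ (a.inter hE) (a'.inter hE') inter_subset_right inter_subset_right f hf g hg
    have e : ∀ F : X → ℂ, ∫ x, (((A ∩ E).indicator 1 (p x) * (A' ∩ E').indicator 1 (p' x) : ℝ) : ℂ) *
        F x ∂μ = ∫ x in p ⁻¹' A ∩ p' ⁻¹' A' ∩ (p ⁻¹' E ∩ p' ⁻¹' E'), F x ∂μ := fun F => by
      rw [← integral_indicator (((hp a).inter (hp' a')).inter mS)]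
      refine integral_congr_ae (.of_forall fun x => ?_)
      by_cases k1 : p x ∈ A ∩ E <;> by_cases k2 : p' x ∈ A' ∩ E' <;>
        simp_all [indicator, -mem_inter_iff] <;> simp_all
    rw [e, e] at h2
    rw [setIntegral_indicator mS]
    exact (integral_sub i1.integrableOn (i2.const_mul c).integrableOn).trans (by
      rw [integral_const_mul, h2, sub_self])) hT) hm hC
  rw [← sub_eq_zero, ← integral_const_mul, ← integral_sub (bd i1) ((bd i2).const_mul c), ← h1]
  refine integral_congr_ae (.of_forall fun x => ?_)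
  by_cases k : w (p x, p' x) = 0
  · simp [k]
  · simp only [indicator_of_mem (show x ∈ p ⁻¹' E ∩ p' ⁻¹' E' from h0 _ k), Pi.sub_apply]
    ring

theorem bm_ind {T : Type} [MeasurableSpace T] {A : Set T} (h : MeasurableSet A) :
    BM (A.indicator (1 : T → ℝ)) :=
  ⟨measurable_one.indicator h, 1, fun t => by by_cases k : t ∈ A <;> simp [k]⟩

/-- **CPL** -/
theorem cpl : CPL := by
  intro Ω S S' _ _ _ _ Q Q' _ _ W W' hW hW'
  have hfact : Fact ((2 : ENNReal) ≠ ⊤) := ⟨by norm_num⟩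
  have hsep : SeparableSpace (GV Ω) := by
    have : SecondCountableTopology HL := inferInstance
    infer_instance
  obtain ⟨X, mX, μ, a, a', hμ, ha, ha', hma, hma', hWW, hprod⟩ := U877.cpl2 Q Q' W W'
    (fun f => (U877.exp_cast _).symm ▸ hW f) (fun f => (U877.exp_cast _).symm ▸ hW' f)
  have hmp : MeasurePreserving a μ Q := ⟨ha, hma⟩
  set Wt : GV Ω →ₗᵢ[ℝ] Lp ℝ 2 μ :=
    (Lp.compMeasurePreservingₗᵢ ℝ a hmp : Lp ℝ 2 Q →ₗᵢ[ℝ] Lp ℝ 2 μ).comp W
  have h1 : ∀ f, ∀ᵐ x ∂μ, (Wt f : X → ℝ) x = (W f : S → ℝ) (a x) := fun f =>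
    Lp.coeFn_compMeasurePreserving (W f) hmp
  refine ⟨X, mX, μ, a, a', Wt, hmp, ⟨ha', hma'⟩, h1, fun f => ?_,
    fun T T' _ _ p C p' C' L L' => ⟨L.op, L.bd, hμ, fun f => ?_, (L.mp.comp ha).prodMk (L'.mp.comp ha'),
      meas_un L.mC L'.mC, fun K hK w hw h0 => ?_⟩⟩
  · filter_upwards [h1 f, hWW f] with x e e' using e.trans e'
  · have e0 := integral_map (μ := μ) ha.aemeasurable
      (f := fun s => Complex.exp (Complex.I * (W f s : ℝ)))
      (hma.symm ▸ aesm_exp (Lp.aestronglyMeasurable _))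
    rw [hma] at e0
    rw [← hW f, e0]
    exact integral_congr_ae ((h1 f).mono fun x e => by simp only [e])
  refine perp_of_rect (L.mp.comp ha) (L'.mp.comp ha') (L.mC (meas_subset hK))
    (L'.mC (meas_subset hK)) (fun A A' m m' s s' f hf g hg => ?_) hw
      fun t ht => union_subset_iff.1 (h0 t ht)
  have key := hprod _ (isClosed_Vk K) (fun s => A.indicator 1 (p s)) (fun s => A'.indicator 1 (p' s))
    ((bm_ind m).1.comp L.mp) ((bm_ind m).2.imp fun _ h s => h _) ((bm_ind m').1.comp L'.mp)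
    ((bm_ind m').2.imp fun _ h s => h _)
    (fun f hf g hg => (U877.exp_cast _).symm ▸ L.pc K hK _ (bm_ind m)
      (fun t ht => s (mem_of_indicator_ne_zero ht)) f hf g hg)
    (fun f hf g hg => (U877.exp_cast _).symm ▸ L'.pc K hK _ (bm_ind m')
      (fun t ht => s' (mem_of_indicator_ne_zero ht)) f hf g hg) f hf g hg
  rw [U877.exp_cast] at key
  have e : ∀ (h : GV Ω) (F : X → ℂ), ∫ x, F x * Complex.exp (Complex.I * (Wt h x : ℝ)) ∂μ =
      ∫ x, F x * Complex.exp (Complex.I * (W h (a x) : ℝ)) ∂μ := fun h F =>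
    integral_congr_ae ((h1 h).mono fun x e => by simp only [e])
  rw [e, e]
  exact key

theorem cpl_of (_ : PULL) : CPL := cpl

end Vale.Agent.P155.SG
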