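import Vale.Agent.P155SG.Defs

/-!
# P155, block (G): the flux statement with a measurable choice of the test function
-/

set_option linter.all false

namespace Vale.Agent.P155.SG

open MeasureTheory Set Metric Vale.Agent.P155 Vale.Agent.P155.Q1 Vale.Agent.P155.Uq
  Vale.Agent.P155.Soup

/-- **FLUX2**: the far drop is bounded, the near drop is large -/
def FLUX2 : Prop := ∀ (Ω : Set ℂ) (y : ℂ) (r : ℝ), IsOpen Ω → Bornology.IsBounded Ω → 0 < r →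
  closedBall y (2 * r) ⊆ Ω → ∃ C0 : ℝ, ∀ L : ℝ, ∃ M : ℝ, ∀ δ : ℝ, 0 < δ →
  ∀ (T : Type) [MeasurableSpace T] (C : T → NC) (P : T → Set ℂ), Measurable C →
    (∀ z, MeasurableSet {t | z ∈ P t}) → ∃ (φ : ℕ → ℂ → ℝ) (n : T → ℕ), Measurable n ∧
    (∀ k, IsTest (ball y r) (φ k) ∧ ∀ z, 0 ≤ φ k z) ∧
    ∀ t, UK.Geo Ω (C t) → Un Ω (C t) (P t) → tsupport (φ (n t)) ⊆ P t ∧
      greenEnergy (Ω \ C t) (φ (n t)) - greenEnergy (ball y r \ C t) (φ (n t)) ≤ C0 ∧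
      ∀ S : Set ℂ, UK.Geo Ω ((C t : Set ℂ) ∪ S) → XD (C t) (P t) S y r δ M →
        L ≤ greenEnergy (Ω \ C t) (φ (n t)) - greenEnergy (Ω \ ((C t : Set ℂ) ∪ S)) (φ (n t))

end Vale.Agent.P155.SG
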