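import Vale.Agent.P155SG.CritA
import Vale.Agent.P155SG.FxS
import Vale.Agent.P155I.TK

/-!
# P155, block (G): the critical no-touching statement (helper57)
-/

set_option linter.all false

namespace Vale.Agent.P155.SG

open MeasureTheory ProbabilityTheory Set Metric TopologicalSpace Filter Topology Vale.Agent.P155
  Vale.Agent.P155.Q1 Vale.Agent.P155.Uq Vale.Agent.P155.Soup
open scoped NNReal ENNReal

namespace Cr

theorem norm_sc {Ω K : Set ℂ} (hb : Bornology.IsBounded Ω) {φ : ℂ → ℝ} (hφ : IsTest univ φ)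
    {s σ : ℝ} (hσ : σ = 1 ∨ σ = -1) :
    ‖Pj Ω K (Rv Ω fun z => s * σ * φ z)‖ ^ 2 = s ^ 2 * greenEnergy (Ω \ K) φ := by
  rw [Rv_smul hb hφ, map_smul, norm_smul, mul_pow, green_Pj hb hφ, Real.norm_eq_abs, sq_abs]
  rcases hσ with rfl | rfl <;> ring

theorem sum_le {X : Type} [MeasurableSpace X] {μ : Measure X} [IsProbabilityMeasure μ]
    {n : X → ℕ} (hn : Measurable n) {E : ℕ → Set X} {ε : ℝ} (hε : 0 ≤ ε)
    (h : ∀ k, μ.real (E k) ≤ ε * μ.real (n ⁻¹' {k})) : μ (⋃ k, E k) ≤ ENNReal.ofReal ε := by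
  have h1 (k : ℕ) : μ (E k) ≤ ENNReal.ofReal ε * μ (n ⁻¹' {k}) := by
    rw [← ofReal_measureReal (μ := μ) (s := E k), ← ofReal_measureReal (μ := μ) (s := n ⁻¹' {k}),
      ← ENNReal.ofReal_mul hε]
    exact ENNReal.ofReal_le_ofReal (h k)
  refine (measure_iUnion_le _).trans ((ENNReal.tsum_le_tsum h1).trans ?_)
  rw [ENNReal.tsum_mul_left, ← measure_iUnion (fun i j hij => Disjoint.preimage n
    (disjoint_singleton.2 hij)) fun k => hn (measurableSet_singleton k)]
  exact mul_le_of_le_one_right' prob_le_one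

end Cr

open Cr in
/-- **CRIT** -/
theorem crit_of (mom : MOM) (mono : MONO) (trf : TRF) (cross : CROSS) (exy : EXY) (fx : FLUX2) :
    CRIT := by
  intro Ω X T T' _ _ _ μ W p C p' C' D σ P l hp' hC' hD l2 l3 sd ht geo y r hr hy
  have := l.prob
  have hb := l.bd
  have hc : 0 ≤ cst := Real.sqrt_nonneg _
  have hball : ball y r ⊆ closedBall y (2 * r) :=
    ball_subset_closedBall.trans (closedBall_subset_closedBall (by linarith))
  have hF0 : (closure Ω \ ball y r).Nonempty := by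
    refine ⟨y + (2 * r : ℝ), subset_closure (hy ?_), ?_⟩
    · simp [abs_of_pos hr]
    · simp [abs_of_pos hr]
      linarith
  set F : NC := ⟨⟨closure Ω \ ball y r, hb.isCompact_closure.diff isOpen_ball⟩, hF0⟩ with hF
  have eF (K : NC) : Ω \ (K ⊔ F : NC) = ball y r \ K := by
    show Ω \ ((K : Set ℂ) ∪ (closure Ω \ ball y r)) = _
    ext z
    constructor
    · rintro ⟨h1, h2⟩
      refine ⟨by_contra fun h => h2 (Or.inr ⟨subset_closure h1, h⟩), fun h => h2 (Or.inl h)⟩
    · rintro ⟨h1, h2⟩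
      exact ⟨hy (hball h1), fun h => h.elim h2 fun h => h.2 h1⟩
  set Ξ : Set NC := {d | Disjoint (closedBall y (2 * r)) (d : Set ℂ)} with hΞ
  have mΞ : MeasurableSet Ξ := ms_congr ((hit_nc measurable_id).disj
    (isClosed_closedBall (x := y) (ε := 2 * r))) fun d : NC => by
      rw [id, d.isCompact.isClosed.closure_eq, disjoint_comm]
  have hDF : ∀ᵐ x ∂μ, D (p' x) ∈ Ξ → D (p' x) ≤ F := geo.mono fun x hx h z hz =>
    ⟨hx.2.2 hz, fun h' => Set.disjoint_left.1 h (hball h') hz⟩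
  obtain ⟨C0, hC0⟩ := fx Ω y r l.op hb hr hy
  have key (s : ℝ) (hs : 0 < s) : μ {x | ¬ (Disjoint (closedBall y (2 * r)) (D (p' x) : Set ℂ) →
      ∃ M : ℝ, ∀ δ : ℝ, 0 < δ → ¬ XD (C (p x)) (P (p x)) (C' (p' x)) y r δ M)} ≤
      ENNReal.ofReal (s ^ 2 * max C0 0 / s + s + s ^ 2 * max C0 0) := by
    obtain ⟨M, hM⟩ := hC0 (2 / s ^ 2)
    set B : ℕ → Set X := fun j => {x | D (p' x) ∈ Ξ ∧
      XD (C (p x)) (P (p x)) (C' (p' x)) y r (1 / (j + 1)) M} with hB
    have mB : Monotone B := fun i j hij x hx => ⟨hx.1, hx.2.mono subset_rfl subset_rfl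
      (Nat.one_div_le_one_div hij)⟩
    refine (measure_mono (t := ⋃ j, B j) fun x hx => ?_).trans ?_
    · simp only [mem_setOf_eq, Classical.not_imp, not_exists, not_forall, not_not] at hx
      obtain ⟨δ, hδ, h⟩ := hx.2 M
      obtain ⟨j, hj⟩ := exists_nat_one_div_lt hδ
      exact mem_iUnion.2 ⟨j, hx.1, h.mono subset_rfl subset_rfl hj.le⟩
    rw [mB.measure_iUnion]
    refine iSup_le fun j => ?_
    obtain ⟨φ, n, hn, hφ, H⟩ := hM (1 / (j + 1)) Nat.one_div_pos_of_nat T C P l.mC sd.ms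
    have t1 (k : ℕ) : IsTest (ball y r) fun z => s * σ * φ k z := by
      simpa using U.test_comb (hφ k).1 (hφ k).1 (s * σ) 0
    have t2 (k : ℕ) : IsTest Ω fun z => s * σ * φ k z := test_mono (t1 k) (hball.trans hy)
    refine (measure_mono_ae (t := ⋃ k, {x | (p x ∈ n ⁻¹' {k} ∧ D (p' x) ∈ Ξ) ∧
      2 ≤ ‖Pj Ω (C (p x)) (Rv Ω fun z => s * σ * φ k z)‖ ^ 2 -
        ‖Pj Ω (un C C' (p x, p' x)) (Rv Ω fun z => s * σ * φ k z)‖ ^ 2}) ?_).trans
      (sum_le (hn.comp l.mp) (by positivity) fun k => ?_)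
    · filter_upwards [geo, sd.un] with x h1 h2 hx
      refine mem_iUnion.2 ⟨n (p x), ⟨rfl, hx.1⟩, ?_⟩
      have h3 := (H _ h1.1 h2).2.2 _ h1.2.1 hx.2
      rw [norm_sc hb (test_univ (hφ _).1) sd.sg, norm_sc hb (test_univ (hφ _).1) sd.sg, ← mul_sub]
      rwa [div_le_iff₀' (by positivity)] at h3
    refine piece mom mono trf cross exy l hD l2 l3 F mΞ hDF (hn (measurableSet_singleton k)) _
      (m := cst * (s * ∫ z, φ k z)) hs (by positivity) ?_ ?_ ?_
    · filter_upwards [ht _ (t2 k)] with x h1 h2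
      refine (le_abs_self _).trans ((h1 (h2.mono_left ((t1 k).2.2.trans hball))).trans_eq ?_)
      rw [← integral_const_mul s]
      congr 2
      funext z
      rw [abs_mul, abs_mul, abs_of_pos hs, abs_of_nonneg ((hφ k).2 z)]
      rcases sd.sg with h | h <;> simp [h]
    · filter_upwards [sd.val _ (t2 k), geo, sd.un] with x h1 h2 h3 h4
      have h5 := (H _ h2.1 h3).1
      rw [show n (p x) = k from h4] at h5
      have h6 := h1 (tsupport_mul_subset_right.trans h5)
      rw [integral_const_mul] at h6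
      rcases sd.sg with h | h <;> rw [h] at h6 ⊢ <;> linarith
    · filter_upwards [geo, sd.un] with x h2 h3 h4
      have h5 := (H _ h2.1 h3).2.1
      rw [show n (p x) = k from h4] at h5
      rw [norm_sc hb (test_univ (hφ _).1) sd.sg, norm_sc hb (test_univ (hφ _).1) sd.sg, ← mul_sub,
        eF]
      exact mul_le_mul_of_nonneg_left (h5.trans (le_max_left _ _)) (sq_nonneg s)
  have lim : Tendsto (fun s : ℝ => ENNReal.ofReal (s ^ 2 * max C0 0 / s + s + s ^ 2 * max C0 0))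
      (𝓝[>] 0) (𝓝 0) := by
    have h1 : Tendsto (fun s : ℝ => s * max C0 0 + s + s ^ 2 * max C0 0) (𝓝[>] 0) (𝓝 0) := by
      have : Continuous fun s : ℝ => s * max C0 0 + s + s ^ 2 * max C0 0 := by fun_prop
      simpa using (this.tendsto 0).mono_left nhdsWithin_le_nhds
    have h2 := ENNReal.tendsto_ofReal h1
    rw [ENNReal.ofReal_zero] at h2
    refine h2.congr' (eventually_nhdsWithin_of_forall fun s hs => ?_)
    have : s ≠ 0 := ne_of_gt hs
    congr 3
    field_simp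
  exact le_zero_iff.1 (ge_of_tendsto lim (eventually_nhdsWithin_of_forall key))

end Vale.Agent.P155.SG
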