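import Vale.Agent.P155SG.Bas

/-!
# P155, block (G): real exponential moments
-/

noncomputable section

namespace Vale.Agent.P155.SG

open MeasureTheory ProbabilityTheory Set Filter Topology Vale.Agent.P155 Vale.Agent.P155.Uq
  Vale.Agent.P155.Soup
open scoped NNReal ENNReal

/-- the exponential -/
def eo (t : ℝ) : ℝ≥0∞ := ENNReal.ofReal (Real.exp t)

@[fun_prop] theorem cont_eo : Continuous eo := ENNReal.continuous_ofReal.comp Real.continuous_exp

@[fun_prop] theorem meas_eo : Measurable eo := cont_eo.measurable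

theorem eo_add (s t : ℝ) : eo (s + t) = eo s * eo t := by
  rw [eo, Real.exp_add, ENNReal.ofReal_mul (Real.exp_pos s).le, eo, eo]

theorem eo_mono : Monotone eo := fun _ _ h => ENNReal.ofReal_le_ofReal (Real.exp_le_exp.2 h)

variable {X T : Type} [MeasurableSpace X] [MeasurableSpace T] {μ : Measure X}

theorem conv_exp [IsFiniteMeasure μ] {A B : X → ℝ} (hA : Measurable A) (hB : Measurable B) {v : ℝ≥0}
    (h : ∀ t : ℝ, ∫ x, Complex.exp (t * A x * Complex.I) ∂μ =
      (∫ x, Complex.exp (t * B x * Complex.I) ∂μ) * Complex.exp (-(v * t ^ 2 / 2))) (s : ℝ) :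
    ∫⁻ x, eo (s * A x) ∂μ = ∫⁻ x, eo (s * B x + v * s ^ 2 / 2) ∂μ := by
  have e : μ.map A = μ.map B ∗ gaussianReal 0 v := Measure.ext_of_charFun (funext fun t => by
    rw [charFun_conv, charFun_gaussianReal, charFun_apply_real, charFun_apply_real,
      integral_map hA.aemeasurable (by fun_prop), integral_map hB.aemeasurable (by fun_prop), h]
    simp)
  have g : ∫⁻ y, eo (s * y) ∂gaussianReal 0 v = eo (v * s ^ 2 / 2) := by
    have := congrFun (mgf_fun_id_gaussianReal (μ := 0) (v := v)) s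
    simp only [mgf, zero_mul, zero_add] at this
    rw [eo, ← this, ofReal_integral_eq_lintegral_ofReal (integrable_exp_mul_gaussianReal s)
      (.of_forall fun _ => (Real.exp_pos _).le)]
    rfl
  rw [← lintegral_map (f := fun y => eo (s * y)) (by fun_prop) hA, e,
    Measure.lintegral_conv (by fun_prop)]
  simp only [mul_add, eo_add]
  rw [lintegral_map (Measurable.lintegral_prod_right (by fun_prop)) hB]
  exact lintegral_congr fun x => by rw [lintegral_const_mul _ (by fun_prop), g]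

section
variable {H : Type} [NormedAddCommGroup H] [InnerProductSpace ℝ H] {W : H →ₗᵢ[ℝ] Lp ℝ 2 μ}

theorem mW (W : H →ₗᵢ[ℝ] Lp ℝ 2 μ) (f : H) : Measurable (W f) := (Lp.stronglyMeasurable _).measurable

theorem perp_exp [IsFiniteMeasure μ] {M : Submodule ℝ H} {E : Set X} (hE : MeasurableSet E)
    (h : Perp W M (E.indicator 1)) {f g : H} (hf : f ∈ M) (hg : g ∈ Mᗮ) (s : ℝ) :
    ∫⁻ x in E, eo (s * W (g + f) x) ∂μ = ∫⁻ x in E, eo (s * W g x + ‖f‖ ^ 2 * s ^ 2 / 2) ∂μ := by
  refine conv_exp (μ := μ.restrict E) (mW W _) (mW W _) (v := ‖f‖₊ ^ 2) (fun t => ?_) s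
  have k : ∀ u, ∫ x in E, Complex.exp (t * W u x * Complex.I) ∂μ =
      ∫ x, ((E.indicator 1 x : ℝ) : ℂ) * Complex.exp (Complex.I * (W (t • u) x : ℝ)) ∂μ :=
    fun u => by
      rw [← integral_indicator hE, map_smul]
      refine integral_congr_ae ((Lp.coeFn_smul t (W u)).mono fun x hx => ?_)
      by_cases a : x ∈ E <;> simp [a, hx, mul_comm]
  rw [k, k, smul_add, h _ (M.smul_mem t hf) _ (Mᗮ.smul_mem t hg), mul_comm, norm_smul]
  simp [mul_pow, mul_comm]

theorem iso_exp [IsProbabilityMeasure μ] (h : GT.Iso W) (f : H) (s : ℝ) :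
    ∫⁻ x, eo (s * W f x) ∂μ = eo (‖f‖ ^ 2 * s ^ 2 / 2) := by
  have := perp_exp (W := W) (M := ⊤) .univ (fun f _ g hg => by
    obtain rfl : g = 0 := by simpa using hg
    simp [h f]) (f := f) trivial (Submodule.zero_mem _) s
  rw [zero_add, Measure.restrict_univ, map_zero] at this
  simpa using this

end

theorem le_lim [IsFiniteMeasure μ] {U : ℕ → X → ℝ≥0∞} {V : X → ℝ≥0∞} {m C : ℝ≥0∞} (hC : C ≠ ⊤)
    (hU : ∀ n, Measurable (U n)) (h : ∀ᵐ x ∂μ, Tendsto (fun n => U n x) atTop (𝓝 (V x)))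
    (h1 : ∀ n, m ≤ ∫⁻ x, U n x ∂μ) (h2 : ∀ n, ∫⁻ x, U n x * U n x ∂μ ≤ C) : m ≤ ∫⁻ x, V x ∂μ := by
  have t : Tendsto (fun R : ℕ => ∫⁻ x, V x ∂μ + C * (R : ℝ≥0∞)⁻¹) atTop (𝓝 (∫⁻ x, V x ∂μ)) := by
    simpa using tendsto_const_nhds.add
      (ENNReal.Tendsto.const_mul ENNReal.tendsto_inv_nat_nhds_zero (.inr hC))
  refine ge_of_tendsto t ((eventually_gt_atTop 0).mono fun R hR => ?_)
  have l := tendsto_lintegral_of_dominated_convergence (μ := μ) (F := fun n x => min (U n x) R)
    (fun _ => R) (fun n => (hU n).min measurable_const) (fun _ => .of_forall fun _ => min_le_right _ _)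
    (by simp [ENNReal.mul_eq_top]) (h.mono fun x hx => hx.min tendsto_const_nhds)
  refine (ge_of_tendsto' (l.add tendsto_const_nhds) fun n => (h1 n).trans ?_).trans
    (add_le_add_left (lintegral_mono fun _ => min_le_left _ _) _)
  refine le_trans ?_ (add_le_add_right (mul_le_mul_left (h2 n) _) _)
  rw [← lintegral_mul_const _ (f := fun x => U n x * U n x) ((hU n).mul (hU n)),
    ← lintegral_add_left ((hU n).min measurable_const)]
  refine lintegral_mono fun x => ?_
  rcases le_total (U n x) R with a | a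
  · simp [a]
  · refine le_add_left ?_
    rw [mul_assoc]
    exact le_mul_of_one_le_right' ((ENNReal.mul_inv_cancel (by simpa using hR.ne') (by simp)).ge.trans
      (mul_le_mul_left a _))

variable {Ω : Set ℂ} {W : GV Ω →ₗᵢ[ℝ] Lp ℝ 2 μ} {p : X → T} {C : T → NC}

theorem Loc.exp_n (h : Loc W p C) (D : YD W p C) (f : GV Ω) (n : ℕ) (s : ℝ) {A : Set T}
    (hA : MeasurableSet A) : ∫⁻ x in p ⁻¹' A, eo (s * W f x) ∂μ =
      ∫⁻ x in p ⁻¹' A, eo (s * (W f x - W (Pj Ω (U.Kj (U.ixj n (C (p x), C (p x)))) f) x) +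
        ‖Pj Ω (U.Kj (U.ixj n (C (p x), C (p x)))) f‖ ^ 2 * s ^ 2 / 2) ∂μ := by
  have := h.prob
  have m := (D.midx n).comp h.mp
  refine (lintegral_fiber m fun _ x => eo (s * W f x)).trans (Eq.trans (tsum_congr fun j => ?_)
    (lintegral_fiber m fun j x => eo (s * (W f x - W (Pj Ω (U.Kj j) f) x) +
      ‖Pj Ω (U.Kj j) f‖ ^ 2 * s ^ 2 / 2)).symm)
  have mj := D.midx n (measurableSet_singleton j)
  rw [Measure.restrict_restrict (m (measurableSet_singleton j))]
  have := perp_exp (h.mp (mj.inter hA)) (h.pc (U.Kj j) (Set.Finite.isClosed_biUnion j.2.finite_toSet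
    fun i _ => U.isClosed_dsq j.1 i) (((fun t => U.ixj n (C t, C t)) ⁻¹' {j} ∩ A).indicator 1)
    ⟨measurable_one.indicator (mj.inter hA), 1, fun t => by
      unfold indicator
      split_ifs <;> simp⟩
    fun t ht z hz => (mem_of_indicator_ne_zero ht).1 ▸
      U.mem_Kj.2 ⟨U.sqi n z, U.mem_msq.2 ⟨z, .inl hz, U.mem_sqi n z⟩, U.mem_sqi n z⟩)
    (Pj_mem f) (sub_Pj_mem f) s
  rw [sub_add_cancel, map_sub] at this
  exact this.trans (lintegral_congr_ae (ae_restrict_of_ae 
    ((Lp.coeFn_sub (W f) (W (Pj Ω (U.Kj j) f))).mono fun x hx => by simp only [hx, Pi.sub_apply])))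

theorem exy_of (mom : MOM) : EXY := fun Ω X T _ _ μ W p C h f => by
  have := h.prob
  have D := (mom Ω X T μ W p C h).1
  have eY : Yc W p C f = YData.Y D f := dif_pos ⟨h.prob, D⟩
  obtain ⟨ns, hns, l⟩ := (tendstoInMeasure_of_tendsto_Lp (D.tendsto_Y f)).exists_seq_tendsto_ae
  let P (n : ℕ) (x : X) := Pj Ω (U.Kj (U.ixj n (C (p x), C (p x)))) f
  let u (n : ℕ) (x : X) := eo (1 * (W f x - W (P n x) x) + ‖P n x‖ ^ 2 * 1 ^ 2 / 2)
  let v (x : X) := Zc W p C f x + ‖Pj Ω (C (p x)) f‖ ^ 2 / 2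
  have mu : ∀ n, Measurable (u n) := fun n => meas_eo.comp
    ((((mW W f).sub (measurable_UA h.mp (D.midx n) (A := fun j => Pj Ω (U.Kj j) f))).const_mul 1).add
      ((((((D.sm n f).comp_measurable h.mp).norm.measurable.pow_const 2).mul_const _).div_const 2)))
  have mZ : Measurable (Zc W p C f) := (mW W f).sub (Lp.stronglyMeasurable _).measurable
  have mv : Measurable v :=
    mZ.add ((((D.smPi f).comp_measurable h.mp).norm.measurable.pow_const 2).div_const 2)
  have lim : ∀ᵐ x ∂μ, Tendsto (fun n => u (ns n) x) atTop (𝓝 (eo (v x))) := by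
    filter_upwards [l, ae_all_iff.2 fun n => D.coe_yn n f] with x a b
    simp only [b] at a
    simp only [u, v, Zc, eY, one_mul, one_pow, mul_one]
    exact (cont_eo.tendsto _).comp ((tendsto_const_nhds.sub a).add
      ((((D.lim (p x) f).comp hns.tendsto_atTop).norm.pow 2).div_const 2))
  have m1 : Measurable fun x => eo (1 * W f x) := meas_eo.comp ((mW W f).const_mul 1)
  have t1 := iso_exp h.iso f 1
  have fin : IsFiniteMeasure (μ.withDensity fun x => eo (1 * W f x)) :=
    isFiniteMeasure_withDensity (t1 ▸ ENNReal.ofReal_ne_top)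
  have le : (μ.withDensity fun x => eo (v x)).map p ≤ (μ.withDensity fun x => eo (1 * W f x)).map p :=
    Measure.le_iff.2 fun A hA => by
      rw [Measure.map_apply h.mp hA, Measure.map_apply h.mp hA, withDensity_apply _ (h.mp hA),
        withDensity_apply _ (h.mp hA)]
      refine (lintegral_congr_ae (ae_restrict_of_ae (lim.mono fun x hx => hx.liminf_eq.symm))).trans_le
        ((lintegral_liminf_le fun n => mu _).trans ?_)
      simp only [u, P, ← h.exp_n D f _ 1 hA, liminf_const, le_refl]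
  have := isFiniteMeasure_of_le _ le
  have e := Measure.eq_of_le_of_measure_univ_eq le ((le _).antisymm (by
    rw [Measure.map_apply h.mp .univ, Measure.map_apply h.mp .univ, preimage_univ,
      withDensity_apply _ .univ, withDensity_apply _ .univ, Measure.restrict_univ]
    refine le_lim (C := eo (‖f‖ ^ 2 * 2 ^ 2 / 2)) ENNReal.ofReal_ne_top (fun n => mu _) lim
      (fun n => ?_) fun n => ?_
    · simpa [u, P] using (h.exp_n D f (ns n) 1 .univ).le
    · rw [← iso_exp h.iso f 2]
      have := h.exp_n D f (ns n) 2 .univ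
      rw [preimage_univ, Measure.restrict_univ] at this
      refine le_trans (lintegral_mono fun x => ?_) this.ge
      rw [← eo_add]
      exact eo_mono (by
        simp only [P]
        nlinarith [sq_nonneg ‖Pj Ω (U.Kj (U.ixj (ns n) (C (p x), C (p x)))) f‖])))
  have i : ∀ g : X → ℝ, Measurable g → ∫⁻ x, eo (g x) ∂μ ≠ ⊤ →
      Integrable (fun x => Real.exp (g x)) μ := fun g hg k =>
    ⟨hg.exp.aestronglyMeasurable, (hasFiniteIntegral_iff_ofReal
      (.of_forall fun _ => (Real.exp_pos _).le)).2 k.lt_top⟩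
  have k : ∀ g : X → ℝ, Measurable g → ∀ w : T → ℝ, Measurable w →
      ∫ t, w t ∂(μ.withDensity fun x => eo (g x)).map p = ∫ x, w (p x) * Real.exp (g x) ∂μ :=
    fun g hg w hw => by
      rw [integral_map h.mp.aemeasurable hw.aestronglyMeasurable,
        integral_withDensity_eq_integral_toReal_smul (f := fun x => eo (g x)) (meas_eo.comp hg)
          (.of_forall fun _ => ENNReal.ofReal_lt_top)]
      simp [eo, (Real.exp_pos _).le, mul_comm]
  refine ⟨i _ (mW W f) (by simpa using t1.trans_ne ENNReal.ofReal_ne_top), i _ mZ ?_, fun w hw => ?_⟩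
  · refine ne_top_of_le_ne_top ?_ (lintegral_mono fun x => eo_mono (le_add_of_nonneg_right
      (by positivity : 0 ≤ ‖Pj Ω (C (p x)) f‖ ^ 2 / 2)))
    change ∫⁻ x, eo (v x) ∂μ ≠ ⊤
    simpa [Measure.map_apply h.mp] using measure_ne_top ((μ.withDensity fun x => eo (v x)).map p) univ
  · rw [← k v mv w hw.1, e, k _ ((mW W f).const_mul 1) w hw.1]
    simp only [one_mul]

end Vale.Agent.P155.SG
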