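import Vale.Agent.P155SG.Bas
import Vale.Agent.P155S.Sk2
import Vale.Agent.P155S.FubC
import Vale.Agent.P155H.Slit

/-!
# P155, block (G): the assembly of the inequality `1 ≤ m`
-/

set_option linter.all false

noncomputable section

namespace Vale.Agent.P155.SG

open MeasureTheory ProbabilityTheory Set Metric TopologicalSpace Filter Topology Vale.Agent.P155
  Vale.Agent.P155.Q1 Vale.Agent.P155.Uq Vale.Agent.P155.Soup Vale.Agent.P155.Geo
  Vale.Agent.P155.BL Vale.Agent.P155S.Poi Vale.Agent.P155S.Fub Vale.Agent.P155S.Reg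
open Vale.Agent.P155.Tree (Dom Carp)
open scoped NNReal ENNReal

variable {V E B D : Set ℂ} {G : NC} {ε η : ℝ} {z : ℂ}

theorem kk_v (n : SWR.Nice1 V G) (hz : z ∈ V) :
    z ∈ SWR.KK V ((Vᶜ ∪ B) ∩ closure V) G ↔ z ∈ SWR.KK V B G := by
  refine or_congr ⟨fun h => h.1.resolve_left fun c => c hz, fun h => ⟨.inr h, subset_closure hz⟩⟩ ?_
  constructor
  · rintro ⟨_, ⟨U, h1, ⟨y, h2, h3⟩, rfl⟩, h⟩
    exact ⟨_, ⟨U, h1, ⟨y, h2, h3.1.resolve_left fun c => c (n.inside U h1 h2)⟩, rfl⟩, h⟩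
  · rintro ⟨_, ⟨U, h1, ⟨y, h2, h3⟩, rfl⟩, h⟩
    exact ⟨_, ⟨U, h1, ⟨y, h2, .inr h3, subset_closure (n.inside U h1 h2)⟩, rfl⟩, h⟩

theorem kk_conn (n : SWR.Nice1 V G) (h : IsPreconnected (Vᶜ ∪ B)) (h0 : Vᶜ.Nonempty) :
    IsPreconnected (Vᶜ ∪ SWR.KK V ((Vᶜ ∪ B) ∩ closure V) G) := by
  obtain ⟨p, hp⟩ := h0
  have s : Vᶜ ∪ B ⊆ Vᶜ ∪ SWR.KK V ((Vᶜ ∪ B) ∩ closure V) G := fun y hy =>
    (em (y ∈ V)).elim (fun c => .inr (.inl ⟨hy, subset_closure c⟩)) .inl
  refine isPreconnected_of_forall p ?_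
  rintro y (hy | hy | ⟨_, ⟨U, h1, ⟨x, h2, h3⟩, rfl⟩, hy⟩)
  exacts [⟨_, s, .inl hp, .inl hy, h⟩, ⟨_, s, .inl hp, hy.1, h⟩, ⟨Vᶜ ∪ B ∪ closure U,
    union_subset s fun w hw => .inr (.inr ⟨_, ⟨U, h1, ⟨x, h2, h3⟩, rfl⟩, hw⟩), .inl (.inl hp),
      .inr hy, h.union x h3.1 h2 (hole_conn h1).2.closure⟩]

theorem kk_sub (n : SWR.Nice1 V G) (hD : IsHole V E D) (hB : B ∩ V ⊆ D)
    (h : Disjoint (SWR.KK V B G) E) (hz : z ∈ V) (hk : z ∈ SWR.KK V B G) : z ∈ D := by
  rcases hk with hk | ⟨_, ⟨U, h1, ⟨x, h2, h3⟩, rfl⟩, hk⟩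
  · exact hB ⟨hk, hz⟩
  exact sub_hole hD (hole_conn h1).2.closure (fun y hy => ⟨n.inside U h1 hy, disjoint_left.1 h
    (.inr ⟨_, ⟨U, h1, ⟨x, h2, h3⟩, rfl⟩, hy⟩)⟩) h2 (hB ⟨h3, n.inside U h1 h2⟩) hk

/-- the open set which carries the charges -/
def Oe (V E D : Set ℂ) (η : ℝ) : Set ℂ := V ∩ (thickening η E ∪ (closure D)ᶜ)

theorem oe_open (hV : IsOpen V) : IsOpen (Oe V E D η) :=
  hV.inter (isOpen_thickening.union isClosed_closure.isOpen_compl)

/-- the good event -/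
def Ev (V E B D : Set ℂ) (ε : ℝ) : Set NC :=
  hl V ((Vᶜ ∪ B) ∩ closure V) ⁻¹' {A | ((A : Set ℂ) ∩ Oe V E D ε).Nonempty}ᶜ

theorem fq (hV : Dom V) (hB : IsClosed B) :
    IsCompact ((Vᶜ ∪ B) ∩ closure V) ∧ ((Vᶜ ∪ B) ∩ closure V).Nonempty := by
  refine ⟨hV.2.1.isCompact_closure.inter_left (hV.1.isClosed_compl.union hB), ?_⟩
  obtain ⟨y, hy⟩ := nonempty_frontier_iff.2 ⟨hV.2.2.1, dom_ne_univ hV⟩
  rw [hV.1.frontier_eq] at hy
  exact ⟨y, .inl hy.2, hy.1⟩

theorem ev_meas (hm : HLM) (g : Stg V E B D ε) : MeasurableSet (Ev V E B D ε) :=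
  let ⟨f1, f2⟩ := fq g.seed.dom g.seed.cr
  (hm V _ g.seed.dom.1 g.seed.dom.2.1 f1 f2).1
    (NonemptyCompacts.isOpen_inter_nonempty_of_isOpen (oe_open g.seed.dom.1)).measurableSet.compl

theorem ev_far (hm : HLM) (g : Stg V E B D ε) (n : SWR.Nice1 V G) (h : G ∈ Ev V E B D ε) :
    (∀ z ∈ V, z ∈ SWR.KK V B G → z ∉ thickening ε E) ∧ Disjoint (SWR.KK V B G) E := by
  obtain ⟨f1, f2⟩ := fq g.seed.dom g.seed.cr
  have a : ∀ z ∈ V, z ∈ SWR.KK V B G → z ∉ thickening ε E := fun z h1 h2 h3 => h ⟨z,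
    (((hm V _ g.seed.dom.1 g.seed.dom.2.1 f1 f2).2 G).2.2.2 n).superset ((kk_v n h1).2 h2), h1, .inl h3⟩
  refine ⟨a, disjoint_left.2 fun z h1 h2 => a z ?_ h1 (self_subset_thickening g.pos E h2)⟩
  rcases h1 with h1 | ⟨_, ⟨U, h3, -, rfl⟩, h1⟩
  exacts [(disjoint_left.1 g.seed.disj h2 h1).elim, n.inside U h3 h1]

theorem mp_int {X Y : Type*} [MeasurableSpace X] [MeasurableSpace Y] {μ : Measure X} {ν : Measure Y}
    {a : X → Y} (h : MeasurePreserving a μ ν) {f : Y → ℝ} (hf : AEStronglyMeasurable f ν) :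
    ∫ y, f y ∂ν = ∫ x, f (a x) ∂μ := by
  rw [← h.map_eq] at hf ⊢
  exact integral_map h.aemeasurable hf

theorem step (hm : HLM) (wk : WK) (tl : TRLE) (ne : NOE) {𝒲 : Measure Pa} (hW : IsWiener 𝒲)
    (g : Stg V E B D ε) {Q1 : Measure (Sp V)} {W1 : GV V →ₗᵢ[ℝ] Lp ℝ 2 Q1} (c1 : Can V Q1 W1)
    {Q0 : Measure (Sp D)} {W0 : GV D →ₗᵢ[ℝ] Lp ℝ 2 Q0} (c0 : Can D Q0 W0) {S : Type}
    [MeasurableSpace S] [StandardBorelSpace S] {Q : Measure S} {π : S → Sp D}
    {W' : GV V →ₗᵢ[ℝ] Lp ℝ 2 Q} (t : Tra V E D ε Q0 Q π W') {A : Set (Sp D)} (mA : MeasurableSet A)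
    (hA : ∀ s ∈ A, (s 1).1 ∉ Jc D (cthickening ε B) (cthickening ε E)) {δ : ℝ} (hδ : 0 < δ)
    (h0 : 0 < η) (h1 : η ≤ ε) : ENNReal.ofReal (Q0.real A - δ) ≤ ∫⁻ s, (Ev V E B D ε).indicator
      (fun G => (ex (nu 𝒲 (Sg V B G ∩ (LV V ∩ Mt (cthickening η E)))))⁻¹) (s 1).1 ∂Q1 := by
  obtain ⟨ho, hb, -⟩ := id g.seed.dom
  obtain ⟨f1, f2⟩ := fq g.seed.dom g.seed.cr
  obtain ⟨m1, m2⟩ := hm V _ ho hb f1 f2
  obtain ⟨X, _, μ, a, a', p1, p2, p3, p4⟩ := ne V E B D ε g Q1 W1 c1 Q0 W0 c0 S Q π W' t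
  obtain ⟨n, φ, l, l0, hφ, tv⟩ := t.tv A mA δ η hδ h0
  have := c1.can.prob
  have : IsProbabilityMeasure μ := ⟨(p1.measure_preimage (s := univ) MeasurableSet.univ.nullMeasurableSet).trans measure_univ⟩
  have v0 := (compl_inf hb).nonempty
  have oe : Oe V E D η ⊆ Oe V E D ε :=
    inter_subset_inter_right _ (union_subset_union_left _ (thickening_mono h1 E))
  let T : Set NC := {A | ((A : Set ℂ) ∩ Oe V E D ε).Nonempty}ᶜ
  have mT : MeasurableSet T :=
    (NonemptyCompacts.isOpen_inter_nonempty_of_isOpen (oe_open ho)).measurableSet.compl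
  have hT : ∀ A ∈ T, ∀ j, Disjoint (tsupport (φ j)) (A : Set ℂ) := fun A h j =>
    disjoint_left.2 fun y y1 y2 => h ⟨y, y2, oe ((hφ j).2.2 y1)⟩
  have e := wk V Q1 W1 c1 _ (ho.isClosed_compl.union g.seed.cr) ⟨v0.inl, g.seed.pr⟩ subset_union_left
    n φ l (T.indicator 1) l0 ⟨measurable_one.indicator mT, 1, fun A => by
      by_cases h : A ∈ T <;> simp [h]⟩ (fun j => test_mono (hφ j) inter_subset_left)
    fun A h => hT A (mem_of_indicator_ne_zero h)
  have mt : ∀ {Y : Type} [MeasurableSpace Y] {P : Measure Y} (W : GV V →ₗᵢ[ℝ] Lp ℝ 2 P),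
      AEStronglyMeasurable (fun x => GT.tilt l fun j => W (Rv V (φ j)) x) P := fun W =>
    ((GT.cont_tilt l).measurable.comp_aemeasurable (aemeasurable_pi_lambda _ fun j =>
      (Lp.aestronglyMeasurable _).aemeasurable)).aestronglyMeasurable
  have m3 : AEStronglyMeasurable (fun s : Sp V => T.indicator (1 : NC → ℝ) (hl V ((Vᶜ ∪ B) ∩ closure V)
      (s 1).1) * GT.tilt l fun j => W1 (Rv V (φ j)) s) Q1 := ((measurable_one.indicator mT).comp
        (m1.comp (measurable_pi_apply 1).fst)).aestronglyMeasurable.mul (mt W1)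
  have b1 : ∫ x in π ⁻¹' A, GT.tilt l (fun j => W' (Rv V (φ j)) x) ∂Q ≤ ∫ s, T.indicator 1
      (hl V ((Vᶜ ∪ B) ∩ closure V) (s 1).1) * GT.tilt l (fun j => W1 (Rv V (φ j)) s) ∂Q1 := by
    have mp := t.qmp.measurable mA
    rw [← integral_indicator mp, mp_int p2 ((mt W').indicator mp), mp_int p1 m3]
    refine integral_mono_of_nonneg (.of_forall fun x => indicator_nonneg
      (fun _ _ => (GT.tilt_pos _ _).le) _) (.of_bound (m3.comp_measurePreserving p1) 1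
        (.of_forall fun x => ?_)) ?_
    · rw [norm_mul, Real.norm_of_nonneg (GT.tilt_pos _ _).le]
      exact mul_le_one₀ ((norm_indicator_le_norm_self _ _).trans (by simp)) (GT.tilt_pos _ _).le
        (GT.tilt_le l0 _)
    filter_upwards [ae_all_iff.2 fun j => p3 (Rv V (φ j)), p4,
      p1.quasiMeasurePreserving.ae c1.path] with x x1 x2 x3
    refine indicator_apply_le' (fun h => ?_) fun _ => mul_nonneg
      (indicator_nonneg (fun _ _ => zero_le_one) _) (GT.tilt_pos _ _).le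
    have d := kk_disj.2 ⟨g.far.mono_left (self_subset_cthickening B), x2 (hA _ h)⟩
    rw [indicator_of_mem, Pi.one_apply, one_mul, funext x1]
    rintro ⟨y, y1, y2, y3⟩
    have y4 := (kk_v x3.nice y2).1 (((m2 _).2.2.2 x3.nice).subset y1)
    exact y3.elim (fun c => disjoint_left.1 d y4 (thickening_subset_cthickening _ _ c)) fun c =>
      c (subset_closure (kk_sub x3.nice g.hole g.sub (d.mono_right (self_subset_cthickening E)) y2 y4))
  have zp := GT.Zd_pos l0 (Matrix.posSemidef_gram ℝ fun j => Rv V (φ j))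
  refine (ENNReal.mul_le_mul_iff_right (ENNReal.ofReal_pos.2 zp).ne' ENNReal.ofReal_ne_top).1 ?_
  rw [← lintegral_const_mul' _ _ ENNReal.ofReal_ne_top, ← ENNReal.ofReal_mul zp.le, mul_comm]
  refine (ENNReal.ofReal_le_ofReal ((tv.trans b1).trans_eq e)).trans ((Real.ofReal_le_enorm _).trans
    ((enorm_integral_le_lintegral_enorm _).trans (lintegral_mono_ae (c1.path.mono fun s hs => ?_))))
  by_cases h : (s 1).1 ∈ Ev V E B D ε
  swap
  · rw [indicator_of_notMem (s := T) h]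
    simp
  have k := (m2 (s 1).1).2.2.2 hs.nice
  rw [indicator_of_mem (s := T) h, indicator_of_mem h, Pi.one_apply, one_mul, Real.enorm_of_nonneg
    (GT.Zd_pos l0 (Matrix.posSemidef_gram ℝ _)).le]
  refine (tl 𝒲 hW V _ _ g.seed.dom (NonemptyCompacts.isCompact _).isClosed
    (k ▸ kk_conn hs.nice g.seed.pr v0) (oe_open ho) n φ l l0 fun j => test_of (hφ j) fun y hy =>
      ⟨(hφ j).2.2 hy, ((hφ j).2.2 hy).1, disjoint_left.1 (hT _ h j) hy⟩).trans
    (mul_le_mul_right (ENNReal.inv_le_inv.2 (ex_anti.antitone (measure_mono ?_))) _)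
  rintro γ ⟨a1, ⟨x, a2, a3⟩, y, a4, a5⟩
  have a6 := (kk_v hs.nice (a1 a2)).1 (k.subset a3)
  refine ⟨(sg_eq hb g.seed.cr hs.nice).superset ⟨x, a2, a6⟩, a1, a5.2.elim
    (fun c => ⟨y, a4, thickening_subset_cthickening _ _ c⟩) fun c => by_contra fun d => c ?_⟩
  exact subset_closure (sub_hole g.hole (isPreconnected_range γ.continuous)
    (fun w hw => ⟨a1 hw, fun e => d ⟨w, hw, self_subset_cthickening E e⟩⟩) a2
    (kk_sub hs.nice g.hole g.sub (ev_far hm g hs.nice h).2 (a1 a2) a6) a4)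

theorem lim (hm : HLM) (gs : GS) {𝒲 : Measure Pa} (hW : IsWiener 𝒲) (g : Stg V E B D ε)
    {c : ℝ≥0∞} (h : ∀ η, 0 < η → η ≤ ε → c ≤ ∫⁻ G, (Ev V E B D ε).indicator
      (fun G => (ex (nu 𝒲 (Sg V B G ∩ (LV V ∩ Mt (cthickening η E)))))⁻¹) G ∂L1 V) :
    c ≤ mm 𝒲 V B E := by
  obtain ⟨ho, hb, -⟩ := id g.seed.dom
  obtain ⟨g1, -, g2, -⟩ := gs V g.seed.dom
  have := sf_nu hW
  have e0 := g.pos
  have s1 : ∀ n, sc n ≤ 1 := fun n => (sc_anti n.zero_le).trans (by simp [sc])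
  have fin : ∀ G ∈ Ev V E B D ε, SWR.Nice1 V G → nu 𝒲 (Sg V B G ∩ (LV V ∩ Mt (cthickening
      (ε / 4 * sc 0) E))) ≤ nu 𝒲 {γ : CL | range γ ⊆ V ∧ ε / 4 < diam (range γ)} := fun G h n => by
    refine measure_mono ?_
    rintro γ ⟨a1, a2, y, a3, a4⟩
    obtain ⟨x, a5, a6⟩ := (sg_eq hb g.seed.cr n).subset a1
    refine ⟨a2, lt_of_not_ge fun c => (ev_far hm g n h).1 x (a2 a5) a6 ?_⟩
    obtain ⟨w, b1, b2⟩ := mem_thickening_iff.1 (cthickening_subset_thickening' (half_pos e0)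
      (by nlinarith [s1 0]) E a4)
    have := dist_le_diam_of_mem (isCompact_range γ.continuous).isBounded a5 a3
    exact mem_thickening_iff.2 ⟨w, b1, by linarith [dist_triangle x y w]⟩
  have fin' : nu 𝒲 {γ : CL | range γ ⊆ V ∧ ε / 4 < diam (range γ)} ≠ ⊤ :=
    ENNReal.mul_ne_top (by simp) (hW.fin hb (by positivity)).ne
  have an : ∀ G, Antitone fun n => Sg V B G ∩ (LV V ∩ Mt (cthickening (ε / 4 * sc n) E)) :=
    fun G m n e γ a => ⟨a.1, a.2.1, a.2.2.mono (inter_subset_inter_right _ (cthickening_mono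
      (mul_le_mul_of_nonneg_left (sc_anti e) (by positivity)) E))⟩
  have ms := fun n => (sg_meas ho g.seed.cr).inter (measurable_snd ((lv_meas ho).inter
    (mt_closed (isClosed_cthickening (δ := ε / 4 * sc n) (E := E)))))
  refine (le_iInf fun n => h (ε / 4 * sc n) (by have := sc_pos n; positivity)
    (by nlinarith [s1 n])).trans ((lintegral_iInf (fun n => ?_) (fun m n e G => ?_) ?_).symm.trans_le
      (lintegral_mono_ae (g2.mono fun G hG => ?_)))
  · exact (meas_ex.comp (measurable_measure_prodMk_left (ms n))).inv.indicator (ev_meas hm g)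
  · exact indicator_le_indicator (ENNReal.inv_le_inv.2 (ex_anti.antitone (measure_mono (an G e))))
  · refine ne_top_of_le_ne_top ?_ (lintegral_mono_ae (g2.mono fun G hG => indicator_apply_le'
      (fun h => ENNReal.inv_le_inv.2 (ex_anti.antitone (fin G h hG.nice))) fun _ => zero_le))
    simpa using fin'
  by_cases k : G ∈ Ev V E B D ε
  swap
  · exact (iInf_le _ 0).trans ((indicator_of_notMem k _).trans_le zero_le)
  rw [indicator_of_mem (show G ∈ {G : NC | Disjoint (SWR.KK V B G) E} from (ev_far hm g hG.nice k).2)]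
  refine (ge_of_tendsto' (((continuous_inv.comp cont_ex).tendsto _).comp
    (tendsto_measure_iInter_atTop (μ := nu 𝒲) (fun n => (measurable_prodMk_left (x := G)
      (ms n)).nullMeasurableSet) (an G) ⟨0, ne_top_of_le_ne_top fin' (fin G k hG.nice)⟩))
    fun n => (iInf_le _ n).trans_eq (indicator_of_mem k _)).trans
      (ENNReal.inv_le_inv.2 (ex_anti.antitone (measure_mono fun γ a => ?_)))
  have a0 := mem_iInter.1 a 0
  refine ⟨a0.2.1, (sg_eq hb g.seed.cr hG.nice).subset a0.1, not_disjoint_iff_nonempty_inter.1 fun d => ?_⟩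
  obtain ⟨d, d0, hd⟩ := d.exists_cthickenings (isCompact_range γ.continuous) g.seed.cq.isClosed
  obtain ⟨n, hn⟩ := (sc_ev (show 0 < d / (ε / 4) by positivity)).exists
  exact (mem_iInter.1 a n).2.2.not_disjoint (hd.mono (self_subset_cthickening _)
    (cthickening_mono ((le_div_iff₀' (by positivity)).1 hn) E))

/-- **FIN** -/
theorem fin_of (gs : GS) (can : CAN0) (hm : HLM) (wk : WK) (tl : TRLE) (tr : TRA) (ne : NOE) :
    MGEc := by
  rintro 𝒲 hW V E B s ⟨z, hz⟩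
  obtain ⟨ho, hb, -⟩ := id s.dom
  obtain ⟨g1, -, g2, -⟩ := gs V s.dom
  rcases (B ∩ V).eq_empty_or_nonempty with h0 | h0
  · refine (lintegral_one.trans measure_univ).symm.trans_le (lintegral_mono_ae (g2.mono fun G hG => ?_))
    rw [indicator_of_mem (show G ∈ {G : NC | Disjoint (SWR.KK V B G) E} from kk_disj.2 ⟨s.disj.symm,
      fun ⟨U, a, ⟨x, b, c⟩, _⟩ => h0.subset ⟨c, hG.nice.inside U a b⟩⟩)]
    exact ENNReal.one_le_inv.2 (ex_le _)
  have hD : IsHole V E (connectedComponentIn (V \ E) z) :=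
    ⟨z, connectedComponentIn_nonempty_iff.1 (h0.mono hz), rfl⟩
  generalize connectedComponentIn (V \ E) z = D at hz hD
  have dD : Dom D := dom_hole ho hb (ho.isClosed_compl.union s.cq.isClosed) s.pq subset_union_left
    (by rwa [IsHole, ← Set.sdiff_sdiff, sdiff_compl, inter_self])
  obtain ⟨Q1, W1, c1⟩ := can V s.dom
  obtain ⟨Q0, W0, c0⟩ := can D dD
  obtain ⟨d, d0, hd⟩ := s.disj.exists_cthickenings s.cq s.cr
  have := c0.can.prob
  have m0 : Measurable fun s : Sp D => (s 1).1 := (measurable_pi_apply 1).fst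
  refine ENNReal.le_of_forall_pos_le_add fun θ θ0 _ => ?_
  obtain ⟨r, r0, hr⟩ := big_small dD.2.1 dD.1 Q0 m0 (c0.path.mono fun s h => ⟨h.nice.inside, h.nice.fin⟩)
    (half_pos d0) (ENNReal.ofReal_pos.2 (half_pos (NNReal.coe_pos.2 θ0)))
  obtain ⟨ε, e0, e1, e2⟩ : ∃ ε : ℝ, 0 < ε ∧ 2 * ε ≤ r ∧ 4 * ε ≤ d :=
    ⟨min (r / 2) (d / 4), by positivity, by linarith [min_le_left (r / 2) (d / 4)],
      by linarith [min_le_right (r / 2) (d / 4)]⟩
  have g : Stg V E B D ε := ⟨s, hD, dD, hz, h0, e0,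
    hd.symm.mono (cthickening_mono (by linarith) _) (cthickening_mono (by linarith) _)⟩
  obtain ⟨S, _, _, Q, π, W', t⟩ := tr V E B D ε g Q0 W0 c0
  have mA := m0 (isOpen_jn dD.1 (thickening (2 * ε) B) (thickening (2 * ε) E)).measurableSet
  have := lim hm gs hW g fun η h0 h1 => (step hm wk tl ne hW g c1 c0 t mA.compl (fun s h c => h
    (jc_sub_jn isOpen_thickening isOpen_thickening (jc_mono (cthickening_subset_thickening'
      (by positivity) (by linarith) _) (cthickening_subset_thickening' (by positivity) (by linarith) _)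
        c))) (half_pos (NNReal.coe_pos.2 θ0)) h0 h1).trans_eq (by
      have := sf_nu hW
      rw [← c1.law, lintegral_map _ (measurable_pi_apply 1).fst]
      exact (meas_ex.comp (measurable_measure_prodMk_left ((sg_meas ho s.cr).inter (measurable_snd
        ((lv_meas ho).inter (mt_closed isClosed_cthickening)))))).inv.indicator (ev_meas hm g))
  refine le_trans ?_ (add_le_add_left this _)
  rw [← ENNReal.ofReal_coe_nnreal, ← ENNReal.ofReal_one]
  refine (ENNReal.ofReal_le_ofReal ?_).trans ENNReal.ofReal_add_le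
  have := ENNReal.toReal_le_of_le_ofReal (by positivity) ((measure_mono (preimage_mono
    (jn_sub_jc.trans (jc_sub_big (S := thickening (2 * ε) B) dD.2.1 isOpen_thickening
      ((thickening_mono e1 E).trans (thickening_subset_of_subset r fun x a b => (hole_sub hD b).2 a))
        fun x a y b => lt_of_not_ge fun c => ?_)))).trans hr)
  · rw [probReal_compl_eq_one_sub mA, Measure.real]
    linarith
  obtain ⟨w, b1, b2⟩ := mem_thickening_iff.1 b
  exact disjoint_left.1 hd (thickening_subset_cthickening _ _ (mem_thickening_iff.2 ⟨w, b1, by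
    linarith [dist_triangle x y w]⟩)) (thickening_subset_cthickening _ _
      (thickening_mono (by linarith) B a))

end Vale.Agent.P155.SG
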