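import Vale.Agent.P155SG.Fx3
import Vale.Agent.P155SG.FxS
import Vale.Agent.P155I.LIST

/-!
# P155, block (G): the flux statement
-/

namespace Vale.Agent.P155.Soup.Fx

open MeasureTheory Set Metric TopologicalSpace Vale.Agent.P155.Uq Vale.Agent.P155.U
  Vale.Agent.P155.SG

/-- a countable family of positive test functions -/
theorem exists_fam (y : ℂ) (s : ℝ) : ∃ φ : ℕ → ℂ → ℝ,
    (∀ k, IsTest (ball y s) (φ k) ∧ ∀ z, 0 ≤ φ k z) ∧
    ∀ f, IsTest (ball y s) f → (∀ z, 0 ≤ f z) → ∀ O, IsOpen O → tsupport f ⊆ O → ∀ ε : ℝ, 0 < ε →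
      ∃ k, tsupport (φ k) ⊆ O ∧ ∀ z, |φ k z - f z| ≤ ε := by
  let X := {f : ℂ → ℝ // IsTest (ball y s) f ∧ ∀ z, 0 ≤ f z}
  let J : X → Compacts ℂ × C(closedBall y s, ℝ) := fun f =>
    (⟨tsupport f.1, f.2.1.2.1⟩, ⟨fun z => f.1 z, f.2.1.1.continuous.comp continuous_subtype_val⟩)
  have : Nonempty (range J) := ⟨⟨J ⟨_, isTest_zero _, fun _ => le_rfl⟩, mem_range_self _⟩⟩
  choose e he using fun n => (denseSeq (range J) n).2
  refine ⟨fun n => (e n).1, fun n => (e n).2, fun f hf h0 O hO hs ε hε => ?_⟩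
  have hop : IsOpen {p : range J | (p.1.1 : Set ℂ) ⊆ O ∧ p.1.2 ∈ ball (J ⟨f, hf, h0⟩).2 ε} :=
    ((Compacts.isOpen_subsets_of_isOpen hO).preimage
      (continuous_fst.comp continuous_subtype_val)).inter
      (isOpen_ball.preimage (continuous_snd.comp continuous_subtype_val))
  obtain ⟨k, h1, h2⟩ := (denseRange_denseSeq (range J)).exists_mem_open hop
    ⟨⟨J ⟨f, hf, h0⟩, mem_range_self _⟩, hs, mem_ball_self hε⟩
  rw [← he] at h1 h2
  refine ⟨k, h1, fun z => ?_⟩
  by_cases hz : z ∈ closedBall y s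
  · exact (ContinuousMap.dist_apply_le_dist (f := (J (e k)).2) (g := (J ⟨f, hf, h0⟩).2)
      ⟨z, hz⟩).trans (mem_ball.1 h2).le
  · have hz' : z ∉ ball y s := fun h => hz (ball_subset_closedBall h)
    show |(e k).1 z - f z| ≤ ε
    rw [U.test_zero (e k).2.1 hz', U.test_zero hf hz']
    simpa using hε.le

variable {Ω K P : Set ℂ}

theorem un_ball (h : Un Ω K P) (ho : IsOpen (Ω \ K)) {z : ℂ} (hz : z ∈ Ω \ K)
    (hc : z ∈ closure P) : ∃ ε > 0, ball z ε ⊆ P := by
  obtain ⟨ε, hε, h1⟩ := Metric.isOpen_iff.1 ho z hz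
  exact ⟨ε, hε, h.2 _ (convex_ball z ε).isPreconnected h1
    (mem_closure_iff.1 hc _ isOpen_ball (mem_ball_self hε))⟩

theorem un_open (h : Un Ω K P) (ho : IsOpen (Ω \ K)) : IsOpen P :=
  Metric.isOpen_iff.2 fun _ hz => un_ball h ho (h.1 hz) (subset_closure hz)

theorem un_cl (h : Un Ω K P) (ho : IsOpen (Ω \ K)) {z : ℂ} (hz : z ∈ Ω \ K)
    (hc : z ∈ closure P) : z ∈ P := by
  obtain ⟨ε, hε, h1⟩ := un_ball h ho hz hc
  exact h1 (mem_ball_self hε)

theorem meas_ins (hΩ : IsOpen Ω) {T : Type} [MeasurableSpace T] {C : T → NC} {P : T → Set ℂ}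
    (hC : Measurable C) (hP : ∀ z, MeasurableSet {t | z ∈ P t}) {A : Set ℂ} (hA : IsClosed A) :
    ∃ E : Set T, MeasurableSet E ∧ ∀ t, A ⊆ Ω → Un Ω (C t) (P t) → (t ∈ E ↔ A ⊆ P t) := by
  obtain ⟨Z, h1, h2, h3⟩ := (IsSeparable.of_separableSpace A).exists_countable_dense_subset
  refine ⟨{t | Disjoint A (C t : Set ℂ)} ∩ ⋂ z ∈ Z, {t | z ∈ P t},
    (meas_disjoint hC hA).inter (MeasurableSet.biInter h2 fun z _ => hP z), fun t hAΩ hu => ?_⟩
  rw [mem_inter_iff, mem_iInter₂]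
  constructor
  · rintro ⟨h4, h5⟩ z hz
    exact un_cl hu (hΩ.sdiff (C t).isCompact.isClosed) ⟨hAΩ hz, disjoint_left.1 h4 hz⟩
      (closure_mono (fun w hw => h5 w hw) (h3 hz))
  · intro h
    exact ⟨disjoint_left.2 fun z hz => (hu.1 (h hz)).2, fun z hz => h (h1 hz)⟩

theorem geo_circ (g : UK.Geo Ω K) {p : ℂ} {t : ℝ} (ht : 0 < t) (h : infDist p K ≤ t) :
    ∃ z, z ∉ Ω \ K ∧ dist z p = t := by
  by_contra hn
  have hs : ∀ z, dist z p = t → z ∈ Ω \ K := fun z hz => by
    by_contra h'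
    exact hn ⟨z, h', hz⟩
  obtain ⟨a, ha, e⟩ := g.cp.exists_infDist_eq_dist g.cn.nonempty p
  have hK : ∀ z ∈ K, dist z p < t := by
    intro z hz
    by_contra h'
    have hc : ContinuousOn (fun w => dist w p) K := (continuous_id.dist continuous_const).continuousOn
    obtain ⟨w, hw, e'⟩ := g.cn.isPreconnected.intermediate_value ha hz hc
      (show t ∈ Icc (dist a p) (dist z p) from ⟨by rw [dist_comm, ← e]; exact h, not_lt.1 h'⟩)
    exact (hs w e').2 hw
  set S := (fun x : ℝ × ℝ => pp p x.1 x.2) '' (Ici t ×ˢ univ) with hS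
  have hd : ∀ x : ℝ × ℝ, t ≤ x.1 → dist (pp p x.1 x.2) p = x.1 := fun x hx => by
    rw [dist_eq_norm, norm_pp_sub p (ht.le.trans hx)]
  have hsub : S ⊆ Ω := by
    apply g.sub_of_conn ((isPreconnected_Ici.prod isPreconnected_univ).image _
      (continuous_pp p).continuousOn)
    · exact ⟨_, ⟨(t, 0), ⟨self_mem_Ici, mem_univ _⟩, rfl⟩, (hs _ (hd (t, 0) le_rfl)).1⟩
    · rintro _ ⟨x, hx, rfl⟩ hw
      have := hK _ hw
      rw [hd x hx.1] at this
      exact absurd hx.1 (not_le.2 this)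
  obtain ⟨R, hR⟩ := g.bd.subset_closedBall p
  have h1 := hR (hsub ⟨(max t (R + 1), 0), ⟨mem_Ici.2 (le_max_left _ _), mem_univ _⟩, rfl⟩)
  rw [mem_closedBall, hd _ (le_max_left _ _)] at h1
  linarith [le_max_right t (R + 1)]

/-- the passage to the countable family -/
theorem flux1 (hb : Bornology.IsBounded Ω) (y : ℂ) {s : ℝ} (hs : 0 < s) {φ : ℕ → ℂ → ℝ}
    (h1 : ∀ k, IsTest (ball y s) (φ k))
    (h2 : ∀ f, IsTest (ball y s) f → (∀ z, 0 ≤ f z) → ∀ O, IsOpen O → tsupport f ⊆ O →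
      ∀ ε : ℝ, 0 < ε → ∃ k, tsupport (φ k) ⊆ O ∧ ∀ z, |φ k z - f z| ≤ ε) :
    ∃ C : ℝ, ∀ U O T : Set ℂ, IsOpen U → U ⊆ Ω → IsOpen O → IsCompact T → T ⊆ O → O ⊆ U →
      T ⊆ closedBall y (s / 2) → ∃ k, tsupport (φ k) ⊆ O ∧
      greenEnergy U (φ k) - greenEnergy (U ∩ ball y s) (φ k) ≤ C ∧
      ∀ (S : Set ℂ) (p : ℂ) (a L : ℝ), S ⊆ T → 0 < a →
        Cross U S p a (Real.exp (2 * Real.pi * (Real.sqrt |L| + 3) ^ 2) * a) →
        L ≤ greenEnergy U (φ k) - greenEnergy (U \ S) (φ k) := by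
  obtain ⟨C, hC⟩ := flux0 y hs
  obtain ⟨K1, hK1, hK⟩ := l1_bound hb
  refine ⟨(|C| + 1) ^ 2, fun U O T hU hUΩ hO hT hTO hOU hTs => ?_⟩
  have hTb : T ⊆ ball y s := hTs.trans (closedBall_subset_ball (by linarith))
  obtain ⟨f, hf, hf0, hfr⟩ := hC U (O ∩ ball y s) T hU (hb.subset hUΩ) (hO.inter isOpen_ball) hT
    (subset_inter hTO hTb) (inter_subset_left.trans hOU) hTs
  obtain ⟨k, hk1, hk2⟩ := h2 f ⟨hf.1, hf.2.1, hf.2.2.trans inter_subset_right⟩ hf0 O hO
    (hf.2.2.trans inter_subset_left) K1⁻¹ (by positivity)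
  have hfU : IsTest U f := ⟨hf.1, hf.2.1, hf.2.2.trans (inter_subset_left.trans hOU)⟩
  have hkU : IsTest U (φ k) := ⟨(h1 k).1, (h1 k).2.1, hk1.trans hOU⟩
  obtain ⟨r, hr, hrf⟩ := exists_R (hb.subset hUΩ) hfU
  obtain ⟨r', hr', hrk⟩ := exists_R (hb.subset hUΩ) hkU
  obtain ⟨h3, h4⟩ := hfr r hr hrf
  have hd : ‖r' - r‖ ≤ 1 := by
    apply norm_le_of_test ((GV U).sub_mem hr' hr) zero_le_one
    intro v hv
    have hi : ∀ g, IsTest U g → Integrable fun z => g z * v z := fun g hg =>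
      (hg.1.continuous.mul hv.1.continuous).integrable_of_hasCompactSupport hg.2.1.mul_right
    rw [inner_sub_left, hrf v hv, hrk v hv, ← integral_sub (hi _ hkU) (hi _ hfU)]
    simp only [← sub_mul]
    refine (abs_int_le hk2 (test_int hv)).trans ?_
    rw [inv_mul_le_iff₀ hK1, one_mul]
    exact hK v ⟨hv.1, hv.2.1, hv.2.2.trans hUΩ⟩
  refine ⟨k, hk1, ?_, fun S p a L hS ha hc => ?_⟩
  · rw [drop_eq inter_subset_left hr' hrk]
    apply pow_le_pow_left₀ (dr_nonneg _ _)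
    linarith [dr_lip (U ∩ ball y s) r' r, le_abs_self C]
  · rw [drop_eq sdiff_subset hr' hrk]
    have h5 := h4 S p a _ hS ha (le_mul_of_one_le_left ha.le
      (Real.one_le_exp (by positivity))) hc
    have hpi := Real.pi_pos
    rw [mul_div_cancel_right₀ _ ha.ne', Real.log_exp, mul_div_cancel_left₀ _ (by positivity),
      Real.sqrt_sq (by positivity)] at h5
    have h6 := dr_lip (U \ S) r r'
    rw [norm_sub_rev] at h6
    have h7 : Real.sqrt |L| ^ 2 ≤ dr (U \ S) r' ^ 2 :=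
      pow_le_pow_left₀ (Real.sqrt_nonneg _) (by linarith) 2
    rw [Real.sq_sqrt (abs_nonneg _)] at h7
    exact (le_abs_self L).trans h7

end Vale.Agent.P155.Soup.Fx

namespace Vale.Agent.P155.SG

open MeasureTheory Set Metric TopologicalSpace Vale.Agent.P155.Uq Vale.Agent.P155.U
  Vale.Agent.P155.Soup Vale.Agent.P155.Soup.Fx

/-- **FLUX2** -/
theorem flux2 : FLUX2 := by
  classical
  intro Ω y r hΩ hb hr hyΩ
  obtain ⟨φ, hφ, hd⟩ := exists_fam y r
  obtain ⟨C0, hC0⟩ := flux1 hb y hr (fun k => (hφ k).1) hd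
  refine ⟨C0, fun L => ?_⟩
  set N := Real.exp (2 * Real.pi * (Real.sqrt |L| + 3) ^ 2) with hN
  have hN1 : 1 ≤ N := Real.one_le_exp (by positivity)
  refine ⟨2 * N + 1, fun δ hδ T _ C P hC hP => ?_⟩
  have hbΩ : closedBall y r ⊆ Ω := (closedBall_subset_closedBall (by linarith)).trans hyΩ
  have hFU := list_ok.2.1
  have : Countable Soup.FU := Lst.fu_count.to_subtype
  choose E1 hE1 hE1' using fun k => meas_ins hΩ hC hP (isClosed_tsupport (φ k))
  choose E2 hE2 hE2' using fun A : Soup.FU => meas_ins hΩ hC hP (hFU A.1 A.2).1.isClosed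
  have hB0 : ∀ k, ∃ M : ℝ, ∀ z, |φ k z| ≤ M := fun k =>
    (hφ k).1.2.1.exists_bound_of_continuous (hφ k).1.1.continuous
  choose B hB using hB0
  let det : Soup.FU × ℕ × ℚ → Prop := fun i => i.1.1 ⊆ closedBall y (r / 2) ∧ (0 : ℝ) < i.2.2 ∧
    ∀ t ∈ Icc (i.2.2 : ℝ) (N * i.2.2), ∃ z ∈ i.1.1, dist z (denseSeq ℂ i.2.1) = t
  let rnd : Soup.FU × ℕ × ℚ → Set T := fun i => E2 i.1 ∩
    ({t | Disjoint (cthickening (δ / 2) i.1.1) (C t : Set ℂ)} ∩
      {t | infDist (denseSeq ℂ i.2.1) (C t : Set ℂ) ≤ i.2.2})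
  let G : ℕ → Set T := fun k => E1 k ∩
    ({t | greenEnergy (Ω \ C t) (φ k) - greenEnergy (ball y r \ C t) (φ k) ≤ C0} ∩
      ⋂ i : {i // det i}, ((rnd i.1)ᶜ ∪
        {t | L ≤ greenEnergy (Ω \ C t) (φ k) - greenEnergy ((Ω \ i.1.1.1) \ C t) (φ k)}))
  have hG : ∀ k, MeasurableSet (G k) := by
    intro k
    refine (hE1 k).inter ((measurableSet_le ((meas_green hb (hB k) hC).sub
      (meas_green isBounded_ball (hB k) hC)) measurable_const).inter
      (MeasurableSet.iInter fun i => MeasurableSet.union (MeasurableSet.compl ?_) ?_))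
    · exact (hE2 _).inter ((meas_disjoint hC isClosed_cthickening).inter (measurableSet_le
        ((lipschitz_infDist_set _).continuous.measurable.comp hC) measurable_const))
    · exact measurableSet_le measurable_const ((meas_green hb (hB k) hC).sub
        (meas_green (hb.subset sdiff_subset) (hB k) hC))
  have hex : ∀ t, ∃ k, t ∈ G k ∪ (⋃ j, G j)ᶜ := by
    intro t
    by_cases h : t ∈ ⋃ j, G j
    · obtain ⟨k, hk⟩ := mem_iUnion.1 h
      exact ⟨k, Or.inl hk⟩
    · exact ⟨0, Or.inr h⟩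
  refine ⟨φ, fun t => Nat.find (hex t), measurable_find hex fun k =>
    (hG k).union (MeasurableSet.iUnion hG).compl, hφ, fun t hg hu => ?_⟩
  have hU : IsOpen (Ω \ (C t : Set ℂ)) := hΩ.sdiff hg.cp.isClosed
  have hPo := un_open hu hU
  have hne := hg.cn.nonempty
  have hin : ∀ z ∈ closedBall y (r / 2), δ / 2 ≤ infDist z (C t : Set ℂ) → z ∈ Ω \ C t := by
    intro z hz h
    refine ⟨hbΩ (closedBall_subset_closedBall (by linarith) hz), fun h' => ?_⟩
    rw [infDist_zero_of_mem h'] at h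
    linarith
  have hGt : t ∈ ⋃ j, G j := by
    set T0 := (closedBall y (r / 2) ∩ {z | δ / 2 ≤ infDist z (C t : Set ℂ)}) ∩ P t with hT0
    have hcl : IsClosed (closedBall y (r / 2) ∩ {z | δ / 2 ≤ infDist z (C t : Set ℂ)}) :=
      isClosed_closedBall.inter (isClosed_le continuous_const (continuous_infDist_pt _))
    have hT0c : IsCompact T0 := by
      apply (isCompact_closedBall y (r / 2)).of_isClosed_subset _
        (inter_subset_left.trans inter_subset_left)
      apply isClosed_of_closure_subset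
      intro z hz
      have h1 := hcl.closure_subset (closure_mono inter_subset_left hz)
      exact ⟨h1, un_cl hu hU (hin z h1.1 h1.2) (closure_mono inter_subset_right hz)⟩
    obtain ⟨k, h1, h2, h3⟩ := hC0 _ (P t) T0 hU sdiff_subset hPo hT0c inter_subset_right hu.1
      (inter_subset_left.trans inter_subset_left)
    refine mem_iUnion.2 ⟨k, (hE1' k t ((hφ k).1.2.2.trans (ball_subset_closedBall.trans hbΩ))
      hu).2 h1, ?_, mem_iInter.2 fun i => ?_⟩
    · have e : (Ω \ (C t : Set ℂ)) ∩ ball y r = ball y r \ C t := by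
        ext z
        exact ⟨fun h => ⟨h.2, h.1.2⟩, fun h => ⟨⟨hbΩ (ball_subset_closedBall h.1), h.2⟩, h.1⟩⟩
      rw [e] at h2
      exact h2
    · by_cases hi : t ∈ rnd i.1
      · right
        obtain ⟨d1, d2, d3⟩ := i.2
        obtain ⟨r1, r2, r3⟩ := hi
        have h4 := (hE2' _ t (d1.trans ((closedBall_subset_closedBall (by linarith)).trans hbΩ))
          hu).1 r1
        have h5 := h3 i.1.1.1 (denseSeq ℂ i.1.2.1) i.1.2.2 L (fun z hz => ⟨⟨d1 hz, ?_⟩, h4 hz⟩) d2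
          fun s hs => ⟨d3 s hs, geo_circ hg (d2.trans_le hs.1) (le_trans r3 hs.1)⟩
        · rw [sdiff_sdiff_comm] at h5
          exact h5
        · by_contra h6
          obtain ⟨c, hc, h7⟩ := (infDist_lt_iff hne).1 (not_le.1 h6)
          exact disjoint_left.1 r2
            (mem_cthickening_of_dist_le c z _ _ hz (by rw [dist_comm]; exact h7.le)) hc
      · exact Or.inl hi
  set k := Nat.find (hex t) with hk
  obtain ⟨g1, g2, g3⟩ : t ∈ G k := (Nat.find_spec (hex t)).resolve_right fun h => h hGt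
  refine ⟨(hE1' k t ((hφ k).1.2.2.trans (ball_subset_closedBall.trans hbΩ)) hu).1 g1, g2, ?_⟩
  rintro S hS ⟨l, D, hl, hD, hDs, hDδ, q, hq, q', hq', h1, h2, -⟩
  have hle : greenEnergy (Ω \ ((C t : Set ℂ) ∪ S)) (φ k) ≤ greenEnergy (Ω \ C t) (φ k) - L := by
    apply greenEnergy_le
    intro v hv
    have c1 : closure D ⊆ closedBall y (r / 4) :=
      closure_minimal (fun z hz => ball_subset_closedBall (hDs hz).2) isClosed_closedBall
    have c2 : closure D ⊆ {z | δ ≤ infDist z (C t : Set ℂ)} :=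
      closure_minimal hDδ (isClosed_le continuous_const (continuous_infDist_pt _))
    have c3 : closure D ⊆ (C t : Set ℂ) ∪ S :=
      closure_minimal (fun z hz => Or.inr (hDs hz).1.1) hS.cp.isClosed
    obtain ⟨A, hA, a1, a2, a3⟩ := Sb.exists_fu (Γ := closure D)
      (O := (tsupport v)ᶜ ∩ ({z | δ / 2 < infDist z (C t : Set ℂ)} ∩ (ball y (r / 2) ∩ P t)))
      ((isCompact_closedBall _ _).of_isClosed_subset isClosed_closure c1)
      (IsConnected.closure ⟨⟨q, hq⟩, hD⟩)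
      ((isClosed_tsupport v).isOpen_compl.inter
        ((isOpen_lt continuous_const (continuous_infDist_pt _)).inter (isOpen_ball.inter hPo)))
      fun z hz => by
        have h3 : δ ≤ infDist z (C t : Set ℂ) := c2 hz
        exact ⟨fun h => (hv.2.2 h).2 (c3 hz), show δ / 2 < _ by linarith,
          closedBall_subset_ball (by linarith) (c1 hz),
          un_cl hu hU (hin z (closedBall_subset_closedBall (by linarith) (c1 hz)) (by linarith))
            (closure_mono (fun w hw => (hDs hw).1.2) hz)⟩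
    obtain ⟨j, hj⟩ := (denseRange_denseSeq ℂ).exists_dist_lt q (half_pos hl)
    obtain ⟨a, ha1, ha2⟩ := exists_rat_btwn (show 3 * l / 2 < 2 * l by linarith)
    have hsub : D ⊆ A := subset_closure.trans (a1.trans interior_subset)
    have hdet : det (⟨A, hA⟩, j, a) := by
      refine ⟨fun z hz => ball_subset_closedBall (a2 hz).2.2.1, by simp only; linarith, ?_⟩
      intro s hs
      refine a3.isPreconnected.intermediate_value (f := fun w => dist w (denseSeq ℂ j))
        (hsub hq) (hsub hq') (continuous_id.dist continuous_const).continuousOn ⟨?_, ?_⟩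
      · have := hs.1
        simp only at this ⊢
        linarith
      · have h3 := hs.2
        have h4 := dist_triangle q (denseSeq ℂ j) q'
        rw [dist_comm (denseSeq ℂ j)] at h4
        have h5 := mul_le_mul_of_nonneg_left ha2.le (zero_le_one.trans hN1)
        simp only at h3 ⊢
        linarith
    have hrnd : t ∈ rnd (⟨A, hA⟩, j, a) := by
      refine ⟨(hE2' ⟨A, hA⟩ t (fun z hz => (hu.1 (a2 hz).2.2.2).1) hu).2 fun z hz => (a2 hz).2.2.2,
        disjoint_left.2 fun c hc hc' => ?_, ?_⟩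
      · rw [(hFU A hA).1.cthickening_eq_biUnion_closedBall (half_pos hδ).le, mem_iUnion₂] at hc
        obtain ⟨z, hz, h3⟩ := hc
        have h4 : δ / 2 < infDist z (C t : Set ℂ) := (a2 hz).2.1
        have h5 := infDist_le_dist_of_mem (x := z) hc'
        rw [mem_closedBall, dist_comm] at h3
        linarith
      · have h3 := infDist_le_infDist_add_dist (s := (C t : Set ℂ)) (x := denseSeq ℂ j) (y := q)
        rw [dist_comm] at h3
        show infDist (denseSeq ℂ j) (C t : Set ℂ) ≤ (a : ℝ)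
        linarith
    have h6 : L ≤ greenEnergy (Ω \ C t) (φ k) - greenEnergy ((Ω \ A) \ C t) (φ k) :=
      (mem_iInter.1 g3 ⟨_, hdet⟩).resolve_left fun h => h hrnd
    have h7 : gval (φ k) v ≤ greenEnergy ((Ω \ A) \ C t) (φ k) :=
      gval_le_green ((hb.subset sdiff_subset).subset sdiff_subset) (hB k)
        ⟨hv.1, hv.2.1, fun z hz => ⟨⟨(hv.2.2 hz).1, fun h => (a2 h).1 hz⟩,
          fun h => (hv.2.2 hz).2 (Or.inl h)⟩⟩
    unfold gval at h7
    linarith
  linarith

end Vale.Agent.P155.SG
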