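import Vale.Agent.P155SG.Hj1
import Vale.Agent.P155.U.Sub
import Vale.Agent.P155.U.Taylor
import Mathlib.MeasureTheory.Covering.DensityTheorem

/-!
# P155, block (G): the cutoff is a Hilbert-Schmidt operator on the harmonic fields
-/

set_option linter.all false

namespace Vale.Agent.P155.SG.Hj

open MeasureTheory Set Metric Filter Topology Vale.Agent.P155 Vale.Agent.P155.Uq
  Vale.Agent.P155.SG Vale.Agent.P155.UK

variable {V W A : Set ℂ} {v χ φ : ℂ → ℝ} {M : ℝ}

/-- the values of a field of finite energy -/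
noncomputable def val (V : Set ℂ) : GV V →L[ℝ] Lp ℝ 2 (volume : Measure ℂ) :=
  (toL2 V).extendOfNorm (grM V)

theorem val_gr (hb : Bornology.IsBounded V) (v : testMod V) : val V (grM V v) = toL2 V v := by
  obtain ⟨C, hC, h⟩ := poinc_sq hb
  refine LinearMap.extendOfNorm_eq (dense_grM V) ⟨√C, fun v => ?_⟩ v
  rw [norm_toL2]
  have h1 : ‖grM V v‖ = √(‖gr (v : ℂ → ℝ)‖ ^ 2) := (Real.sqrt_sq (norm_nonneg _)).symm
  rw [h1, ← Real.sqrt_mul hC.le, U.norm_gr v.2]
  exact Real.sqrt_le_sqrt (h v v.2)

theorem toL2_ae (v : testMod V) : (toL2 V v : ℂ → ℝ) =ᵐ[volume] v := (tmemLp v.2).coeFn_toLp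

theorem val_inner (hb : Bornology.IsBounded V) (hφ : IsTest univ φ) (e : GV V) :
    inner ℝ e (Rv V φ) = ∫ z, φ z • val V e z := by
  have h1 : ∀ e : GV V, ∫ z, φ z • val V e z = inner ℝ (val V e) (toL2 univ ⟨φ, hφ⟩) := fun e => by
    rw [L2.inner_def]
    refine integral_congr_ae ?_
    filter_upwards [toL2_ae (⟨φ, hφ⟩ : testMod univ)] with z hz
    rw [hz]
    simp
  rw [h1]
  refine (dense_grM V).induction_on e (isClosed_eq ?_ ?_) fun v => ?_
  · exact continuous_id.inner continuous_const
  · exact (val V).continuous.inner continuous_const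
  · rw [← h1, val_gr hb, real_inner_comm, Submodule.coe_inner]
    change inner ℝ _ (gr v) = _
    rw [Rv_inner hb hφ v.2]
    refine integral_congr_ae ?_
    filter_upwards [toL2_ae v] with z hz
    rw [hz, smul_eq_mul]

theorem bump_lim (g : Lp ℝ 2 (volume : Measure ℂ)) :
    ∀ᵐ x, Tendsto (fun s => ∫ z, bump x s z • g z) (𝓝[>] 0) (𝓝 (g x)) := by
  have hl : LocallyIntegrable g := (Lp.memLp g).locallyIntegrable (by norm_num)
  obtain ⟨B, hB0, hB⟩ := bump_bound
  filter_upwards [IsUnifLocDoublingMeasure.ae_tendsto_average_norm_sub volume hl 1] with x hx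
  refine tendsto_integral_smul_of_tendsto_average_norm_sub (a := fun s => closedBall x s)
    (B * Real.pi) (hx (fun _ => x) id tendsto_id ?_) ?_ ?_ ?_ ?_
  · filter_upwards [self_mem_nhdsWithin] with s hs
    exact mem_closedBall_self (by rw [one_mul]; exact le_of_lt hs)
  · exact Eventually.of_forall fun s => hl.integrableOn_isCompact (isCompact_closedBall x s)
  · refine tendsto_const_nhds.congr' ?_
    filter_upwards [self_mem_nhdsWithin] with s hs
    exact (integral_bump x hs).symm
  · filter_upwards [self_mem_nhdsWithin] with s hs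
    exact (subset_tsupport _).trans (bump_tsupport hs)
  · filter_upwards [self_mem_nhdsWithin] with s hs y
    have hs' : 0 < s := hs
    have hv : volume.real (closedBall x s) = s ^ 2 * Real.pi := by
      rw [Measure.real, Complex.volume_closedBall]
      simp [ENNReal.toReal_ofReal hs'.le]
    rw [abs_of_nonneg (bump_nonneg _ _ _), hv, mul_div_mul_right _ _ Real.pi_pos.ne']
    exact hB x s y hs'

/-- Caccioppoli inequality -/
theorem Ct.cacc (c : Ct V W χ M) {G : Set ℂ} (hG : MeasurableSet G)
    (h0 : ∀ z ∈ W, z ∉ G → fderiv ℝ χ z = 0) (e : GV V) (he : (e : Uq.HL) ∈ (GV W)ᗮ) :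
    ‖c.J e‖ ^ 2 ≤ M ^ 2 * ∫ z in G, val V e z ^ 2 := by
  set ι : GV W →L[ℝ] GV V := (GV W).subtypeL.codRestrict (GV V) fun f => U.GV_mono c.sub f.2
  set T := LpToLpRestrictCLM ℂ ℝ ℝ volume 2 G
  have hT : ∀ g : Lp ℝ 2 (volume : Measure ℂ), ‖T g‖ ^ 2 = ∫ z in G, g z ^ 2 := fun g => by
    rw [← real_inner_self_eq_norm_sq, L2.inner_def]
    refine integral_congr_ae ?_
    filter_upwards [LpToLpRestrictCLM_coeFn ℝ G g] with z hz
    rw [show T g z = g z from hz]
    simp [sq]
  have key : ∀ e : GV V, ‖c.J e‖ ^ 2 ≤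
      inner ℝ (e : Uq.HL) (c.J (ι (c.J e)) : Uq.HL) + M ^ 2 * ‖T (val V e)‖ ^ 2 := by
    intro e
    refine (dense_grM V).induction_on e (isClosed_le ?_ ?_) fun v => ?_
    · exact c.J.continuous.norm.pow 2
    · exact (continuous_subtype_val.inner (continuous_subtype_val.comp (c.J.continuous.comp
        (ι.continuous.comp c.J.continuous)))).add
        (continuous_const.mul ((T.continuous.comp (val V).continuous).norm.pow 2))
    · have hc := test_mono (c.test v.2) c.sub
      have e1 : ι (c.J (grM V v)) = grM V ⟨_, hc⟩ := Subtype.ext (c.J_gr v)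
      have e2 : ‖c.J (grM V v)‖ = ‖gr (cut W χ v)‖ := by rw [← c.J_gr]; rfl
      have e3 : ∫ z in G, val V (grM V v) z ^ 2 = ∫ z, G.indicator (fun z => v.1 z ^ 2) z := by
        rw [integral_indicator hG, val_gr c.bd]
        refine integral_congr_ae (ae_restrict_of_ae ?_)
        filter_upwards [toL2_ae v] with z hz
        rw [hz]
      rw [e1, c.J_gr, e2, hT, e3, U.norm_gr hc]
      change _ ≤ inner ℝ (gr v) (gr (cut W χ (cut W χ v))) + _
      have hcc := c.test hc
      have i1 : ∀ a : ℂ, Integrable fun z => fderiv ℝ v.1 z a * fderiv ℝ (cut W χ (cut W χ v)) z a :=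
        fun a => ((U.smooth_dir v.2.1 a).continuous.mul
          (U.smooth_dir hcc.1 a).continuous).integrable_of_hasCompactSupport
          (v.2.2.1.fderiv_apply ℝ a).mul_right
      have i2 : Integrable (G.indicator fun z => v.1 z ^ 2) :=
        (tmemLp v.2).integrable_sq.indicator hG
      have i3 : Integrable fun z => fderiv ℝ v.1 z 1 * fderiv ℝ (cut W χ (cut W χ v)) z 1 +
          fderiv ℝ v.1 z Complex.I * fderiv ℝ (cut W χ (cut W χ v)) z Complex.I :=
        (i1 1).add (i1 Complex.I)
      rw [U.inner_gr v.2 hcc, ← integral_const_mul, ← integral_add i3 (i2.const_mul _)]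
      refine integral_mono (U.test_sq hc) (i3.add (i2.const_mul _)) fun z => ?_
      simp only [Pi.add_apply, c.fd hc, c.fd v.2]
      by_cases hz : z ∈ W
      · have k0 : cut W χ v z = χ z * v.1 z := indicator_of_mem hz _
        simp only [indicator_of_mem hz, k0, U.norm_sq_clm, ContinuousLinearMap.add_apply,
          ContinuousLinearMap.smul_apply, smul_eq_mul]
        have k1 : v.1 z ^ 2 * ((fderiv ℝ χ z 1) ^ 2 + (fderiv ℝ χ z Complex.I) ^ 2) ≤
            M ^ 2 * G.indicator (fun z => v.1 z ^ 2) z := by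
          rw [← U.norm_sq_clm]
          by_cases hzG : z ∈ G
          · rw [indicator_of_mem hzG, mul_comm]
            exact mul_le_mul_of_nonneg_right
              (pow_le_pow_left₀ (norm_nonneg _) (c.dle z (c.sub hz)) 2) (sq_nonneg _)
          · rw [indicator_of_notMem hzG, h0 z hz hzG]
            simp
        nlinarith
      · simp only [indicator_of_notMem hz, norm_zero, ContinuousLinearMap.zero_apply, mul_zero,
          add_zero, zero_add, zero_pow two_ne_zero]
        exact mul_nonneg (sq_nonneg _) (indicator_nonneg (fun y _ => sq_nonneg _) z)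
  have h1 := key e
  rwa [(Submodule.mem_orthogonal' _ _).1 he _ (c.J _).2, zero_add, hT] at h1

/-- the harmonic part of the energy of small bumps is bounded -/
theorem drop_le (hb : Bornology.IsBounded V) (hW : IsOpen W) (hWV : W ⊆ V) {ρ : ℝ} (hρ : 0 < ρ) :
    ∃ C0 : ℝ, ∀ x ∈ W, Disjoint (V ∩ ball x ρ) (frontier W) → ∀ s, 0 < s → s ≤ ρ / 2 →
      closedBall x s ⊆ W → greenEnergy V (bump x s) - greenEnergy W (bump x s) ≤ C0 := by
  obtain ⟨R, hR⟩ := hb.subset_ball (0 : ℂ)
  obtain ⟨B, hB0, hB⟩ := bump_bound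
  refine ⟨160 * (|R| + ρ) ^ 4 * (B / (ρ / 2) ^ 2) ^ 2, fun x hx hd s hs hsρ hsW => ?_⟩
  have hbd : ∀ t, 0 < t → ∀ z, |bump x t z| ≤ B / t ^ 2 := fun t ht z => by
    rw [abs_of_nonneg (bump_nonneg _ _ _)]
    exact hB x t z ht
  have ht : ∀ t, 0 < t → IsTest univ (bump x t) := fun t ht => bump_test ht (subset_univ _)
  have h1 := green_clopen hW (hb.subset hWV) hd (bump_test hs hsW)
  have h2 := U.sub_energy hb (isBounded_ball (x := x) (r := ρ))
    (bump_contDiff x s).continuous.aestronglyMeasurable (hbd s hs) (bump_nonneg x s)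
  set O := V ∪ ball x ρ
  have hO : O ⊆ ball 0 (|R| + ρ) := by
    rintro z (hz | hz)
    · exact ball_subset_ball (by linarith [le_abs_self R]) (hR hz)
    · have k1 := mem_ball.1 (hR (hWV hx))
      have k2 := mem_ball.1 hz
      rw [mem_ball]
      linarith [dist_triangle z x 0, le_abs_self R]
  have hOb : Bornology.IsBounded O := isBounded_ball.subset hO
  have h3 := green_le (by positivity) hO (hbd (ρ / 2) (by positivity))
  have hp : IsTest (ball x ρ) (pdiff x (ρ / 2) s) := pdiff_test (by positivity) hs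
    (closedBall_subset_ball (max_lt (by linarith) (by linarith)))
  have h4 : (Rv O (bump x s) : Uq.HL) = Rv O (bump x (ρ / 2)) + gr (pdiff x (ρ / 2) s) := by
    have k1 := tlin (ht s hs) (ht (ρ / 2) (by positivity)) 1 (-1)
    have k2 : (fun z => 1 * bump x s z + -1 * bump x (ρ / 2) z) =
        fun z => bump x s z - bump x (ρ / 2) z := by
      funext z
      ring
    have k3 := Rv_lap hOb (test_mono hp subset_union_right) k1
      (by rw [k2]; exact negLap_pdiff x hs (by positivity))
    rw [← k3, Rv_lin hOb (ht s hs) (ht (ρ / 2) (by positivity))]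
    simp
  have h5 : greenEnergy O (bump x s) - greenEnergy (ball x ρ) (bump x s) ≤
      greenEnergy O (bump x (ρ / 2)) := by
    rw [green_proj' hOb subset_union_right (ht s hs), green_Rv hOb (ht s hs),
      green_Rv hOb (ht _ (by positivity))]
    have k1 := Submodule.norm_sq_eq_add_norm_sq_starProjection (Rv O (bump x s) : Uq.HL)
      (GV (ball x ρ))
    have k2 : (GV (ball x ρ))ᗮ.starProjection (Rv O (bump x s) : Uq.HL) =
        (GV (ball x ρ))ᗮ.starProjection (Rv O (bump x (ρ / 2)) : Uq.HL) := by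
      rw [h4, map_add, Submodule.starProjection_orthogonal_apply_eq_zero (U.gr_mem hp), add_zero]
    have k3 := pow_le_pow_left₀ (norm_nonneg _) (Submodule.norm_starProjection_apply_le
      (GV (ball x ρ))ᗮ (Rv O (bump x (ρ / 2)) : Uq.HL)) 2
    rw [k2] at k1
    rw [← Submodule.coe_norm] at k1 k3
    linarith
  linarith

theorem bessel (hb : Bornology.IsBounded V) (hWV : W ⊆ V) (hφ : IsTest univ φ) {n : ℕ}
    {e : Fin n → GV V} (he : Orthonormal ℝ e) (hp : ∀ j, (e j : Uq.HL) ∈ (GV W)ᗮ) :
    ∑ j, inner ℝ (e j) (Rv V φ) ^ 2 ≤ greenEnergy V φ - greenEnergy W φ := by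
  have he' : Orthonormal ℝ fun j => (e j : Uq.HL) := he.comp_linearIsometry (GV V).subtypeₗᵢ
  have h1 := he'.sum_inner_products_le (s := Finset.univ)
    ((GV W)ᗮ.starProjection (Rv V φ : Uq.HL))
  have k1 := Submodule.norm_sq_eq_add_norm_sq_starProjection (Rv V φ : Uq.HL) (GV W)
  rw [green_proj' hb hWV hφ, green_Rv hb hφ, Submodule.coe_norm]
  refine le_trans (le_of_eq (Finset.sum_congr rfl fun j _ => ?_)) (h1.trans (by linarith))
  rw [← Submodule.inner_starProjection_left_eq_right,
    Submodule.starProjection_eq_self_iff.2 (hp j), Real.norm_eq_abs, sq_abs, Submodule.coe_inner]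

theorem hj : HJ := by
  intro V W A ε hV hb hW hWV hA hε
  obtain ⟨χ, M, c, h0, h1⟩ := exists_ct hb hW hWV hA hε
  obtain ⟨C0, hC0⟩ := drop_le hb hW hWV (by positivity : 0 < ε / 3)
  have h2 : ∀ (e : GV V) (φ : ℂ → ℝ), IsTest (W \ cthickening ε A) φ →
      inner ℝ (c.J e) (Rv W φ) = inner ℝ e (Rv V φ) := by
    intro e φ hφ
    have hφV := test_mono hφ (sdiff_subset.trans hWV)
    have e1 : cut W χ φ = φ := by
      funext z
      by_cases hz : z ∈ W \ cthickening ε A
      · unfold cut
        rw [indicator_of_mem hz.1, h1 z fun h => hz.2 (thickening_subset_cthickening_of_le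
          (by linarith) A h), one_mul]
      · unfold cut
        by_cases hzW : z ∈ W
        · rw [indicator_of_mem hzW, U.test_zero hφ hz, mul_zero]
        · rw [indicator_of_notMem hzW, U.test_zero hφ hz]
    have e2 := c.J_inner hφV e
    rw [e1] at e2
    rw [← e2, Submodule.coe_inner, ← Rv_proj hb hWV (test_univ hφ),
      ← Submodule.inner_starProjection_left_eq_right,
      Submodule.starProjection_eq_self_iff.2 (c.J e).2]
  set G := W \ thickening (ε / 3) A
  have hG : MeasurableSet G := hW.measurableSet.diff isOpen_thickening.measurableSet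
  have hGf : volume G ≠ ⊤ := (hb.subset (sdiff_subset.trans hWV)).measure_lt_top.ne
  refine ⟨c.J, M ^ 2 * (C0 * volume.real G), fun e he m hm => ?_, h2, fun n e he hp => ?_⟩
  · have hb' := hb.subset ((sdiff_subset : W \ cthickening ε A ⊆ W).trans hWV)
    have k : ∀ m : GV (W \ cthickening ε A), inner ℝ (c.J e : Uq.HL) (m : Uq.HL) = 0 := by
      intro m
      refine (dense_grM _).induction_on m
        (isClosed_eq (continuous_const.inner continuous_subtype_val) continuous_const) fun u => ?_
      obtain ⟨φ, hφ, -, hN⟩ := (isR_Rv hb').ex u u.2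
      have hu := test_mono u.2 sdiff_subset
      change inner ℝ _ (gr u) = 0
      rw [← Rv_lap (hb.subset hWV) hu (test_univ hφ) hN, ← Submodule.coe_inner, h2 e φ hφ,
        Submodule.coe_inner, Rv_lap hb (test_mono hu hWV) (test_univ hφ) hN]
      exact (Submodule.mem_orthogonal' _ _).1 he _ (U.gr_mem hu)
    exact k ⟨m, hm⟩
  · have i1 : ∀ j, IntegrableOn (fun z => val V (e j) z ^ 2) G := fun j =>
      (Lp.memLp _).integrable_sq.integrableOn
    have k1 : ∀ᵐ x, x ∈ G → ∑ j, val V (e j) x ^ 2 ≤ C0 := by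
      filter_upwards [ae_all_iff.2 fun j => bump_lim (val V (e j))] with x hx hxG
      refine le_of_tendsto (tendsto_finset_sum Finset.univ fun j _ => (hx j).pow 2) ?_
      obtain ⟨r, hr, hrW⟩ := Metric.isOpen_iff.1 hW x hxG.1
      have hd : Disjoint (V ∩ ball x (ε / 3)) (frontier W) := disjoint_left.2 fun z hz hf =>
        hxG.2 (mem_thickening_iff.2 ⟨z, hA ⟨hf, hz.1⟩, by rw [dist_comm]; exact hz.2⟩)
      filter_upwards [Ioo_mem_nhdsGT (lt_min hr (by positivity) : (0 : ℝ) < min r (ε / 3 / 2))]
        with s hs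
      have ht : IsTest univ (bump x s) := bump_test hs.1 (subset_univ _)
      simp only [← val_inner hb ht]
      exact (bessel hb hWV ht he hp).trans (hC0 x hxG.1 hd s hs.1 (hs.2.le.trans (min_le_right _ _))
        ((closedBall_subset_ball (hs.2.trans_le (min_le_left _ _))).trans hrW))
    have k2 : ∑ j, ∫ z in G, val V (e j) z ^ 2 ≤ C0 * volume.real G := by
      rw [← integral_finset_sum _ fun j _ => i1 j, mul_comm, ← smul_eq_mul, ← setIntegral_const]
      exact setIntegral_mono_on_ae (integrable_finset_sum _ fun j _ => i1 j)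
        (integrableOn_const hGf) hG k1
    refine le_trans (Finset.sum_le_sum fun j _ => c.cacc hG (fun z hz hzG => h0 z ?_) (e j) (hp j)) ?_
    · by_contra h
      exact hzG ⟨hz, h⟩
    · rw [← Finset.mul_sum]
      exact mul_le_mul_of_nonneg_left k2 (sq_nonneg _)

end Vale.Agent.P155.SG.Hj
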