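import Vale.Agent.P155SG.Bas

/-!
# P155, block (G): row HTX
-/

set_option linter.all false

namespace Vale.Agent.P155.SG

open MeasureTheory ProbabilityTheory Set Metric TopologicalSpace Filter Topology Vale.Agent.P155
  Vale.Agent.P155.Q1 Vale.Agent.P155.Uq Vale.Agent.P155.Soup

namespace Htx

variable {V V' : Set ℂ} {v φ : ℂ → ℝ}

theorem test_part (hV : IsOpen V) (hV' : IsOpen V') (hd : Disjoint V V') (hv : IsTest (V ∪ V') v) :
    IsTest V (V.indicator v) := by
  have hK : IsCompact (tsupport v ∩ V'ᶜ) := hv.2.1.inter_right hV'.isClosed_compl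
  have h0 : ∀ z, z ∉ tsupport v ∩ V'ᶜ → V.indicator v z = 0 := fun z hz => by
    by_cases h : z ∈ V
    · rw [indicator_of_mem h]
      by_contra hne
      exact hz ⟨subset_tsupport v hne, disjoint_left.1 hd h⟩
    · exact indicator_of_notMem h _
  have hs : tsupport (V.indicator v) ⊆ tsupport v ∩ V'ᶜ :=
    closure_minimal (fun z hz => by_contra fun h => hz (h0 z h)) hK.isClosed
  refine ⟨?_, hK.of_isClosed_subset (isClosed_tsupport _) hs,
    hs.trans fun z hz => (hv.2.2 hz.1).resolve_right hz.2⟩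
  rw [contDiff_iff_contDiffAt]
  intro z
  by_cases hz : z ∈ V
  · refine (hv.1.contDiffAt (x := z)).congr_of_eventuallyEq ?_
    filter_upwards [hV.mem_nhds hz] with w hw using indicator_of_mem hw _
  · refine (contDiffAt_const (c := (0 : ℝ))).congr_of_eventuallyEq ?_
    filter_upwards [hK.isClosed.isOpen_compl.mem_nhds
      fun h => hz ((hv.2.2 h.1).resolve_right h.2)] with w hw using h0 w hw

theorem fderiv_off (hv : IsTest V v) {z : ℂ} (hz : z ∉ V) : fderiv ℝ v z = 0 :=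
  by_contra fun hne => hz (hv.2.2 (support_fderiv_subset ℝ hne))

theorem orth (hd : Disjoint V V') {r : Uq.HL} (hr : r ∈ GV V) (hv : IsTest V' v) :
    inner ℝ r (gr v) = 0 := by
  rw [U.GV_eq] at hr
  refine closure_minimal (t := {f : Uq.HL | inner ℝ f (gr v) = 0}) ?_
    (isClosed_eq (continuous_id.inner continuous_const) continuous_const) hr
  rintro _ ⟨w, hw, rfl⟩
  show inner ℝ (gr w) (gr v) = 0
  rw [U.inner_gr hw hv]
  refine integral_eq_zero_of_ae (Eventually.of_forall fun z => ?_)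
  by_cases hz : z ∈ V
  · simp [fderiv_off hv (disjoint_left.1 hd hz)]
  · simp [fderiv_off hw hz]

/-- the potential only depends on the part of the domain which carries the charge -/
theorem Rv_part (hV : IsOpen V) (hV' : IsOpen V') (hd : Disjoint V V')
    (hb : Bornology.IsBounded (V ∪ V')) (hφ : IsTest univ φ) (h0 : ∀ z ∈ V', φ z = 0) :
    (Rv (V ∪ V') φ : Uq.HL) = Rv V φ := by
  refine Rv_unique hb hφ (U.GV_mono subset_union_left (Rv V φ).2) fun v hv => ?_
  have h1 := test_part hV hV' hd hv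
  have h2 := test_part hV' hV hd.symm (by rwa [union_comm])
  have h3 : v = fun z => 1 * V.indicator v z + 1 * V'.indicator v z := by
    funext z
    rw [one_mul, one_mul, ← congrFun (indicator_union_of_disjoint hd v) z]
    by_cases hz : z ∈ V ∪ V'
    · rw [indicator_of_mem hz]
    · rw [indicator_of_notMem hz]
      exact image_eq_zero_of_notMem_tsupport fun h => hz (hv.2.2 h)
  conv_lhs => rw [h3, U.gr_comb (test_univ h1) (test_univ h2)]
  rw [one_smul, one_smul, inner_add_right, orth hd (Rv V φ).2 h2, add_zero,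
    Rv_inner (hb.subset subset_union_left) hφ h1]
  congr 1
  funext z
  by_cases hz : z ∈ V
  · rw [indicator_of_mem hz]
  · rw [indicator_of_notMem hz, mul_zero]
    by_cases hz' : z ∈ V'
    · rw [h0 z hz', zero_mul]
    · rw [image_eq_zero_of_notMem_tsupport fun h => (hv.2.2 h).elim hz hz', mul_zero]

theorem open_KK {Ω F G : Set ℂ} (ho : IsOpen Ω) (hG : IsClosed G) :
    IsOpen ((Ω \ G) ∩ SWR.KK Ω F G) := by
  rw [isOpen_iff_mem_nhds]
  rintro z ⟨hz, hK⟩
  have h1 : IsOpen (connectedComponentIn (Ω \ G) z) := (ho.sdiff hG).connectedComponentIn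
  have h2 := mem_connectedComponentIn hz
  refine mem_of_superset (h1.mem_nhds h2) (subset_inter (connectedComponentIn_subset _ _) ?_)
  have key : (closure (connectedComponentIn (Ω \ G) z) ∩ F).Nonempty := by
    rcases hK with h | ⟨_, ⟨U, ⟨y, hy, rfl⟩, h3, rfl⟩, h4⟩
    · exact ⟨z, subset_closure h2, h⟩
    · obtain ⟨x, h5, h6⟩ := mem_closure_iff.1 h4 _ h1 h2
      rwa [connectedComponentIn_eq h5, ← connectedComponentIn_eq h6]
  exact fun w hw => Or.inr ⟨_, ⟨_, ⟨z, hz, rfl⟩, key, rfl⟩, subset_closure hw⟩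

theorem Pj_hull {Ω F G H : Set ℂ} (ho : IsOpen Ω) (hb : Bornology.IsBounded Ω) (hG : IsClosed G)
    (hH : IsClosed H) (e : H = SWR.KK Ω F G) (hφ : IsTest univ φ) (hd : Disjoint (tsupport φ) H) :
    Pj Ω (G ∪ H) (Rv Ω φ) = Pj Ω G (Rv Ω φ) := by
  refine Subtype.ext ?_
  have h1 : Ω \ G = Ω \ (G ∪ H) ∪ (Ω \ G) ∩ H := by
    rw [← sdiff_sdiff, sdiff_union_inter]
  rw [Pj_Rv hb hφ, Pj_Rv hb hφ]
  conv_rhs => rw [h1]
  refine (Rv_part (ho.sdiff (hG.union hH)) (e ▸ open_KK ho hG) ?_ (h1 ▸ hb.subset sdiff_subset) hφ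
    fun z hz => image_eq_zero_of_notMem_tsupport fun h => disjoint_left.1 hd h hz.2).symm
  exact disjoint_left.2 fun z h2 h3 => h2.2 (Or.inr h3.2)

/-- the fields off two local sets agree where the projections agree -/
theorem Yc_eq (cross : CROSS) {Ω : Set ℂ} {X T : Type} [MeasurableSpace X] [MeasurableSpace T]
    {μ : Measure X} {W : GV Ω →ₗᵢ[ℝ] Lp ℝ 2 μ} {p : X → T} {C C' : T → NC} (h : Loc W p C)
    (h' : Loc W p C') {E : Set T} (hE : MeasurableSet E) (f : GV Ω)
    (e : ∀ᵐ x ∂μ, p x ∈ E → Pj Ω (C (p x)) f = Pj Ω (C' (p x)) f) :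
    ∀ᵐ x ∂μ, p x ∈ E → Yc W p C f x = Yc W p C' f x := by
  have := h.prob
  obtain ⟨w, hw⟩ : ∃ w : T → ℝ, w = E.indicator 1 := ⟨_, rfl⟩
  have w1 : ∀ t ∈ E, w t = 1 := fun t ht => by rw [hw, indicator_of_mem ht, Pi.one_apply]
  have w0 : ∀ t ∉ E, w t = 0 := fun t ht => by rw [hw, indicator_of_notMem ht]
  have hb : ∀ t, |w t| ≤ 1 := fun t => by
    by_cases ht : t ∈ E
    · simp [w1 t ht]
    · simp [w0 t ht]
  have hm : BM w := ⟨hw ▸ measurable_one.indicator hE, 1, hb⟩
  have c1 := cross Ω X T T μ W p C id C h measurable_id h w hm f f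
  have c2 := cross Ω X T T μ W p C id C' h measurable_id h' w hm f f
  have c3 := cross Ω X T T μ W p C' id C' h' measurable_id h' w hm f f
  simp only [id] at c1 c2 c3
  have e2 : ∫ x, w (p x) * inner ℝ (Pj Ω (C (p x)) f) (Pj Ω (C' (p x)) f) ∂μ =
      ∫ x, w (p x) * inner ℝ (Pj Ω (C (p x)) f) (Pj Ω (C (p x)) f) ∂μ :=
    integral_congr_ae (e.mono fun x hx => by
      by_cases ht : p x ∈ E
      · simp only [hx ht]
      · simp only [w0 _ ht, zero_mul])
  have e3 : ∫ x, w (p x) * inner ℝ (Pj Ω (C' (p x)) f) (Pj Ω (C' (p x)) f) ∂μ =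
      ∫ x, w (p x) * inner ℝ (Pj Ω (C (p x)) f) (Pj Ω (C (p x)) f) ∂μ :=
    integral_congr_ae (e.mono fun x hx => by
      by_cases ht : p x ∈ E
      · simp only [hx ht]
      · simp only [w0 _ ht, zero_mul])
  change ∫ x, w (p x) * (Yc W p C f x * Yc W p C f x) ∂μ = _ at c1
  change ∫ x, w (p x) * (Yc W p C f x * Yc W p C' f x) ∂μ = _ at c2
  change ∫ x, w (p x) * (Yc W p C' f x * Yc W p C' f x) ∂μ = _ at c3
  generalize Yc W p C f = Y at c1 c2 c3 ⊢
  generalize Yc W p C' f = Y' at c1 c2 c3 ⊢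
  have I : ∀ A B : Lp ℝ 2 μ, Integrable (fun x => w (p x) * (A x * B x)) μ := fun A B =>
    ((Lp.memLp A).integrable_mul (Lp.memLp B)).bdd_mul (hm.1.comp h.mp).aestronglyMeasurable
      (Eventually.of_forall fun x => hb _)
  have e4 : (fun x => w (p x) * (Y x - Y' x) ^ 2) = fun x => w (p x) * (Y x * Y x) -
      2 * (w (p x) * (Y x * Y' x)) + w (p x) * (Y' x * Y' x) := by
    funext x
    ring
  have I2 : Integrable (fun x => w (p x) * (Y x * Y x) - 2 * (w (p x) * (Y x * Y' x))) μ :=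
    (I Y Y).sub ((I Y Y').const_mul 2)
  have I3 : Integrable (fun x => w (p x) * (Y x - Y' x) ^ 2) μ := by
    rw [e4]
    exact I2.add (I Y' Y')
  have e5 : ∫ x, w (p x) * (Y x - Y' x) ^ 2 ∂μ = 0 := by
    rw [e4, integral_add I2 (I Y' Y'), integral_sub (I Y Y) ((I Y Y').const_mul 2),
      integral_const_mul, c1, c2, c3, e2, e3]
    ring
  have e6 := (integral_eq_zero_iff_of_nonneg (fun x => by
    by_cases ht : p x ∈ E
    · simp only [w1 _ ht, Pi.zero_apply]; positivity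
    · simp only [w0 _ ht, zero_mul, Pi.zero_apply, le_refl]) I3).1 e5
  filter_upwards [e6] with x hx ht
  rw [w1 _ ht, one_mul, Pi.zero_apply] at hx
  exact sub_eq_zero.1 (pow_eq_zero_iff two_ne_zero |>.1 hx)

end Htx

/-- row HTX -/
theorem htx_of (mono : MONO) (cross : CROSS) (can1 : CAN1) (hlm : HLM) : HTX := by
  intro Ω Q W c F hF hne
  obtain ⟨m1, m2⟩ := hlm Ω F c.loc.op c.loc.bd hF hne
  have m3 : Measurable fun t : Past Ω 1 => hl Ω F (lv t) := m1.comp meas_lv
  have L : Loc W (past 1) (lh F) := mono Ω _ _ _ Q W (past 1) lv id (lh F) c.loc measurable_id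
    (meas_sup meas_lv m3) (Eventually.of_forall fun _ => subset_union_left)
  refine ⟨L, fun φ hφ => ?_⟩
  have h1 := Htx.Yc_eq cross L c.loc (Uq.meas_disjoint m3 (isClosed_tsupport φ)) (Rv Ω φ)
    (c.path.mono fun s hs hd => Htx.Pj_hull c.loc.op c.loc.bd (lv (past 1 s)).isCompact.isClosed
      (hl Ω F (lv (past 1 s))).isCompact.isClosed ((m2 _).2.2.2 hs.nice) (test_univ hφ) hd)
  filter_upwards [h1, (can1 Ω Q W c).2.1 φ hφ] with s h2 h3 hd
  have h4 := h3 (disjoint_empty _)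
  unfold Zc at h4 ⊢
  rwa [h2 hd]

end Vale.Agent.P155.SG
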