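import Vale.Agent.P155SG.Sk

/-!
# P155, block (G): the potentials `Rv` and the projections `Pj`
-/

set_option linter.all false

namespace Vale.Agent.P155.SG

open MeasureTheory ProbabilityTheory Set Metric TopologicalSpace Filter Topology Vale.Agent.P155
  Vale.Agent.P155.Q1 Vale.Agent.P155.Uq Vale.Agent.P155.Soup

variable {Ω U K K' : Set ℂ} {φ ψ v : ℂ → ℝ}

theorem test_mono (h : IsTest U φ) (hU : U ⊆ Ω) : IsTest Ω φ := ⟨h.1, h.2.1, h.2.2.trans hU⟩

theorem test_univ (h : IsTest U φ) : IsTest univ φ := test_mono h (subset_univ _)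

theorem test_of (h : IsTest U φ) (hs : tsupport φ ⊆ Ω) : IsTest Ω φ := ⟨h.1, h.2.1, hs⟩

theorem exists_Rv (hb : Bornology.IsBounded Ω) (hφ : IsTest univ φ) :
    ∃ r : GV Ω, ∀ v, IsTest Ω v → inner ℝ (r : Uq.HL) (gr v) = ∫ z, φ z * v z := by
  obtain ⟨r, -, hr⟩ := U.exists_R (hb.union hφ.2.1.isCompact.isBounded)
    (test_of hφ (subset_union_right : tsupport φ ⊆ Ω ∪ tsupport φ))
  refine ⟨⟨(GV Ω).starProjection r, Submodule.starProjection_apply_mem _ _⟩, fun v hv => ?_⟩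
  rw [← hr v (test_mono hv subset_union_left)]
  change inner ℝ ((GV Ω).starProjection r) _ = _
  rw [Submodule.inner_starProjection_left_eq_right,
    Submodule.starProjection_eq_self_iff.2 (U.gr_mem hv)]

theorem Rv_inner (hb : Bornology.IsBounded Ω) (hφ : IsTest univ φ) (hv : IsTest Ω v) :
    inner ℝ (Rv Ω φ : Uq.HL) (gr v) = ∫ z, φ z * v z := by
  have h := exists_Rv hb hφ
  unfold Rv
  rw [dif_pos h]
  exact h.choose_spec v hv

theorem Rv_unique (hb : Bornology.IsBounded Ω) (hφ : IsTest univ φ) {r : Uq.HL} (hr : r ∈ GV Ω)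
    (h : ∀ v, IsTest Ω v → inner ℝ r (gr v) = ∫ z, φ z * v z) : (Rv Ω φ : Uq.HL) = r :=
  U.GV_ext (Rv Ω φ).2 hr fun v hv => by rw [Rv_inner hb hφ hv, h v hv]

theorem int_test (hφ : IsTest univ φ) (hv : IsTest Ω v) : Integrable fun z => φ z * v z :=
  (hφ.1.continuous.mul hv.1.continuous).integrable_of_hasCompactSupport hφ.2.1.mul_right

theorem Rv_lin (hb : Bornology.IsBounded Ω) (hφ : IsTest univ φ) (hψ : IsTest univ ψ) (s t : ℝ) :
    Rv Ω (fun z => s * φ z + t * ψ z) = s • Rv Ω φ + t • Rv Ω ψ := by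
  refine Subtype.ext (Rv_unique hb (U.test_comb hφ hψ s t) (s • Rv Ω φ + t • Rv Ω ψ).2
    fun v hv => ?_)
  rw [Submodule.coe_add, Submodule.coe_smul, Submodule.coe_smul, inner_add_left,
    real_inner_smul_left, real_inner_smul_left, Rv_inner hb hφ hv, Rv_inner hb hψ hv,
    ← integral_const_mul, ← integral_const_mul, ← integral_add ((int_test hφ hv).const_mul s)
      ((int_test hψ hv).const_mul t)]
  congr 1
  funext z
  ring

theorem Rv_zero (hb : Bornology.IsBounded Ω) : Rv Ω (fun _ => 0) = 0 :=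
  Subtype.ext (Rv_unique hb (U.isTest_zero _) (GV Ω).zero_mem fun v _ => by simp)

theorem Rv_smul (hb : Bornology.IsBounded Ω) (hφ : IsTest univ φ) (s : ℝ) :
    Rv Ω (fun z => s * φ z) = s • Rv Ω φ := by
  simpa using Rv_lin hb hφ hφ s 0

theorem Rv_add (hb : Bornology.IsBounded Ω) (hφ : IsTest univ φ) (hψ : IsTest univ ψ) :
    Rv Ω (fun z => φ z + ψ z) = Rv Ω φ + Rv Ω ψ := by
  simpa using Rv_lin hb hφ hψ 1 1

theorem test_sum' {ι : Type*} (s : Finset ι) {φ : ι → ℂ → ℝ} (c : ι → ℝ)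
    (h : ∀ i ∈ s, IsTest Ω (φ i)) : IsTest Ω fun z => ∑ i ∈ s, c i * φ i z := by
  classical
  induction s using Finset.induction_on with
  | empty => simpa using U.isTest_zero Ω
  | insert i s hi ih =>
    simpa [Finset.sum_insert hi] using U.test_comb (h i (Finset.mem_insert_self _ _))
      (ih fun j hj => h j (Finset.mem_insert_of_mem hj)) (c i) 1

theorem Rv_sum (hb : Bornology.IsBounded Ω) {ι : Type*} (s : Finset ι) {φ : ι → ℂ → ℝ}
    (c : ι → ℝ) (h : ∀ i ∈ s, IsTest univ (φ i)) :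
    Rv Ω (fun z => ∑ i ∈ s, c i * φ i z) = ∑ i ∈ s, c i • Rv Ω (φ i) := by
  classical
  induction s using Finset.induction_on with
  | empty => simpa using Rv_zero hb
  | insert i s hi ih =>
    have h' : ∀ j ∈ s, IsTest univ (φ j) := fun j hj => h j (Finset.mem_insert_of_mem hj)
    have := Rv_lin hb (h i (Finset.mem_insert_self _ _)) (test_sum' s c h') (c i) 1
    rw [ih h'] at this
    simpa [Finset.sum_insert hi] using this

/-- the potential in a smaller set is the projection -/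
theorem Rv_proj (hb : Bornology.IsBounded Ω) (hU : U ⊆ Ω) (hφ : IsTest univ φ) :
    (GV U).starProjection (Rv Ω φ : Uq.HL) = Rv U φ := by
  refine (Rv_unique (hb.subset hU) hφ (Submodule.starProjection_apply_mem _ _) fun v hv => ?_).symm
  rw [Submodule.inner_starProjection_left_eq_right,
    Submodule.starProjection_eq_self_iff.2 (P155.U.gr_mem hv), Rv_inner hb hφ (test_mono hv hU)]

theorem green_proj' (hb : Bornology.IsBounded Ω) (hU : U ⊆ Ω) (hφ : IsTest univ φ) :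
    greenEnergy U φ = ‖(GV U).starProjection (Rv Ω φ : Uq.HL)‖ ^ 2 :=
  P155.U.green_proj hU fun _ hv => Rv_inner hb hφ hv

theorem green_Rv (hb : Bornology.IsBounded Ω) (hφ : IsTest univ φ) :
    greenEnergy Ω φ = ‖Rv Ω φ‖ ^ 2 := by
  rw [green_proj' hb subset_rfl hφ, Rv_proj hb subset_rfl hφ]
  rfl

theorem Pj_coe (f : GV Ω) : (Pj Ω K f : Uq.HL) = (GV (Ω \ K)).starProjection (f : Uq.HL) := rfl

theorem Pj_Rv (hb : Bornology.IsBounded Ω) (hφ : IsTest univ φ) :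
    (Pj Ω K (Rv Ω φ) : Uq.HL) = Rv (Ω \ K) φ := Rv_proj hb sdiff_subset hφ

theorem green_Pj (hb : Bornology.IsBounded Ω) (hφ : IsTest univ φ) :
    greenEnergy (Ω \ K) φ = ‖Pj Ω K (Rv Ω φ)‖ ^ 2 := green_proj' hb sdiff_subset hφ

theorem Pj_mem (f : GV Ω) : Pj Ω K f ∈ Uq.Vk Ω K := PG_mem sdiff_subset f

theorem Pj_eq_iff (f : GV Ω) : Pj Ω K f = f ↔ f ∈ Uq.Vk Ω K := PG_eq_iff _ f

theorem Pj_sym (f g : GV Ω) : inner ℝ (Pj Ω K f) g = inner ℝ f (Pj Ω K g) := PG_sym _ f g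

theorem Pj_idem (f : GV Ω) : Pj Ω K (Pj Ω K f) = Pj Ω K f := PG_idem _ f

theorem Pj_norm_le (f : GV Ω) : ‖Pj Ω K f‖ ≤ ‖f‖ := PG_norm_le _ f

theorem Pj_Pj (h : K ⊆ K') (f : GV Ω) : Pj Ω K (Pj Ω K' f) = Pj Ω K' f :=
  PG_PG _ _ (sdiff_subset_sdiff_right h) f

theorem Pj_inner (f g : GV Ω) : inner ℝ (Pj Ω K f) (Pj Ω K g) = inner ℝ (Pj Ω K f) g :=
  PG_inner _ f g

theorem Pj_self (f : GV Ω) : inner ℝ (Pj Ω K f) f = ‖Pj Ω K f‖ ^ 2 := by
  rw [← Pj_inner, real_inner_self_eq_norm_sq]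

theorem Pj_nest (h : K ⊆ K') (f g : GV Ω) :
    inner ℝ (Pj Ω K' f) (Pj Ω K g) = inner ℝ (Pj Ω K' f) g := by
  rw [← Pj_sym, Pj_Pj h]

theorem sub_Pj_mem (f : GV Ω) : f - Pj Ω K f ∈ (Uq.Vk Ω K)ᗮ := by
  rw [Submodule.mem_orthogonal]
  intro g hg
  rw [inner_sub_right, ← Pj_sym, (Pj_eq_iff g).2 hg, sub_self]

theorem Pj_congr (h : Ω \ K = Ω \ K') (f : GV Ω) : Pj Ω K f = Pj Ω K' f :=
  Subtype.ext (by rw [Pj_coe, Pj_coe, h])

theorem Rv_lap (hb : Bornology.IsBounded Ω) (hv : IsTest Ω v) (hφ : IsTest univ φ)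
    (h : NegLap v φ) : (Rv Ω φ : Uq.HL) = gr v :=
  Rv_unique hb hφ (U.gr_mem hv) fun w hw => by
    rw [U.inner_gr hv hw]
    exact (h w (test_univ hw)).symm

theorem isR_Rv (hb : Bornology.IsBounded Ω) : IsR Ω fun φ => (Rv Ω φ : Uq.HL) where
  mem φ := (Rv Ω φ).2
  lin φ ψ hφ hψ s t := by
    rw [Rv_lin hb (test_univ hφ) (test_univ hψ)]
    rfl
  energy U hU φ hφ := green_proj' hb hU (test_univ hφ)
  lap v φ hv hφ h := Rv_lap hb hv (test_univ hφ) h
  ex v hv := ⟨U.nlap v, U.isTest_nlap hv, U.tsupport_nlap v, U.negLap_nlap hv⟩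

theorem XD.mono {K P P' T T' : Set ℂ} {y : ℂ} {r δ δ' M : ℝ} (h : XD K P T y r δ M) (hP : P ⊆ P')
    (hT : T ⊆ T') (hδ : δ' ≤ δ) : XD K P' T' y r δ' M := by
  obtain ⟨l, D, h1, h2, h3, h4, h5⟩ := h
  exact ⟨l, D, h1, h2, h3.trans (inter_subset_inter_left _ (inter_subset_inter hT hP)),
    fun x hx => hδ.trans (h4 x hx), h5⟩

theorem coe_un {T T' : Type} (C : T → NC) (C' : T' → NC) (t : T × T') :
    (un C C' t : Set ℂ) = (C t.1 : Set ℂ) ∪ C' t.2 := rfl

theorem coe_lh (F : Set ℂ) (t : Past Ω 1) : (lh F t : Set ℂ) = (lv t : Set ℂ) ∪ hl Ω F (lv t) := rfl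

theorem lv_past (s : Sp Ω) : lv (past 1 s) = (s 1).1 := rfl

theorem meas_lv : Measurable (lv (Ω := Ω)) := measurable_fst.comp (measurable_pi_apply _)

theorem meas_sup {T : Type} [MeasurableSpace T] {C C' : T → NC} (h : Measurable C)
    (h' : Measurable C') : Measurable fun t => C t ⊔ C' t := by
  have hc : Continuous fun p : NC × NC => p.1 ⊔ p.2 := continuous_sup
  exact hc.measurable.comp (h.prodMk h')

theorem meas_un {T T' : Type} [MeasurableSpace T] [MeasurableSpace T'] {C : T → NC} {C' : T' → NC}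
    (h : Measurable C) (h' : Measurable C') : Measurable (un C C') :=
  meas_sup (h.comp measurable_fst) (h'.comp measurable_snd)

end Vale.Agent.P155.SG
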