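import Vale.Agent.P155SG.KeyA
import Vale.Agent.P155SG.Bas

/-!
# P155, block (G): KEY
-/

set_option linter.all false

namespace Vale.Agent.P155.SG

open MeasureTheory ProbabilityTheory Set Metric TopologicalSpace Filter Topology Vale.Agent.P155
  Vale.Agent.P155.Q1 Vale.Agent.P155.Uq Vale.Agent.P155.Soup

namespace Ky

variable {Ω : Set ℂ} {X T : Type} [MeasurableSpace X] [mT : MeasurableSpace T] {μ : Measure X}
  {W : GV Ω →ₗᵢ[ℝ] Lp ℝ 2 μ} {p : X → T} {C : T → NC}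

theorem coe_lin (f g : Lp ℝ 2 μ) (s t : ℝ) :
    (s • f + t • g : Lp ℝ 2 μ) =ᵐ[μ] fun x => s * f x + t * g x := by
  filter_upwards [Lp.coeFn_add (s • f) (t • g), Lp.coeFn_smul s f, Lp.coeFn_smul t g]
    with x h1 h2 h3
  rw [h1, Pi.add_apply, h2, h3]
  rfl

theorem Y_lin (hM : MOM) (h : Loc W p C) {φ ψ : ℂ → ℝ} (hφ : IsTest Ω φ) (hψ : IsTest Ω ψ)
    (s t : ℝ) : Yc W p C (Rv Ω fun z => s * φ z + t * ψ z) =ᵐ[μ]
      fun x => s * Yc W p C (Rv Ω φ) x + t * Yc W p C (Rv Ω ψ) x := by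
  rw [Rv_lin h.bd (test_univ hφ) (test_univ hψ), (hM _ _ _ _ _ _ _ h).2.1]
  exact coe_lin _ _ _ _

theorem Z_lin (hM : MOM) (h : Loc W p C) {φ ψ : ℂ → ℝ} (hφ : IsTest Ω φ) (hψ : IsTest Ω ψ)
    (s t : ℝ) : Zc W p C (Rv Ω fun z => s * φ z + t * ψ z) =ᵐ[μ]
      fun x => s * Zc W p C (Rv Ω φ) x + t * Zc W p C (Rv Ω ψ) x := by
  have := coe_lin (W (Rv Ω φ)) (W (Rv Ω ψ)) s t
  rw [← map_smul, ← map_smul, ← map_add, ← Rv_lin h.bd (test_univ hφ) (test_univ hψ)] at this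
  filter_upwards [this, Y_lin hM h hφ hψ s t] with x h1 h2
  simp only [Zc, h1, h2]
  ring

theorem cv (hM : MOM) (h : Loc W p C) : UK.CondVar μ (MeasurableSpace.comap p mT) Ω
    (fun x => (C (p x) : Set ℂ)) fun φ => Yc W p C (Rv Ω φ) := by
  have := h.prob
  refine UK.condVar_of h.mp (C := fun t => (C t : Set ℂ))
    (fun w r => measurableSet_le (UK.meas_infDist h.mC w) measurable_const)
    (fun φ _ => Lp.memLp _) (fun φ ψ c hφ hψ => by simpa using Y_lin hM h hφ hψ 1 c)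
    fun w φ hw hφ => ?_
  obtain ⟨h1, c, h2⟩ := hw
  have := ((hM _ _ _ _ _ _ _ h).2.2.2.1 (fun t => w t ^ 2) ⟨h1.pow_const 2, c ^ 2, fun t => by
    rw [abs_pow]; exact pow_le_pow_left₀ (abs_nonneg _) (h2 t) 2⟩ (Rv Ω φ) (Rv Ω φ)).1
  refine (integral_congr_ae (Eventually.of_forall fun x => ?_)).trans
    (this.trans (integral_congr_ae (Eventually.of_forall fun x => ?_)))
  · ring
  · have t : IsTest univ fun z => w (p x) * φ z := by
      simpa using U.test_comb (test_univ hφ) (test_univ hφ) (w (p x)) 0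
    simp only
    rw [green_Pj h.bd t, Rv_smul h.bd (test_univ hφ), map_smul, norm_smul, mul_pow,
      Real.norm_eq_abs, sq_abs, Pj_self]

theorem memZ (f : GV Ω) : MemLp (Zc W p C f) 2 μ := (Lp.memLp _).sub (Lp.memLp _)

theorem Z_sq (hM : MOM) (h : Loc W p C) (f : GV Ω) : ∫ x, Zc W p C f x ^ 2 ∂μ ≤ ‖f‖ ^ 2 := by
  obtain ⟨h1, h2, -⟩ := (hM _ _ _ _ _ _ _ h).2.2.2.1 (fun _ => 1)
    ⟨measurable_const, 1, fun _ => by simp⟩ f f
  have i (g g' : Lp ℝ 2 μ) : inner ℝ g g' = ∫ x, g x * g' x ∂μ := by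
    simp [L2.inner_def, mul_comm]
  simp only [one_mul] at h1 h2
  rw [← h2, ← i, ← i, real_inner_self_eq_norm_sq] at h1
  have e : ∫ x, Zc W p C f x ^ 2 ∂μ = ‖W f - Yc W p C f‖ ^ 2 := by
    rw [← real_inner_self_eq_norm_sq, i]
    refine integral_congr_ae ((Lp.coeFn_sub (W f) (Yc W p C f)).mono fun x hx => ?_)
    simp only [hx, Zc, Pi.sub_apply, sq]
  rw [e, norm_sub_sq_real, real_inner_comm, ← h1, W.norm_map]
  linarith [sq_nonneg ‖Yc W p C f‖]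

end Ky

open Ky in
/-- **KEY** -/
theorem key_of (hM : MOM) : KEY := by
  intro Ω X T T' _ _ _ μ W p C p' C' h1 h2 h3 g1 g2 b1 b2 z r hr hz
  refine KG.key (Ya := fun φ => Yc W p C (Rv Ω φ)) (Yb := fun φ => Yc W p' C' (Rv Ω φ))
    (Y3 := fun φ => Yc W (fun x => (p x, p' x)) (un C C') (Rv Ω φ))
    (Z := fun φ => Zc W (fun x => (p x, p' x)) (un C C') (Rv Ω φ))
    ⟨h1.bd, h1.prob, h1.mC, h2.mC, g1, g2, cv hM h1, cv hM h2, cv hM h3, fun φ _ => memZ _,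
      fun φ ψ hφ hψ => Z_lin hM h3 hφ hψ, fun v φ hv hφ e => (hM _ _ _ _ _ _ _ h3).2.2.2.2 v _ hv
        (Rv_lap h1.bd hv (test_univ hφ) e), fun φ hφ => ?_, fun y s hs hy => ?_,
      fun y s hs hy => ?_⟩ hr hz
  · rw [green_Rv h1.bd (test_univ hφ)]
    exact Z_sq hM h3 _
  · simpa only [Zc, sub_add_cancel] using b1 y s hs hy
  · simpa only [Zc, sub_add_cancel] using b2 y s hs hy

end Vale.Agent.P155.SG
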