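import Vale.Agent.P155SG.Bas
import Vale.Agent.P155.SW924.Kstep
import Vale.Agent.P155.U.Loc3
import Vale.Agent.P155.U.WIso
import Vale.Agent.P155H.Slit

/-!
# P155, block (G): the rows LOCH, WK
-/

set_option linter.all false

namespace Vale.Agent.P155.SG

open MeasureTheory ProbabilityTheory Set Metric TopologicalSpace Filter Topology Vale.Agent.P155
  Vale.Agent.P155.Q1 Vale.Agent.P155.Uq Vale.Agent.P155.Soup Complex Vale.Agent.P155.SWR
  Vale.Agent.P155.SW924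

variable {Ω K F : Set ℂ} {Q : Measure (Sp Ω)} {W : GV Ω →ₗᵢ[ℝ] Lp ℝ 2 Q} {φ ψ : ℂ → ℝ}

theorem int_bind {X S : Type} [MeasurableSpace X] [MeasurableSpace S] {ν : Measure X}
    {κ : Kernel X S} {G : S → ℂ} (h : Integrable G (ν.bind κ)) :
    ∫ s, G s ∂ν.bind κ = ∫ y, ∫ s, G s ∂κ y ∂ν := by
  rw [Measure.comp_eq_comp_const_apply] at h ⊢
  rw [Kernel.integral_comp h, Kernel.const_apply]

theorem int_w {S : Type} [MeasurableSpace S] {μ : Measure S} [IsFiniteMeasure μ] {w : S → ℝ}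
    (hw : BM w) {G : S → ℂ} (hG : Measurable G) (h : ∀ s, ‖G s‖ ≤ 1) :
    Integrable (fun s => (w s : ℂ) * G s) μ := by
  obtain ⟨hm, C, hC⟩ := hw
  refine (Integrable.of_bound hG.aestronglyMeasurable 1 (ae_of_all _ h)).bdd_mul (c := C)
    (Measurable.aestronglyMeasurable (by fun_prop)) (ae_of_all _ fun s => ?_)
  rw [norm_real]
  exact hC s

theorem norm_eg (U : Set ℂ) (φ : ℂ → ℝ) : ‖cexp (-(greenEnergy U φ / 2 : ℝ))‖ ≤ 1 := by
  rw [← ofReal_neg, ← ofReal_exp, norm_real, Real.norm_of_nonneg (Real.exp_pos _).le]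
  exact Real.exp_le_one_iff.2 (neg_nonpos.2 (div_nonneg (UK.greenEnergy_nonneg _ _) two_pos.le))

theorem bm_mul {S : Type} [MeasurableSpace S] {w u : S → ℝ} (hw : BM w) (hu : Measurable u)
    (h : ∀ s, |u s| ≤ 1) : BM fun s => w s * u s :=
  ⟨hw.1.mul hu, hw.2.imp fun C hC s => by
    rw [abs_mul]
    exact (mul_le_of_le_one_right (abs_nonneg _) (h s)).trans (hC s)⟩

theorem bm_comp {S S' : Type} [MeasurableSpace S] [MeasurableSpace S'] {w : S → ℝ} (hw : BM w)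
    {a : S' → S} (ha : Measurable a) : BM fun s => w (a s) :=
  ⟨hw.1.comp ha, hw.2.imp fun _ h _ => h _⟩

theorem meas_l1 : Measurable fun s : Sp Ω => (s 1).1 := measurable_fst.comp (meas_lev 1)

theorem cc_E1 (c : Can Ω Q W) (hφ : IsTest Ω φ) {w : NC → ℝ} (hw : BM w) :
    ∫ s, (w (s 1).1 : ℂ) * cexp (I * (W (Rv Ω φ) s : ℝ)) ∂Q =
      ∫ s, (w (s 1).1 : ℂ) * E1 Ω φ s ∂Q := by
  have := c.can.prob
  have m : Measurable fun t : Past Ω 1 => cst * pr (t (Fin.last 1)).2 φ :=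
    ((Gam.measurable_pr hφ).comp (measurable_snd.comp (measurable_pi_apply _))).const_mul _
  have b1 := bm_mul (bm_comp hw meas_lv) m.cos fun _ => Real.abs_cos_le_one _
  have b2 := bm_mul (bm_comp hw meas_lv) m.sin fun _ => Real.abs_sin_le_one _
  have k {G : Sp Ω → ℂ} (hG : Measurable G) (h : ∀ s, ‖G s‖ ≤ 1) :
      ∫ s, (w (s 1).1 : ℂ) * (cexp (I * (cst * pr (s 1).2 φ : ℝ)) * G s) ∂Q =
        ∫ s, (w (s 1).1 * Real.cos (cst * pr (s 1).2 φ) : ℝ) * G s ∂Q +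
          I * ∫ s, (w (s 1).1 * Real.sin (cst * pr (s 1).2 φ) : ℝ) * G s ∂Q := by
    rw [← integral_const_mul]
    refine Eq.trans ?_ (integral_add (int_w (bm_comp b1 (measurable_past 1)) hG h)
      ((int_w (bm_comp b2 (measurable_past 1)) hG h).const_mul I))
    congr 1
    funext s
    rw [mul_comm I, exp_mul_I]
    push_cast
    ring
  have m1 := (Lp.stronglyMeasurable (W (Rv Ω φ))).measurable
  have m2 := Gam.meas_pr hφ 1
  have m3 := Gam.meas_green c.dom.2.1 hφ 1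
  have h1 := k (G := fun s => cexp (I * (W (Rv Ω φ) s - cst * pr (s 1).2 φ : ℝ))) (by fun_prop)
    fun s => (norm_exp_I_mul_ofReal _).le
  have h2 := k (G := fun s => cexp (-(greenEnergy (Ω \ (s 1).1) φ / 2 : ℝ))) (by fun_prop)
    fun s => norm_eg _ _
  refine Eq.trans ?_ ((h1.trans ((congrArg₂ (· + I * ·) (c.cc 1 φ (Rv Ω φ).2 hφ _ b1)
    (c.cc 1 φ (Rv Ω φ).2 hφ _ b2)).trans h2.symm)).trans ?_) <;> congr 1 <;> funext s
  · rw [← Complex.exp_add, ← mul_add, ← ofReal_add, add_sub_cancel]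
  · rw [← Complex.exp_add, E1, wt, cst]
    push_cast
    rw [mul_assoc, sub_eq_add_neg]

theorem hl_eq (hΩK : Ωᶜ ⊆ K) (h1 : F ⊆ K) (h2 : K ∩ closure Ω ⊆ F) {A : NC} (hA : Nice1 Ω A) :
    KK Ω F A = F ∪ KK Ω K A ∩ Ω := by
  refine Subset.antisymm (union_subset_union_right _ ?_) (union_subset subset_union_left ?_)
  · rintro z ⟨_, ⟨U, hU, h, rfl⟩, hz⟩
    exact ⟨.inr ⟨_, ⟨U, hU, h.mono (inter_subset_inter_right _ h1), rfl⟩, hz⟩, hA.inside U hU hz⟩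
  · rintro z ⟨hz | ⟨_, ⟨U, hU, ⟨x, h, h'⟩, rfl⟩, hz⟩, hz'⟩
    · exact .inl (h2 ⟨hz, subset_closure hz'⟩)
    · exact .inr ⟨_, ⟨U, hU, ⟨x, h, h2 ⟨h', subset_closure (hA.inside U hU h)⟩⟩, rfl⟩, hz⟩

/-- the hull is constant under the kernel -/
theorem hl_const (hH : HLM) (ho : IsOpen Ω) (hb : Bornology.IsBounded Ω) (hΩK : Ωᶜ ⊆ K)
    (hF : IsCompact F) (hne : F.Nonempty) (h1 : F ⊆ K) (h2 : K ∩ closure Ω ⊆ F) {b : Set ℂ}
    {κ : Measure (Sp Ω)} [IsProbabilityMeasure κ]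
    (h : ∀ᵐ s ∂κ, KK Ω K (s 1).1 = b ∧ Path Ω s) :
    ∃ A : NC, Ω \ A = bᶜ ∧ ∀ᵐ s ∂κ, hl Ω F (s 1).1 = A := by
  obtain ⟨s, e, hs⟩ := h.exists
  refine ⟨hl Ω F (s 1).1, ?_, h.mono fun s' hs' => ?_⟩
  · rw [((hH Ω F ho hb hF hne).2 _).2.2.2 hs.nice, hl_eq hΩK h1 h2 hs.nice, e]
    have : K ⊆ b := e ▸ sub_KK _ _ _
    exact Subset.antisymm (fun z hz h => hz.2 (.inr ⟨h, hz.1⟩)) fun z hz =>
      ⟨by_contra fun h => hz (this (hΩK h)), fun h => hz (h.elim (fun h => this (h1 h)) And.left)⟩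
  · rw [hl, hl, hl_eq hΩK h1 h2 hs.nice, hl_eq hΩK h1 h2 hs'.2.nice, e, hs'.1]

theorem ne_F (hΩ : Tree.Dom Ω) (hΩK : Ωᶜ ⊆ K) (h2 : K ∩ closure Ω ⊆ F) : F.Nonempty := by
  obtain ⟨z, hz⟩ := nonempty_frontier_iff.2 ⟨hΩ.2.2.1, Geo.dom_ne_univ hΩ⟩
  rw [hΩ.1.frontier_eq] at hz
  exact ⟨z, h2 ⟨hΩK hz.2, hz.1⟩⟩

/-- **LOCH** -/
theorem loch_of (hH : HLM) : LOCH := by
  intro Ω Q W c K F hK hKc hΩK hF h1 h2
  obtain ⟨ho, hb, hne, hsc⟩ := id c.dom
  have := c.can.prob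
  have hF' := ne_F c.dom hΩK h2
  have mh := (hH Ω F ho hb hF hF').1
  refine ⟨ho, hb, this, c.loc.iso, mh.comp meas_l1, measurable_id, fun K' hK' w hw hs => ?_⟩
  obtain ⟨Θ, mΘ, P, G, ξ, hFC⟩ := SW802.exists_fair ho hb hne hsc
  have D : Dat Ω K Q := ⟨SW730.sdl, ho, hb, hne, hsc, hK, hKc, hΩK, ⟨Θ, mΘ, P, G, ξ, hFC,
    fun m χ hχ => SW802.transfer ho hb hne c.can hFC χ hχ⟩, c.can⟩
  have hw' := bm_comp hw mh
  set Φ : GV Ω → ℂ := fun u => ∫ s, (w (hl Ω F (s 1).1) : ℂ) * cexp (I * (W u s : ℝ)) ∂Q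
  have key φ ψ (hφ : IsTest Ω φ) (hψ : IsTest (Ω \ K') ψ) (f : GV Ω) (e : (f : Uq.HL) = gr ψ) :
      Φ (Rv Ω φ) = cexp (-(inner ℝ (Rv Ω φ - f) f + ‖f‖ ^ 2 / 2 : ℝ)) * Φ (Rv Ω φ - f) := by
    have hψ' := test_mono hψ sdiff_subset
    have t := test_lap hφ hψ'
    have tl := test_univ (UK.lapC_test hψ')
    have e1 : Rv Ω (fun z => φ z + UK.lapC ψ z) = Rv Ω φ - f := by
      have a := Rv_smul hb tl (-1)
      simp only [neg_one_mul, neg_one_smul] at a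
      rw [Rv_add hb (test_univ hφ) tl, sub_eq_add_neg, ← neg_neg (Rv Ω (UK.lapC ψ)), ← a]
      congr 2
      exact Subtype.ext ((Rv_lap hb hψ' (by simpa using Gam.test_smul tl (-1))
        (UK.negLap_lapC hψ.1 hψ.2.1)).trans e.symm)
    have e2 : cc φ ψ = cexp (-(inner ℝ (Rv Ω φ - f) f + ‖f‖ ^ 2 / 2 : ℝ)) := by
      rw [← e1, Submodule.coe_inner, Submodule.coe_norm, e, Rv_inner hb (test_univ t) hψ',
        U.norm_gr hψ, cc, dir2]
      simp only [mul_comm (ψ _)]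
      push_cast
      rw [neg_add, sub_eq_add_neg]
    have i χ (hχ : IsTest Ω χ) (μ : Measure (Sp Ω)) [IsFiniteMeasure μ] :=
      int_w (μ := μ) (bm_comp hw' meas_l1) (meas_E1 hb hχ) (norm_E1 _)
    simp only [Φ]
    rw [← e2, ← e1, cc_E1 c hφ hw', cc_E1 c t hw', ← integral_const_mul]
    have j1 := i φ hφ Q
    have j2 := (i _ t Q).const_mul (cc φ ψ)
    rw [← bind_kap (Q := Q) D.mY] at j1 j2
    refine (bind_kap (Q := Q) D.mY ▸ int_bind j1).trans ((integral_congr_ae ?_).trans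
      (bind_kap (Q := Q) D.mY ▸ int_bind j2).symm)
    filter_upwards [D.all, ae_kap (Q := Q) D.mY c.path, ae_kap_eq (Q := Q) D.mY] with y a1 a2 a3
    obtain ⟨A, b1, b2⟩ := hl_const hH ho hb hΩK hF hF' h1 h2 (b := bs y)
      (κ := kap Q (YY Ω K) y) (by
        filter_upwards [a2, a3] with s hs1 hs2
        exact ⟨hs2 ▸ (bs_eq (geo ho hb hK hKc hΩK hs1).1
          (hKc.nonempty.mono (sub_KK _ _ _))).symm, hs1⟩)
    have k χ : ∫ s, (w (hl Ω F (s 1).1) : ℂ) * E1 Ω χ s ∂kap Q (YY Ω K) y =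
        w A * ∫ s, E1 Ω χ s ∂kap Q (YY Ω K) y :=
      (integral_congr_ae (b2.mono fun s hs => by simp only [hs])).trans (integral_const_mul _ _)
    rw [integral_const_mul, k, k]
    by_cases h0 : w A = 0
    · simp [h0]
    · rw [a1 φ ψ hφ hψ' (exists_cov (b1 ▸ test_mono hψ (sdiff_subset_sdiff_right (hs A h0)))),
        mul_left_comm]
  obtain ⟨hm, C, hC⟩ := bm_comp hw' (meas_l1 (Ω := Ω))
  have cΦ {u : ℕ → GV Ω} {v} (h : Tendsto u atTop (𝓝 v)) : Tendsto (fun n => Φ (u n)) atTop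
      (𝓝 (Φ v)) := tendsto_exp hm.aestronglyMeasurable (fun s => (hC s).trans (le_abs_self C))
        (abs_nonneg C) ((W.continuous.tendsto v).comp h)
  intro f hf g hg
  obtain ⟨ψ, hψ, t1⟩ := U.exists_seq_gr (mem_Vk.1 hf)
  obtain ⟨u, hu, t2⟩ := mem_closure_iff_seq_limit.1 (WI.dense_eMap (isR_Rv hb) (g + f))
  choose φ hφ using hu
  obtain rfl : (fun n => Rv Ω (φ n)) = u := funext hφ
  set f' : ℕ → GV Ω := fun n => ⟨gr (ψ n), U.gr_mem (test_mono (hψ n) sdiff_subset)⟩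
  have t3 : Tendsto f' atTop (𝓝 f) := tendsto_subtype_rng.2 t1
  have t4 := t2.sub t3
  rw [add_sub_cancel_right] at t4
  have t5 := (((continuous_ofReal.tendsto _).comp ((t4.inner t3).add
    ((t3.norm.pow 2).div_const 2))).neg.cexp).mul (cΦ t4)
  rw [Submodule.inner_left_of_mem_orthogonal hf hg, zero_add] at t5
  exact tendsto_nhds_unique (cΦ t2) (t5.congr fun n => (key _ _ (φ n).2 (hψ n) _ rfl).symm)

/-- **WK** -/
theorem wk_of (hH : HLM) : WK := by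
  intro Ω Q W c K hK hKc hΩK n φ l F hl' hF hφ hs
  obtain ⟨ho, hb, hne, hsc⟩ := id c.dom
  have := c.can.prob
  have hc : IsCompact (K ∩ closure Ω) := hb.isCompact_closure.inter_left hK
  have hF' := ne_F c.dom hΩK subset_rfl
  have mh := (hH Ω _ ho hb hc hF').1
  have hw := bm_comp hF mh
  obtain ⟨hm, C, hC⟩ := bm_comp hw (meas_l1 (Ω := Ω))
  refine GT.tilt_cond hl' (.of_bound hm.aestronglyMeasurable C (ae_of_all _ hC))
    (GT.meas_W W _).aemeasurable (fun i j => (Xe.meas_inner_PG ho hb (mh.comp meas_l1) _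
      _).aemeasurable) (ae_of_all _ fun s _ => Matrix.posSemidef_gram ℝ _) fun ξ => ?_
  have t := test_sum' Finset.univ ξ fun j _ => hφ j
  have e := Rv_sum hb Finset.univ ξ fun j _ => test_univ (hφ j)
  simp only [GT.gram_quad, ← map_smul, ← map_sum, ← e, ← green_Pj hb (test_univ t)]
  refine (integral_congr_ae ((GT.W_ex W Finset.univ ξ fun j => Rv Ω (φ j)).mono fun s hs =>
    congrArg _ (hs.trans (by rw [e])))).trans ((cc_E1 c t hw).trans ?_)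
  obtain ⟨X, _, ν, κ, b, hν, hκ, rfl, hy⟩ := kstep Ω ho hb hne hsc Q c.can K hK hKc hΩK
  have m := (U.measurable_green hb t).comp (mh.comp (meas_l1 (Ω := Ω)))
  refine (int_bind (int_w ⟨hm, C, hC⟩ (meas_E1 hb t) (norm_E1 _))).trans ((integral_congr_ae
    (hy.mono fun y ⟨a1, a2, _⟩ => ?_)).trans (int_bind (int_w ⟨hm, C, hC⟩
      (Measurable.cexp (measurable_ofReal.comp (m.div_const 2)).neg) fun s => norm_eg _ _)).symm)
  obtain ⟨A, b1, b2⟩ := hl_const hH ho hb hΩK hc hF' inter_subset_left subset_rfl a1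
  refine (integral_congr_ae (b2.mono fun s hs => by simp only [hs]; rfl)).trans
    (((integral_const_mul _ _).trans ?_).trans ((integral_congr_ae (b2.mono fun s hs => by
      simp only [hs, Function.comp, Pi.neg_apply]; rfl)).trans (integral_const _)).symm)
  by_cases h0 : F A = 0
  · simp [h0]
  · simp only [E1, a2 _ (b1 ▸ test_sum' Finset.univ ξ fun j _ => test_of (hφ j)
      (subset_sdiff.2 ⟨(hφ j).2.2, hs A h0 j⟩)), b1]
    simp [neg_div]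

end Vale.Agent.P155.SG
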