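import Vale.Agent.P155SG.Bas
import Vale.Agent.P155.U.CplLoc

/-!
# P155, block (G): the rows MOM, MONO, PULL
-/

set_option linter.all false

namespace Vale.Agent.P155.SG

open MeasureTheory ProbabilityTheory Set Metric TopologicalSpace Filter Topology Vale.Agent.P155
  Vale.Agent.P155.Q1 Vale.Agent.P155.Uq Vale.Agent.P155.Soup Complex

section
variable {X : Type} [MeasurableSpace X] {μ : Measure X} {H : Type} [NormedAddCommGroup H]
  [InnerProductSpace ℝ H] {W : H →ₗᵢ[ℝ] Lp ℝ 2 μ} {M : Submodule ℝ H} {w : X → ℝ} {f g : H}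

theorem W_lin (W : H →ₗᵢ[ℝ] Lp ℝ 2 μ) (u v : H) (s t : ℝ) :
    ∀ᵐ x ∂μ, W (s • v + t • u) x = s * W v x + t * W u x := by
  rw [map_add, map_smul, map_smul]
  filter_upwards [Lp.coeFn_add (s • W v) (t • W u), Lp.coeFn_smul s (W v),
    Lp.coeFn_smul t (W u)] with x h1 h2 h3
  rw [h1, Pi.add_apply, h2, h3]
  rfl

theorem Perp.shift [M.HasOrthogonalProjection] (h : Perp W M w) (hf : f ∈ M)
    (hg : inner ℝ f g = 0) : ∫ x, (w x : ℂ) * cexp (I * (W (g + f) x : ℝ)) ∂μ =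
      cexp (-(‖f‖ ^ 2 / 2 : ℝ)) * ∫ x, (w x : ℂ) * cexp (I * (W g x : ℝ)) ∂μ := by
  have hp := M.starProjection_apply_mem g
  have hq := M.sub_starProjection_mem_orthogonal g
  have h1 := h _ hp _ hq
  have h2 := h _ (M.add_mem hf hp) _ hq
  have h3 := Submodule.inner_right_of_mem_orthogonal hf hq
  rw [inner_sub_right, hg, zero_sub, neg_eq_zero] at h3
  rw [sub_add_cancel] at h1
  rw [add_comm f, ← add_assoc, sub_add_cancel] at h2
  rw [h2, h1, ← mul_assoc, ← Complex.exp_add, norm_add_sq_real, real_inner_comm, h3]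
  congr 2
  push_cast
  ring

theorem Perp.mom [IsProbabilityMeasure μ] [M.HasOrthogonalProjection] (h : Perp W M w)
    (hw : BM w) (hf : f ∈ M) (g : H) :
    ∫ x, w x * (W f x * W g x) ∂μ = inner ℝ f g * ∫ x, w x ∂μ ∧ ∫ x, w x * W f x ∂μ = 0 := by
  obtain ⟨hm, C, hC⟩ := hw
  have hm' := hm.aestronglyMeasurable (μ := μ)
  have H : ∀ v, inner ℝ f v = 0 → ∀ s t : ℝ,
      ∫ x, (w x : ℂ) * cexp (I * (s * W v x + t * W f x : ℝ)) ∂μ =
        ∫ x, (w x : ℂ) * cexp (I * (s * W v x : ℝ)) * cexp (-(t ^ 2 * ‖f‖ ^ 2 / 2 : ℝ)) ∂μ := by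
    intro v hv s t
    have := h.shift (M.smul_mem t hf) (g := s • v) (by simp [inner_smul_left, inner_smul_right, hv])
    rw [norm_smul, mul_pow, Real.norm_eq_abs, sq_abs, mul_comm] at this
    rw [integral_mul_const]
    refine (integral_congr_ae ((W_lin W f v s t).mono fun x hx => by simp only [hx])).trans
      (this.trans ?_)
    congr 1
    refine integral_congr_ae ((W_lin W f v s 0).mono fun x hx => ?_)
    simp only [zero_smul, zero_mul, add_zero] at hx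
    simp only [hx]
  have H0 := H 0 (inner_zero_right _) 0
  simp only [zero_mul, zero_add, ofReal_zero, mul_zero, Complex.exp_zero, mul_one] at H0
  refine ⟨?_, mom_one (v := fun _ => ‖f‖ ^ 2) hm' hC (Lp.memLp _) aestronglyMeasurable_const
    (fun _ => sq_nonneg _) (fun _ => le_rfl) H0⟩
  set c := inner ℝ f g / ‖f‖ ^ 2
  have e : c * ‖f‖ ^ 2 = inner ℝ f g := by
    by_cases h0 : f = 0
    · simp [h0]
    · exact div_mul_cancel₀ _ (pow_ne_zero _ (norm_ne_zero_iff.2 h0))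
  have h1 := mom_two (v := fun _ => ‖f‖ ^ 2) hm' hC (Lp.memLp _) aestronglyMeasurable_const
    (fun _ => sq_nonneg _) (fun _ => le_rfl) H0
  have h2 := mom_cross (v := fun _ => ‖f‖ ^ 2) hm' hC (Lp.memLp (W f)) (Lp.memLp (W (g - c • f)))
    aestronglyMeasurable_const (fun _ => sq_nonneg _) (fun _ => le_rfl) (H _ (by
      rw [inner_sub_right, inner_smul_right, real_inner_self_eq_norm_sq, e, sub_self]))
  have i := fun u => integrable_wint hm' hC (Lp.memLp (W f)) (Lp.memLp (W u))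
  rw [integral_mul_const] at h1
  simp only [sq (W f _)] at h1
  rw [← e, mul_assoc, mul_comm (‖f‖ ^ 2), ← h1, ← zero_add (c * _), ← h2, ← integral_const_mul,
    ← integral_add (i _) ((i _).const_mul c)]
  refine integral_congr_ae ((W_lin W f (g - c • f) 1 c).mono fun x hx => ?_)
  rw [one_smul, sub_add_cancel] at hx
  simp only [hx]
  ring

end

theorem Kj_closed (j : U.DJ) : IsClosed (U.Kj j) :=
  Set.Finite.isClosed_biUnion j.2.finite_toSet fun i _ => U.isClosed_dsq j.1 i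

theorem sub_Kj (n : ℕ) (A : NC) : (A : Set ℂ) ⊆ U.Kj (U.ixj n (A, A)) := fun z hz =>
  U.mem_Kj.2 ⟨U.sqi n z, U.mem_msq.2 ⟨z, .inl hz, U.mem_sqi n z⟩, U.mem_sqi n z⟩

theorem Kj_anti (A : NC) : Antitone fun n => U.Kj (U.ixj n (A, A)) :=
  antitone_nat_of_succ_le fun n z hz => by
    obtain ⟨i, hi, hzi⟩ := U.mem_Kj.1 hz
    obtain ⟨w, hw, hwi⟩ := U.mem_msq.1 hi
    exact U.mem_Kj.2 ⟨(i.1 / 2, i.2 / 2), U.mem_msq.2 ⟨w, hw, U.dsq_parent n i hwi⟩,
      U.dsq_parent n i hzi⟩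

theorem Kj_exh {A : NC} {F : Set ℂ} (hF : IsCompact F) (h : Disjoint F (A : Set ℂ)) :
    ∃ n, Disjoint F (U.Kj (U.ixj n (A, A))) := by
  obtain ⟨d, hd, h1⟩ := hF.exists_thickening_subset_open A.isCompact.isClosed.isOpen_compl
    h.subset_compl_right
  obtain ⟨n, hn⟩ := exists_pow_lt_of_lt_one (half_pos hd) one_half_lt_one
  refine ⟨n, disjoint_left.2 fun z hzF hz => ?_⟩
  obtain ⟨i, hi, hzi⟩ := U.mem_Kj.1 hz
  obtain ⟨w, hw, hwi⟩ := U.mem_msq.1 hi
  have h2 := U.dsq_diam hwi hzi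
  rw [one_div, inv_pow] at hn
  rw [div_eq_mul_inv] at h2
  exact h1 (mem_thickening_iff.2 ⟨z, hzF, by linarith⟩) (hw.elim id id)

variable {Ω : Set ℂ} {X T : Type} [MeasurableSpace X] [MeasurableSpace T] {μ : Measure X}
  {W : GV Ω →ₗᵢ[ℝ] Lp ℝ 2 μ} {p : X → T} {C : T → NC}

theorem Pj_test {v : ℂ → ℝ} {f : GV Ω} {K : Set ℂ} (hv : IsTest Ω v) (e : (f : Uq.HL) = gr v)
    (h : Disjoint (tsupport v) K) : Pj Ω K f = f :=
  (Pj_eq_iff f).2 (mem_Vk.2 (e ▸ U.gr_mem (test_of hv (subset_sdiff.2 ⟨hv.2.2, h⟩))))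

instance (K : Set ℂ) : CompleteSpace (Uq.Vk Ω K) := (isClosed_Vk K).completeSpace_coe

theorem Loc.mom (h : Loc W p C) {K : Set ℂ} (hK : IsClosed K) {w : T → ℝ} (hw : BM w)
    (hs : ∀ t, w t ≠ 0 → (C t : Set ℂ) ⊆ K) {f : GV Ω} (hf : Pj Ω K f = f) (g : GV Ω) :
    ∫ x, w (p x) * (W f x * W g x) ∂μ = inner ℝ f g * ∫ x, w (p x) ∂μ ∧
      ∫ x, w (p x) * W f x ∂μ = 0 :=
  have := h.prob
  (h.pc K hK w hw hs).mom ⟨hw.1.comp h.mp, hw.2.imp fun _ h _ => h _⟩ ((Pj_eq_iff f).1 hf) g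

theorem Loc.yd (h : Loc W p C) : YD W p C where
  mp := h.mp
  midx n := (U.measurable_ixj n).comp (h.mC.prodMk h.mC)
  sym _ := Pj_sym
  idem _ := Pj_idem
  norm_le _ := Pj_norm_le
  mono _ _ hnm t := Pj_Pj (Kj_anti (C t) hnm)
  lim t f := by
    rw [tendsto_subtype_rng]
    refine U.prjStmt.2 _ (fun n => Ω \ U.Kj (U.ixj n (C t, C t)))
      (fun n => sdiff_subset_sdiff_right (Kj_anti _ n.le_succ))
      (fun n => sdiff_subset_sdiff_right (sub_Kj n _)) (fun v hv => ?_) _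
    exact (Kj_exh hv.2.1 (subset_sdiff.1 hv.2.2).2).imp fun n hn =>
      subset_sdiff.2 ⟨(subset_sdiff.1 hv.2.2).1, hn⟩
  piece n j w hw hb hs f g hf :=
    (h.mom (Kj_closed j) ⟨hw, hb⟩ (fun t ht => hs t ht ▸ sub_Kj n _) hf g).1
  piece1 n j w hw hb hs f hf :=
    (h.mom (Kj_closed j) ⟨hw, hb⟩ (fun t ht => hs t ht ▸ sub_Kj n _) hf f).2

theorem Loc.Yc_eq (h : Loc W p C) (f : GV Ω) :
    Yc W p C f = (haveI := h.prob; YData.Y h.yd f) := dif_pos ⟨h.prob, h.yd⟩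

/-- **MOM** -/
theorem mom : MOM := by
  intro Ω X T _ _ μ W p C h
  have := h.prob
  simp only [Zc, h.Yc_eq]
  refine ⟨h.yd, h.yd.Y_lin, fun f g => ((h.yd.smPi f).inner
    stronglyMeasurable_const).measurable,
    fun w hw f g => ⟨?_, h.yd.YW f g hw.1 hw.2, h.yd.Y1 f hw.1 hw.2⟩, fun v f hv e => ?_⟩
  · simpa only [Pj_inner] using h.yd.YY f g hw.1 hw.2
  · filter_upwards [h.yd.Y_eq f] with x hx hd
    rw [hx ((Kj_exh hv.2.1 hd).imp fun n => Pj_test hv e), sub_self]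

theorem Perp.congr {H : Type} [NormedAddCommGroup H] [InnerProductSpace ℝ H]
    {W : H →ₗᵢ[ℝ] Lp ℝ 2 μ} {M : Submodule ℝ H} {w w' : X → ℝ} (h : Perp W M w)
    (e : w =ᵐ[μ] w') : Perp W M w' := fun f hf g hg => by
  have k u : ∫ x, (w' x : ℂ) * cexp (I * (W u x : ℝ)) ∂μ =
      ∫ x, (w x : ℂ) * cexp (I * (W u x : ℝ)) ∂μ := integral_congr_ae (e.mono fun x hx => by
    simp only [hx])
  rw [k, k, h f hf g hg]

/-- **MONO** -/
theorem mono : MONO := by
  intro Ω X T T' _ _ _ μ W p C θ C' h hθ hC hs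
  refine ⟨h.op, h.bd, h.prob, h.iso, hθ.comp h.mp, hC, fun K hK w hw hK' => ?_⟩
  obtain ⟨hm, c, hc⟩ := hw
  refine (h.pc K hK ({t | (C t : Set ℂ) ⊆ K}.indicator fun t => w (θ t))
    ⟨(hm.comp hθ).indicator (h.mC (meas_subset hK)), c, fun t => ?_⟩
    fun t ht => mem_of_indicator_ne_zero ht).congr (hs.mono fun x hx => ?_)
  · exact (norm_indicator_le_norm_self (fun t => w (θ t)) t).trans (hc _)
  · exact indicator_apply_eq_self.2 fun h' => by_contra fun h0 => h' (hx.trans (hK' _ h0))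

/-- **PULL** -/
theorem pull : PULL := by
  intro Ω X S T _ _ _ μ Q a Wt W p C ha e h
  have := h.prob
  have k (u) {w : S → ℝ} (hw : Measurable w) :
      ∫ x, (w (a x) : ℂ) * cexp (I * (Wt u x : ℝ)) ∂μ =
        ∫ s, (w s : ℂ) * cexp (I * (W u s : ℝ)) ∂Q := by
    have := (Lp.stronglyMeasurable (W u)).measurable
    have e' := integral_map (μ := μ) ha.aemeasurable (Measurable.aestronglyMeasurable
      (by fun_prop : Measurable fun s => (w s : ℂ) * cexp (I * (W u s : ℝ))))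
    rw [ha.map_eq] at e'
    exact (integral_congr_ae ((e u).mono fun x hx => by simp only [hx])).trans e'.symm
  refine ⟨h.op, h.bd, ⟨(ha.measure_preimage MeasurableSet.univ.nullMeasurableSet).trans
    measure_univ⟩, fun f => ?_, h.mp.comp ha.measurable, h.mC, fun K hK w hw hs f hf g hg => ?_⟩
  · simpa using (k f (w := fun _ => 1) measurable_const).trans (by simpa using h.iso f)
  · exact (k _ (hw.1.comp h.mp)).trans ((h.pc K hK w hw hs f hf g hg).trans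
      (congrArg _ (k _ (hw.1.comp h.mp)).symm))

end Vale.Agent.P155.SG
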