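import Vale.Agent.P155SG.Bas
import Vale.Agent.P155H.Slit
import Vale.Agent.P155.NT814Y.Cut

/-!
# P155, block (G): in the coupling no hole of the large domain joins the two sets
-/

set_option linter.all false

namespace Vale.Agent.P155.SG

open MeasureTheory ProbabilityTheory Set Metric TopologicalSpace Filter Topology Vale.Agent.P155
  Vale.Agent.P155.Q1 Vale.Agent.P155.Uq Vale.Agent.P155.Soup
open Vale.Agent.P155.Tree (Dom Carp)
open scoped NNReal ENNReal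

namespace Noe

section
variable {Ω : Set ℂ} {X S T : Type} [MeasurableSpace X] [MeasurableSpace S] [MeasurableSpace T]
  {μ : Measure X} {Q : Measure S} {a : X → S} {Wt : GV Ω →ₗᵢ[ℝ] Lp ℝ 2 μ}
  {W : GV Ω →ₗᵢ[ℝ] Lp ℝ 2 Q} {p : S → T} {C : T → NC}

theorem zc_pull (pull : PULL) (trf : TRF) (ha : MeasurePreserving a μ Q)
    (e : ∀ f, ∀ᵐ x ∂μ, Wt f x = W f (a x)) (l : Loc W p C) (f : GV Ω) :
    ∀ᵐ x ∂μ, Zc Wt (fun x => p (a x)) C f x = Zc W p C f (a x) := by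
  filter_upwards [e f, trf Ω Ω X S T T μ Q Wt W _ p C C a ∅ f f (pull _ _ _ _ _ _ _ _ _ _ _ ha e l)
    l ha.quasiMeasurePreserving fun K _ _ => e _] with x h1 h2
  rw [Zc, Zc, h1, h2 (empty_subset _) rfl]

theorem ht_pull (pull : PULL) (trf : TRF) (ha : MeasurePreserving a μ Q)
    (e : ∀ f, ∀ᵐ x ∂μ, Wt f x = W f (a x)) (l : Loc W p C) {D : S → Set ℂ} (h : Ht W p C D) :
    Ht Wt (fun x => p (a x)) C fun x => D (a x) := fun φ hφ => by
  filter_upwards [zc_pull pull trf ha e l (Rv Ω φ), ha.quasiMeasurePreserving.ae (h φ hφ)]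
    with x h1 h2 h3
  rw [h1]
  exact h2 h3

theorem side_pull (pull : PULL) (trf : TRF) (ha : MeasurePreserving a μ Q)
    (e : ∀ f, ∀ᵐ x ∂μ, Wt f x = W f (a x)) (l : Loc W p C) {σ : ℝ} {P : T → Set ℂ}
    (h : Side W p C σ P) : Side Wt (fun x => p (a x)) C σ P :=
  ⟨h.sg, h.ms, ha.quasiMeasurePreserving.ae h.un, fun φ hφ => by
    filter_upwards [zc_pull pull trf ha e l (Rv Ω φ), ha.quasiMeasurePreserving.ae (h.val φ hφ)]
      with x h1 h2 h3
    rw [h1]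
    exact h2 h3⟩

theorem hb_of {D : S → Set ℂ} (h : Ht W p C D) (hD : ∀ x, D x ⊆ C (p x)) : Hb W p C :=
  fun z r hr hz => by
    filter_upwards [h _ (UK.bump_test hr hz)] with x h1 h2
    have := h1 (h2.mono (UK.bump_tsupport hr) (hD x))
    simp only [abs_of_nonneg (UK.bump_nonneg _ _ _)] at this
    rwa [UK.integral_bump z hr, mul_one] at this

end

variable {V E B W : Set ℂ} {ε : ℝ}

theorem carp {s : Sp V} (h : SWR.Path V s) : Carp V (s 1).1 :=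
  ⟨h.conn 1, h.zero.1.ge.trans (h.mono 0).1, (h.mono 1).2⟩

theorem WV (g : Stg V E B W ε) : W ⊆ V := (Geo.hole_sub g.hole).trans sdiff_subset

theorem fr_V (g : Stg V E B W ε) : frontier V ⊆ Wᶜ ∪ cthickening ε E := fun z hz =>
  .inl fun h => (g.seed.dom.1.frontier_eq.le hz).2 (WV g h)

theorem fr_W (g : Stg V E B W ε) : frontier W ⊆ Qs V E W ε := fun z hz =>
  ⟨.inl (g.dom.1.frontier_eq.le hz).2, closure_mono (WV g) (frontier_subset_closure hz)⟩

theorem qs_cp (g : Stg V E B W ε) : IsCompact (Qs V E W ε) :=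
  g.seed.dom.2.1.isCompact_closure.inter_left (g.dom.1.isClosed_compl.union isClosed_cthickening)

theorem k_conn (g : Stg V E B W ε) : IsConnected (Wᶜ ∪ cthickening ε E) := by
  have h := Geo.dom_compl_conn g.dom
  obtain ⟨x, hx⟩ := h.1
  refine ⟨⟨x, .inl hx⟩, isPreconnected_of_forall x ?_⟩
  rintro y (hy | hy)
  · exact ⟨_, subset_union_left, hx, hy, h.2⟩
  · rw [g.seed.cq.cthickening_eq_biUnion_closedBall g.pos.le] at hy
    obtain ⟨e, he, hy⟩ := mem_iUnion₂.1 hy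
    exact ⟨Wᶜ ∪ closedBall e ε, union_subset_union_right _ (closedBall_subset_cthickening he _),
      .inl hx, .inr hy, h.2.union e (fun k => (Geo.hole_sub g.hole k).2 he)
        (mem_closedBall_self g.pos.le) (convex_closedBall e ε).isPreconnected⟩

theorem qs_conn (g : Stg V E B W ε) : IsConnected (Qs V E W ε) :=
  NT814Y.conn_cut g.seed.dom.1 (Tree.topo.1 V g.seed.dom).1 (k_conn g)
    (g.dom.1.isClosed_compl.union isClosed_cthickening) (fr_V g)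

theorem geo_union {A A' : Set ℂ} (hV : Dom V) (h : UK.Geo V A) (h' : UK.Geo V A') :
    UK.Geo V (A ∪ A') :=
  ⟨h.op, h.bd, h.cp.union h'.cp,
    h.cn.union ((Tree.topo.1 V hV).1.1.mono (subset_inter h.fr h'.fr)) h'.cn,
    h.fr.trans subset_union_left⟩

end Noe

open Noe in
/-- **NOE** -/
theorem noe_of (cpl : CPL) (pull : PULL) (_ : MONO) (trf : TRF) (key : KEY) (posx : POSX)
    (crit : CRIT) (can1 : CAN1) (hlm : HLM) (topo : TOPO) : NOE := by
  intro V E B W ε g Q1 W1 c1 Q0 W0 c0 S _ _ Q π W' tr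
  have := c1.loc.prob
  have := tr.l1.prob
  obtain ⟨X, _, μ, a, a', Wt, ha, ha', e, e', cp⟩ :=
    cpl V (Sp V) S Q1 Q W1 W' c1.loc.iso tr.l1.iso
  refine ⟨X, _, μ, a, a', ha, ha', fun f => ((e f).and (e' f)).mono fun x h =>
    h.1.symm.trans h.2, ?_⟩
  have hV := g.seed.dom
  obtain ⟨mh, hh⟩ := hlm W _ g.dom.1 g.dom.2.1 (qs_cp g) (qs_conn g).1
  obtain ⟨-, t1, P, P', s1, s2, cov⟩ := can1 V Q1 W1 c1
  have L1 := pull _ _ _ _ _ _ _ _ _ _ _ ha e c1.loc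
  have L2 := pull _ _ _ _ _ _ _ _ _ _ _ ha' e' tr.l1
  have L3 := cp _ _ _ _ _ _ c1.loc tr.l1
  have L4 := cp _ _ _ _ _ _ c1.loc tr.l2
  have T1 := ht_pull pull trf ha e c1.loc t1
  have T2 := ht_pull pull trf ha' e' tr.l1 tr.ht
  have p1 : ∀ᵐ x ∂μ, SWR.Path V (a x) := ha.quasiMeasurePreserving.ae c1.path
  have p2 : ∀ᵐ x ∂μ, SWR.Path W (π (a' x)) := ha'.quasiMeasurePreserving.ae (tr.qmp.ae c0.path)
  have g1 : ∀ᵐ x ∂μ, UK.Geo V (lv (past 1 (a x))) := p1.mono fun x h =>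
    ⟨hV.1, hV.2.1, (lv _).isCompact, (carp h).1, (carp h).2.1⟩
  have g2 : ∀ᵐ x ∂μ, UK.Geo V (lh (Qs V E W ε) (past 1 (π (a' x)))) := p2.mono fun x h => by
    have k := hh (π (a' x) 1).1
    exact ⟨hV.1, hV.2.1, (lh _ _).isCompact, (carp h).1.union
      ((Tree.topo.1 W g.dom).1.1.mono (subset_inter (carp h).2.1 ((fr_W g).trans k.1)))
      ⟨(qs_conn g).1.mono k.1, k.2.2.1 (qs_conn g).2⟩,
      fun z hz => .inr (k.1 ⟨fr_V g hz, frontier_subset_closure hz⟩)⟩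
  have mD : Measurable fun t : Past W 1 => hl W (Qs V E W ε) (lv t) := mh.comp meas_lv
  have H := posx _ _ _ _ _ _ _ _ _ _ _ L1 L2 L3 mD T1 T2
    (key _ _ _ _ _ _ _ _ _ _ L1 L2 L3 g1 g2 (hb_of T1 fun _ => empty_subset _)
      (hb_of T2 fun _ => subset_union_right)) (p1.mono fun x h => h.null 1)
    (p2.mono fun x h => measure_mono_null (by
      rintro z ⟨⟨h1 | h1, h2⟩, h3⟩
      · exact ⟨h1, not_not.1 fun k => h3 ((hh _).1 ⟨.inl k, subset_closure h2⟩)⟩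
      · exact (h3 h1).elim) (h.null 1))
  have cr := fun σ P (s : Side W1 (past 1) lv σ P) => ae_all_iff.2 fun i : ℕ => ae_all_iff.2
    fun r : ℚ => (eventually_imp_distrib_left (p := 0 < r ∧ closedBall (denseSeq ℂ i) (2 * r) ⊆ V)).2 (fun h =>
      crit _ _ _ _ _ _ _ _ _ _ _ σ P L1 L2.mp L2.mC mD L3 L4 (side_pull pull trf ha e c1.loc s) H
        ((g1.and g2).mono fun x h => ⟨h.1, geo_union hV h.1 h.2, (hh _).2.1.trans
          (union_subset inter_subset_right (closure_mono (WV g)))⟩) _ r (by exact_mod_cast h.1) h.2)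
  filter_upwards [p1, p2, cr _ _ s1, cr _ _ s2, ha.quasiMeasurePreserving.ae cov,
    ha.quasiMeasurePreserving.ae s1.un, ha.quasiMeasurePreserving.ae s2.un]
    with x h1 h2 k1 k2 cv u1 u2 hn
  rintro ⟨U, hU, b1, b2⟩
  obtain ⟨i, r, r0, r1, r2, r3⟩ :=
    topo V E B W ε g _ _ U (carp h1) h1.nice (carp h2) h2.nice hn hU b1 b2
  rw [← (hh _).2.2.2 h2.nice] at r2
  obtain ⟨⟨z, hz⟩, hc⟩ := Geo.hole_conn hU
  rcases cv (Geo.hole_sub hU hz) with k | k
  · obtain ⟨M, hM⟩ := k1 i r ⟨r0, r1⟩ r2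
    obtain ⟨δ, d0, d⟩ := r3 M
    exact hM δ d0 (d.mono (u1.2 U hc (Geo.hole_sub hU) ⟨z, hz, k⟩) subset_union_left le_rfl)
  · obtain ⟨M, hM⟩ := k2 i r ⟨r0, r1⟩ r2
    obtain ⟨δ, d0, d⟩ := r3 M
    exact hM δ d0 (d.mono (u2.2 U hc (Geo.hole_sub hU) ⟨z, hz, k⟩) subset_union_left le_rfl)

end Vale.Agent.P155.SG
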