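import Vale.Agent.P155.U.ExtAbs

/-!
# P155, block (G): a functional of test functions which is bounded on small bumps
-/

set_option linter.all false

namespace Vale.Agent.P155.SG

open MeasureTheory Filter Topology Vale.Agent.P155 Vale.Agent.P155.Uq Vale.Agent.P155.UK

/-- a functional of test functions which is bounded in `L²` and bounded by `c` on the small bumps
around almost every point is bounded by `c` times the `L¹` norm -/
theorem abs_le_l1 {Ω : Set ℂ} (hΩ : IsOpen Ω) {ℓ : (ℂ → ℝ) → ℝ}
    (hlin : ∀ φ ψ, IsTest Ω φ → IsTest Ω ψ → ∀ s t : ℝ,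
      ℓ (fun z => s * φ z + t * ψ z) = s * ℓ φ + t * ℓ ψ) {C : ℝ}
    (hC : ∀ ψ, IsTest Ω ψ → |ℓ ψ| ≤ C * √(∫ z, ψ z ^ 2)) {B c : ℝ} (hc : 0 ≤ c)
    (hB : ∀ z r, 0 < r → Metric.closedBall z r ⊆ Ω → |ℓ (bump z r)| ≤ B)
    (hlim : ∀ᵐ z, z ∈ Ω → Tendsto (fun r => max (|ℓ (bump z r)| - c) 0) (𝓝[>] 0) (𝓝 0)) :
    ∀ φ, IsTest Ω φ → |ℓ φ| ≤ c * ∫ z, |φ z| := by
  intro φ hφ
  obtain ⟨k, hk, hℓ⟩ := exists_L2 hlin hC
  have hφc := tcont hφ
  -- radii
  obtain ⟨r0, hr0, hr0'⟩ := hφ.2.1.isCompact.exists_cthickening_subset_open hΩ hφ.2.2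
  set r : ℕ → ℝ := fun n => min r0 1 / ((n : ℝ) + 1) with hrdef
  have hm : 0 < min r0 1 := lt_min hr0 one_pos
  have hr : ∀ n, 0 < r n := fun n => by positivity
  have hrle : ∀ n, r n ≤ min r0 1 := fun n => by
    rw [hrdef]
    apply div_le_self hm.le
    have : (0 : ℝ) ≤ n := Nat.cast_nonneg n
    linarith
  have hrt : Tendsto r atTop (𝓝 0) := by
    have := tendsto_one_div_add_atTop_nhds_zero_nat (𝕜 := ℝ)
    have h2 := this.const_mul (min r0 1)
    rw [mul_zero] at h2
    refine h2.congr (fun n => ?_)
    rw [hrdef]; ring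
  have hball : ∀ n, ∀ z ∈ tsupport φ, Metric.closedBall z (r n) ⊆ Ω := by
    intro n z hz
    refine Set.Subset.trans ?_ hr0'
    refine (Metric.closedBall_subset_closedBall ((hrle n).trans (min_le_left _ _))).trans ?_
    exact Metric.closedBall_subset_cthickening hz r0
  -- bounds for `φ`
  obtain ⟨M, hM⟩ := hφc.bounded_above_of_compact_support hφ.2.1
  have hM' : ∀ z, |φ z| ≤ M := fun z => by simpa using hM z
  have hM0 : 0 ≤ M := (abs_nonneg _).trans (hM' 0)
  obtain ⟨R, hR⟩ := hφ.2.1.isCompact.isBounded.exists_norm_le
  have hR' : ∀ z, R < ‖z‖ → φ z = 0 := by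
    intro z hz
    by_contra hne
    have := hR z (subset_tsupport φ hne)
    linarith
  -- `k` is locally integrable
  have hkI : Integrable (fun w => |k w| * (Metric.closedBall (0 : ℂ) (R + 1)).indicator 1 w) := by
    have h1 : Integrable ((Metric.closedBall (0 : ℂ) (R + 1)).indicator (fun w => |k w|)) := by
      rw [integrable_indicator_iff Metric.isClosed_closedBall.measurableSet]
      have h2 : MemLp k 2 (volume.restrict (Metric.closedBall (0 : ℂ) (R + 1))) := hk.restrict _
      have : IsFiniteMeasure (volume.restrict (Metric.closedBall (0 : ℂ) (R + 1))) :=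
        ⟨by rw [Measure.restrict_apply_univ]; exact measure_closedBall_lt_top⟩
      have h3 : MemLp k 1 (volume.restrict (Metric.closedBall (0 : ℂ) (R + 1))) :=
        h2.mono_exponent (by norm_num)
      exact (memLp_one_iff_integrable.1 h3).abs
    refine h1.congr (Filter.Eventually.of_forall fun w => ?_)
    by_cases hw : w ∈ Metric.closedBall (0 : ℂ) (R + 1)
    · simp [Set.indicator_of_mem hw]
    · simp [Set.indicator_of_notMem hw]
  -- Fubini
  have hfub : ∀ n, ∫ z, φ z * ∫ w, k w * bump z (r n) w = ∫ w, k w * moll φ (r n) w := by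
    intro n
    obtain ⟨Mb, hMb0, hMb⟩ := bump_bound
    have hint : Integrable (Function.uncurry fun z w => φ z * (k w * bump z (r n) w))
        (volume.prod volume) := by
      have hdom : Integrable (fun p : ℂ × ℂ => |φ p.1| *
          (Mb / r n ^ 2 * (|k p.2| * (Metric.closedBall (0 : ℂ) (R + 1)).indicator 1 p.2)))
          (volume.prod volume) :=
        Integrable.mul_prod (f := fun z => |φ z|)
          (g := fun w => Mb / r n ^ 2 *
            (|k w| * (Metric.closedBall (0 : ℂ) (R + 1)).indicator 1 w))
          (hφc.integrable_of_hasCompactSupport hφ.2.1).abs (hkI.const_mul _)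
      refine hdom.mono' ?_ (Filter.Eventually.of_forall ?_)
      · apply AEStronglyMeasurable.mul
        · exact hφc.aestronglyMeasurable.comp_fst
        · apply AEStronglyMeasurable.mul
          · exact hk.1.comp_snd
          · exact (bump_cont2 (r n)).aestronglyMeasurable
      · rintro ⟨z, w⟩
        simp only [Function.uncurry, Real.norm_eq_abs, abs_mul]
        by_cases hz : R < ‖z‖
        · rw [hR' z hz]; simp
        push Not at hz
        apply mul_le_mul_of_nonneg_left _ (abs_nonneg _)
        by_cases hw : w ∈ Metric.closedBall (0 : ℂ) (R + 1)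
        · rw [Set.indicator_of_mem hw, Pi.one_apply, mul_one,
            abs_of_nonneg (bump_nonneg _ _ _), mul_comm]
          exact mul_le_mul_of_nonneg_right (hMb z (r n) w (hr n)) (abs_nonneg _)
        · have h0 : bump z (r n) w = 0 := by
            apply bump_zero (hr n)
            rw [Metric.mem_closedBall, dist_zero_right] at hw
            push Not at hw
            have h1 : ‖w‖ ≤ dist w z + ‖z‖ := by
              have := norm_sub_norm_le w z
              rw [dist_eq_norm]
              linarith
            have := (hrle n).trans (min_le_right _ _)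
            linarith
          rw [h0, Set.indicator_of_notMem hw]
          simp
    have h := integral_integral_swap hint
    have e1 : ∀ z, ∫ w, φ z * (k w * bump z (r n) w) = φ z * ∫ w, k w * bump z (r n) w :=
      fun z => integral_const_mul _ _
    have e2 : ∀ w, ∫ z, φ z * (k w * bump z (r n) w) = k w * moll φ (r n) w := by
      intro w
      unfold moll
      rw [← integral_const_mul]
      congr 1
      funext z
      ring
    simp only [e1, e2] at h
    exact h
  -- first limit
  have hlim1 : Tendsto (fun n => ∫ w, k w * moll φ (r n) w) atTop (𝓝 (∫ w, k w * φ w)) := by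
    apply tendsto_integral_of_dominated_convergence
      (fun w => M * (|k w| * (Metric.closedBall (0 : ℂ) (R + 1)).indicator 1 w))
    · intro n
      apply hk.1.mul
      have : StronglyMeasurable (moll φ (r n)) := by
        unfold moll
        have hc2 : Continuous (Function.uncurry fun w z : ℂ => φ z * bump z (r n) w) := by
          apply Continuous.mul
          · exact hφc.comp continuous_snd
          · exact (bump_cont2 (r n)).comp (by fun_prop : Continuous fun p : ℂ × ℂ => (p.2, p.1))
        exact hc2.stronglyMeasurable.integral_prod_right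
      exact this.aestronglyMeasurable
    · exact hkI.const_mul M
    · intro n
      refine Filter.Eventually.of_forall fun w => ?_
      rw [Real.norm_eq_abs, abs_mul]
      by_cases hw : w ∈ Metric.closedBall (0 : ℂ) (R + 1)
      · rw [Set.indicator_of_mem hw, Pi.one_apply, mul_one, mul_comm]
        exact mul_le_mul_of_nonneg_right (moll_bound hM' (hr n) w) (abs_nonneg _)
      · rw [moll_zero hR' (hr n), Set.indicator_of_notMem hw]
        · simp
        · rw [Metric.mem_closedBall, dist_zero_right] at hw
          push Not at hw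
          have := (hrle n).trans (min_le_right _ _)
          linarith
    · exact Filter.Eventually.of_forall fun w => (moll_tendsto hφc hφ.2.1 hr hrt w).const_mul _
  -- second limit
  have iφ : Integrable fun z => |φ z| := (hφc.integrable_of_hasCompactSupport hφ.2.1).abs
  have mk : ∀ n, AEStronglyMeasurable (fun z => ∫ w, k w * bump z (r n) w) volume := by
    intro n
    have hc2 : AEStronglyMeasurable (Function.uncurry fun z w : ℂ => k w * bump z (r n) w)
        (volume.prod volume) :=
      hk.1.comp_snd.mul (bump_cont2 (r n)).aestronglyMeasurable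
    exact hc2.integral_prod_right'
  have mG : ∀ n, AEStronglyMeasurable
      (fun z => |φ z| * max (|∫ w, k w * bump z (r n) w| - c) 0) volume := by
    intro n
    apply hφc.abs.aestronglyMeasurable.mul
    have h1 : Continuous fun t : ℝ => max (|t| - c) 0 := by fun_prop
    exact h1.comp_aestronglyMeasurable (mk n)
  have bG : ∀ n z, ‖|φ z| * max (|∫ w, k w * bump z (r n) w| - c) 0‖ ≤ |φ z| * |B| := by
    intro n z
    rw [Real.norm_eq_abs, abs_mul, abs_abs]
    by_cases hz : z ∈ tsupport φ
    · apply mul_le_mul_of_nonneg_left _ (abs_nonneg _)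
      rw [← hℓ _ (bump_test (hr n) (hball n z hz)), abs_of_nonneg (le_max_right _ _)]
      have := hB z (r n) (hr n) (hball n z hz)
      have := le_abs_self B
      exact max_le (by linarith) (abs_nonneg _)
    · rw [image_eq_zero_of_notMem_tsupport hz]; simp
  have hlim2 : Tendsto (fun n => ∫ z, |φ z| * max (|∫ w, k w * bump z (r n) w| - c) 0) atTop
      (𝓝 0) := by
    have h0 : 𝓝 (∫ _ : ℂ, (0 : ℝ)) = 𝓝 (0 : ℝ) := by rw [integral_zero]
    refine h0 ▸ tendsto_integral_of_dominated_convergence (f := fun _ => (0 : ℝ))
      (fun z => |φ z| * |B|) mG ?_ ?_ ?_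
    · exact iφ.mul_const _
    · intro n
      exact Filter.Eventually.of_forall (bG n)
    · filter_upwards [hlim] with z hz
      by_cases hzt : z ∈ tsupport φ
      · have h1 := (hz (hφ.2.2 hzt)).comp (tendsto_nhdsWithin_iff.2
          ⟨hrt, Filter.Eventually.of_forall hr⟩)
        have h2 := h1.const_mul |φ z|
        rw [mul_zero] at h2
        refine h2.congr (fun n => ?_)
        simp only [Function.comp]
        rw [hℓ _ (bump_test (hr n) (hball n z hzt))]
      · have : φ z = 0 := image_eq_zero_of_notMem_tsupport hzt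
        simp [this]
  have hle : ∀ n, |∫ w, k w * moll φ (r n) w| ≤
      c * (∫ z, |φ z|) + ∫ z, |φ z| * max (|∫ w, k w * bump z (r n) w| - c) 0 := by
    intro n
    have iG : Integrable fun z => |φ z| * max (|∫ w, k w * bump z (r n) w| - c) 0 :=
      (iφ.mul_const |B|).mono' (mG n) (Filter.Eventually.of_forall (bG n))
    rw [← hfub n, ← integral_const_mul, ← integral_add (iφ.const_mul c) iG, ← Real.norm_eq_abs]
    apply norm_integral_le_of_norm_le ((iφ.const_mul c).add iG)
    refine Filter.Eventually.of_forall fun z => ?_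
    rw [Real.norm_eq_abs, abs_mul]
    have h1 := le_max_left (|∫ w, k w * bump z (r n) w| - c) 0
    have h2 := mul_le_mul_of_nonneg_left h1 (abs_nonneg (φ z))
    simp only [Pi.add_apply]
    linarith
  rw [hℓ φ hφ]
  have h4 := hlim2.const_add (c * ∫ z, |φ z|)
  rw [add_zero] at h4
  exact le_of_tendsto_of_tendsto' hlim1.abs h4 hle

end Vale.Agent.P155.SG
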