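import Vale.Agent.P155SG.Bas
import Vale.Agent.P155SG.PosA
import Vale.Agent.P155.U.ExtFub
import Vale.Agent.P155.U.ExtB
import Vale.Agent.P155.U.Sub

/-!
# P155, block (G): the harmonic part of the union on all test functions (POSX)
-/

set_option linter.all false

namespace Vale.Agent.P155.SG

open MeasureTheory ProbabilityTheory Set Metric TopologicalSpace Filter Topology Vale.Agent.P155
  Vale.Agent.P155.Q1 Vale.Agent.P155.Uq Vale.Agent.P155.Soup

namespace Px

variable {Ω : Set ℂ} {X T T' : Type} [MeasurableSpace X] [MeasurableSpace T] [MeasurableSpace T']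
  {μ : Measure X} {W : GV Ω →ₗᵢ[ℝ] Lp ℝ 2 μ} {p : X → T} {C : T → NC} {p' : X → T'}
  {C' : T' → NC}

theorem sq_sub {f g : X → ℝ} (hf : MemLp f 2 μ) (hg : MemLp g 2 μ) :
    ∫ x, (f x - g x) ^ 2 ∂μ =
      ∫ x, f x * f x ∂μ - 2 * ∫ x, g x * f x ∂μ + ∫ x, g x * g x ∂μ := by
  have h1 : (fun x => (f x - g x) ^ 2) =
      fun x => (f x * f x - 2 * (g x * f x)) + g x * g x := by
    funext x; ring
  have hff : Integrable (fun x => f x * f x) μ := hf.integrable_mul hf
  have hgg : Integrable (fun x => g x * g x) μ := hg.integrable_mul hg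
  have hgf : Integrable (fun x => g x * f x) μ := hg.integrable_mul hf
  have h2 : ∫ x, ((f x * f x - 2 * (g x * f x)) + g x * g x) ∂μ =
      ∫ x, (f x * f x - 2 * (g x * f x)) ∂μ + ∫ x, g x * g x ∂μ :=
    integral_add (hff.sub (hgf.const_mul 2)) hgg
  have h3 : ∫ x, (f x * f x - 2 * (g x * f x)) ∂μ =
      ∫ x, f x * f x ∂μ - ∫ x, 2 * (g x * f x) ∂μ := integral_sub hff (hgf.const_mul 2)
  rw [h1, h2, h3, integral_const_mul]

theorem memZ (f : GV Ω) : MemLp (Zc W p C f) 2 μ := (Lp.memLp (W f)).sub (Lp.memLp (Yc W p C f))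

theorem measZ (f : GV Ω) : Measurable (Zc W p C f) :=
  (Lp.stronglyMeasurable (W f)).measurable.sub (Lp.stronglyMeasurable (Yc W p C f)).measurable

theorem EW (f : GV Ω) : ∫ x, W f x * W f x ∂μ = ‖f‖ ^ 2 := by
  rw [← W.norm_map f, ← real_inner_self_eq_norm_sq, L2.inner_def]
  simp [sq]

theorem intP (mom : MOM) (h : Loc W p C) (f : GV Ω) :
    Integrable (fun x => ‖Pj Ω (C (p x)) f‖ ^ 2) μ := by
  have := h.prob
  have h1 := ((mom Ω X T μ W p C h).2.2.1 f f).comp h.mp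
  simp only [Function.comp_def, Pj_self] at h1
  refine int_of_bdd h1 (b := ‖f‖ ^ 2) fun x => ?_
  rw [abs_of_nonneg (sq_nonneg _)]
  exact pow_le_pow_left₀ (norm_nonneg _) (Pj_norm_le f) 2

theorem EY (mom : MOM) (h : Loc W p C) (f : GV Ω) :
    ∫ x, Yc W p C f x * Yc W p C f x ∂μ = ∫ x, ‖Pj Ω (C (p x)) f‖ ^ 2 ∂μ := by
  have h1 := ((mom Ω X T μ W p C h).2.2.2.1 (fun _ => 1) (BM_const 1) f f).1
  simpa only [one_mul, Pj_self] using h1

theorem EZ (mom : MOM) (h : Loc W p C) (f : GV Ω) :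
    ∫ x, Zc W p C f x ^ 2 ∂μ = ‖f‖ ^ 2 - ∫ x, ‖Pj Ω (C (p x)) f‖ ^ 2 ∂μ := by
  have h1 := ((mom Ω X T μ W p C h).2.2.2.1 (fun _ => 1) (BM_const 1) f f).2.1
  simp only [one_mul, Pj_self] at h1
  unfold Zc
  rw [sq_sub (Lp.memLp (W f)) (Lp.memLp (Yc W p C f)), EW, h1, EY mom h]
  ring

theorem EZ_le (mom : MOM) (h : Loc W p C) (f : GV Ω) : ∫ x, Zc W p C f x ^ 2 ∂μ ≤ ‖f‖ ^ 2 := by
  rw [EZ mom h]
  have : 0 ≤ ∫ x, ‖Pj Ω (C (p x)) f‖ ^ 2 ∂μ := integral_nonneg fun _ => sq_nonneg _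
  linarith

theorem ED (mom : MOM) (cross : CROSS) (h' : Loc W p' C')
    (hu : Loc W (fun x => (p x, p' x)) (un C C')) (f : GV Ω) :
    ∫ x, (Yc W p' C' f x - Yc W (fun x => (p x, p' x)) (un C C') f x) ^ 2 ∂μ =
      ∫ x, ‖Pj Ω (C' (p' x)) f‖ ^ 2 ∂μ - ∫ x, ‖Pj Ω (un C C' (p x, p' x)) f‖ ^ 2 ∂μ := by
  have h1 := cross Ω X (T × T') T' μ W (fun x => (p x, p' x)) (un C C') Prod.snd C' hu
    measurable_snd h' (fun _ => 1) (BM_const 1) f f
  have h2 : ∀ x, inner ℝ (Pj Ω (un C C' (p x, p' x)) f) (Pj Ω (C' (p' x)) f) =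
      ‖Pj Ω (un C C' (p x, p' x)) f‖ ^ 2 := fun x => by
    rw [Pj_nest (by rw [coe_un]; exact subset_union_right), Pj_self]
  simp only [one_mul, h2] at h1
  rw [sq_sub (Lp.memLp _) (Lp.memLp _), EY mom h', EY mom hu]
  have h3 : ∫ x, Yc W (fun x => (p x, p' x)) (un C C') f x * Yc W p' C' f x ∂μ =
    ∫ x, ‖Pj Ω (un C C' (p x, p' x)) f‖ ^ 2 ∂μ := h1
  rw [h3]
  ring

theorem ED_le (mom : MOM) (cross : CROSS) (h : Loc W p C) (h' : Loc W p' C')
    (hu : Loc W (fun x => (p x, p' x)) (un C C')) (ht : Ht W p C fun _ => ∅) {b : ℂ → ℝ}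
    (hb : IsTest Ω b) (hb0 : ∀ z, 0 ≤ b z) (hb1 : ∫ z, |b z| = 1) :
    ∫ x, (Yc W p' C' (Rv Ω b) x - Yc W (fun x => (p x, p' x)) (un C C') (Rv Ω b) x) ^ 2 ∂μ ≤
      cst ^ 2 := by
  have := h.prob
  obtain ⟨M, hM⟩ := test_bound hb
  have e1 : ∫ x, Zc W p C (Rv Ω b) x ^ 2 ∂μ ≤ cst ^ 2 := by
    have : ∫ x, Zc W p C (Rv Ω b) x ^ 2 ∂μ ≤ ∫ _, cst ^ 2 ∂μ := by
      refine integral_mono_ae (memZ _).integrable_sq (integrable_const _) ?_
      filter_upwards [ht b hb] with x hx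
      have h1 := hx (disjoint_empty _)
      rw [hb1, mul_one] at h1
      exact sq_le_sq' (abs_le.1 h1).1 (abs_le.1 h1).2
    simpa using this
  rw [EZ mom h] at e1
  rw [ED mom cross h' hu]
  have e2 : ∫ x, (‖Pj Ω (C (p x)) (Rv Ω b)‖ ^ 2 + ‖Pj Ω (C' (p' x)) (Rv Ω b)‖ ^ 2) ∂μ ≤
      ∫ x, (‖Pj Ω (un C C' (p x, p' x)) (Rv Ω b)‖ ^ 2 + ‖Rv Ω b‖ ^ 2) ∂μ := by
    refine integral_mono ((intP mom h _).add (intP mom h' _))
      ((intP mom hu _).add (integrable_const _)) fun x => ?_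
    have h1 := U.drop_sub (A := (C (p x) : Set ℂ)) (A' := (C' (p' x) : Set ℂ)) h.bd
      hb.1.continuous.aestronglyMeasurable hM hb0
    have h2 := green_Pj (K := (un C C' (p x, p' x) : Set ℂ)) h.bd (test_univ hb)
    rw [green_Pj h.bd (test_univ hb), green_Pj h.bd (test_univ hb), green_Pj h.bd (test_univ hb),
      green_Rv h.bd (test_univ hb)] at h1
    have h3 : ‖Pj Ω (un C C' (p x, p' x)) (Rv Ω b)‖ =
      ‖Pj Ω ((C (p x) : Set ℂ) ∪ C' (p' x)) (Rv Ω b)‖ := rfl
    simp only [h3]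
    linarith
  rw [integral_add (intP mom h _) (intP mom h' _),
    integral_add (intP mom hu _) (integrable_const _)] at e2
  simp only [integral_const, probReal_univ, smul_eq_mul, one_mul] at e2
  linarith

/-- the second moment of the harmonic part on a bump, on an event where the bump avoids `D` -/
theorem E_bump (mom : MOM) (cross : CROSS) (h : Loc W p C) (h' : Loc W p' C')
    (hu : Loc W (fun x => (p x, p' x)) (un C C')) (ht : Ht W p C fun _ => ∅) {D : X → Set ℂ}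
    (ht' : Ht W p' C' D) {z : ℂ} {r : ℝ} (hr : 0 < r) (hz : closedBall z r ⊆ Ω) {A : Set X}
    (hA : MeasurableSet A) (hAD : ∀ x ∈ A, Disjoint (closedBall z r) (D x)) :
    ∫ x, (A.indicator (Zc W (fun x => (p x, p' x)) (un C C') (Rv Ω (UK.bump z r))) x) ^ 2 ∂μ ≤
      (2 * cst) ^ 2 := by
  have := h.prob
  have hb := UK.bump_test hr hz
  have e1 := ED_le mom cross h h' hu ht hb (UK.bump_nonneg z r) (int_abs_bump hr)
  have mD : MemLp (fun x => Yc W p' C' (Rv Ω (UK.bump z r)) x -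
      Yc W (fun x => (p x, p' x)) (un C C') (Rv Ω (UK.bump z r)) x) 2 μ :=
    (Lp.memLp _).sub (Lp.memLp _)
  have e2 : ∫ x, (A.indicator (Zc W (fun x => (p x, p' x)) (un C C') (Rv Ω (UK.bump z r))) x) ^ 2 ∂μ
      ≤ ∫ x, (2 * cst ^ 2 + 2 * (Yc W p' C' (Rv Ω (UK.bump z r)) x -
        Yc W (fun x => (p x, p' x)) (un C C') (Rv Ω (UK.bump z r)) x) ^ 2) ∂μ := by
    refine integral_mono_ae ((memZ _).indicator hA).integrable_sq
      ((integrable_const _).add (mD.integrable_sq.const_mul 2)) ?_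
    filter_upwards [ht' _ hb] with x hx
    by_cases hxA : x ∈ A
    · have h1 := hx ((hAD x hxA).mono_left (UK.bump_tsupport hr))
      rw [int_abs_bump hr, mul_one] at h1
      have h2 := sq_le_sq' (abs_le.1 h1).1 (abs_le.1 h1).2
      rw [indicator_of_mem hxA]
      unfold Zc at h2 ⊢
      nlinarith [sq_nonneg (W (Rv Ω (UK.bump z r)) x - 2 * Yc W p' C' (Rv Ω (UK.bump z r)) x +
        Yc W (fun x => (p x, p' x)) (un C C') (Rv Ω (UK.bump z r)) x)]
    · rw [indicator_of_notMem hxA]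
      nlinarith [sq_nonneg cst, sq_nonneg (Yc W p' C' (Rv Ω (UK.bump z r)) x -
        Yc W (fun x => (p x, p' x)) (un C C') (Rv Ω (UK.bump z r)) x)]
  rw [integral_add (integrable_const _) (mD.integrable_sq.const_mul 2), integral_const_mul,
    integral_const_mul] at e2
  simp only [integral_const, probReal_univ, smul_eq_mul, one_mul] at e2
  linarith

theorem ind_le [IsProbabilityMeasure μ] {f : X → ℝ} (hf : MemLp f 2 μ) {A B : Set X}
    (hA : MeasurableSet A) (hB : MeasurableSet B) (hBA : B ⊆ A) {c : ℝ} (hc0 : 0 ≤ c)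
    (hc : ∫ x, (A.indicator f x) ^ 2 ∂μ ≤ c ^ 2) : ∫ x in B, |f x| ∂μ ≤ c * √(μ.real B) := by
  have h1 := int_mul_sqrt (B := B) (hf.indicator hA) hc hc0
  rwa [setIntegral_congr_fun hB (g := fun x => |f x|) fun x hx => by
    simp only [indicator_of_mem (hBA hx)]] at h1

/-- the integral of the harmonic part over an event where `D` avoids the open set `O` -/
theorem set_le (mom : MOM) (cross : CROSS) (h : Loc W p C) (h' : Loc W p' C')
    (hu : Loc W (fun x => (p x, p' x)) (un C C')) (ht : Ht W p C fun _ => ∅) {D : X → Set ℂ}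
    (ht' : Ht W p' C' D) (hb : Hb W (fun x => (p x, p' x)) (un C C'))
    (h0 : ∀ᵐ x ∂μ, volume ((C (p x) : Set ℂ) ∩ Ω) = 0)
    (h0' : ∀ᵐ x ∂μ, volume (((C' (p' x) : Set ℂ) ∩ Ω) \ D x) = 0) {O : Set ℂ} (hO : IsOpen O)
    (hOΩ : O ⊆ Ω) {A : Set X} (hA : MeasurableSet A) (hAD : ∀ x ∈ A, Disjoint O (D x))
    {φ : ℂ → ℝ} (hφ : IsTest O φ) :
    |∫ x in A, Zc W (fun x => (p x, p' x)) (un C C') (Rv Ω φ) x ∂μ| ≤
      cst * μ.real A * ∫ z, |φ z| := by
  have := h.prob
  have hc := cst_nonneg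
  set Z : GV Ω → X → ℝ := Zc W (fun x => (p x, p' x)) (un C C') with hZ
  have iZ : ∀ f, Integrable (Z f) μ := fun f => (memZ f).integrable (by norm_num)
  have habs : ∀ f, |∫ x in A, Z f x ∂μ| ≤ ∫ x in A, |Z f x| ∂μ := fun f =>
    abs_integral_le_integral_abs
  have hs1 : ∀ B : Set X, √(μ.real B) ≤ 1 := fun B =>
    Real.sqrt_le_one.2 measureReal_le_one
  obtain ⟨P, hP0, hP⟩ := poinc_test h.bd
  have mU : Measurable fun x => un C C' (p x, p' x) := hu.mC.comp hu.mp
  refine abs_le_l1 hO (ℓ := fun ψ => ∫ x in A, Z (Rv Ω ψ) x ∂μ) ?_ (C := √P) ?_ (B := 2 * cst)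
    (mul_nonneg hc measureReal_nonneg) ?_ ?_ φ hφ
  · intro φ ψ hφ hψ s t
    have e : ∀ᵐ x ∂μ, Z (Rv Ω fun z => s * φ z + t * ψ z) x =
        s * Z (Rv Ω φ) x + t * Z (Rv Ω ψ) x := by
      rw [Rv_lin h.bd (test_univ hφ) (test_univ hψ), hZ]
      unfold Zc
      rw [(mom Ω X _ μ W _ _ hu).2.1, W.map_add, W.map_smul, W.map_smul]
      filter_upwards [Lp.coeFn_add (s • W (Rv Ω φ)) (t • W (Rv Ω ψ)),
        Lp.coeFn_smul s (W (Rv Ω φ)), Lp.coeFn_smul t (W (Rv Ω ψ)),
        Lp.coeFn_add (s • Yc W (fun x => (p x, p' x)) (un C C') (Rv Ω φ))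
          (t • Yc W (fun x => (p x, p' x)) (un C C') (Rv Ω ψ)),
        Lp.coeFn_smul s (Yc W (fun x => (p x, p' x)) (un C C') (Rv Ω φ)),
        Lp.coeFn_smul t (Yc W (fun x => (p x, p' x)) (un C C') (Rv Ω ψ))] with x h1 h2 h3 h4 h5 h6
      rw [h1, h4, Pi.add_apply, Pi.add_apply, h2, h3, h5, h6]
      simp only [Pi.smul_apply, smul_eq_mul]
      ring
    rw [integral_congr_ae (ae_restrict_of_ae e), integral_add ((iZ _).const_mul s).integrableOn
      ((iZ _).const_mul t).integrableOn, integral_const_mul, integral_const_mul]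
  · intro ψ hψ
    refine (habs _).trans ?_
    have h1 : 0 ≤ ∫ z, ψ z ^ 2 := integral_nonneg fun z => sq_nonneg _
    have h2 : ∫ x, Z (Rv Ω ψ) x ^ 2 ∂μ ≤ (√P * √(∫ z, ψ z ^ 2)) ^ 2 := by
      rw [mul_pow, Real.sq_sqrt hP0.le, Real.sq_sqrt h1]
      refine (EZ_le mom hu _).trans ?_
      rw [← green_Rv h.bd (test_univ hψ)]
      exact hP Ω ψ subset_rfl hψ.1.continuous hψ.2.1
    refine (int_mul_sqrt (memZ _) h2 (by positivity)).trans ?_
    exact mul_le_of_le_one_right (by positivity) (hs1 A)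
  · intro z r hr hz
    refine (habs _).trans ?_
    refine (ind_le (memZ _) hA hA subset_rfl (by positivity) (E_bump mom cross h h' hu ht ht' hr
      (hz.trans hOΩ) hA fun x hx => (hAD x hx).mono_left hz)).trans ?_
    exact mul_le_of_le_one_right (by positivity) (hs1 A)
  · have n0 : ∀ᵐ x ∂μ.restrict A, volume ((un C C' (p x, p' x) : Set ℂ) ∩ O) = 0 := by
      rw [ae_restrict_iff' hA]
      filter_upwards [h0, h0'] with x h1 h2 hx
      refine measure_mono_null (fun z hz => ?_) (measure_union_null h1 h2)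
      rcases hz.1 with h3 | h3
      · exact Or.inl ⟨h3, hOΩ hz.2⟩
      · exact Or.inr ⟨⟨h3, hOΩ hz.2⟩, fun h4 => disjoint_left.1 (hAD x hx) hz.2 h4⟩
    filter_upwards [fubini_zero (μ := μ.restrict A) mU hO n0] with z hz hzO
    have h1 := (ENNReal.tendsto_toReal ENNReal.zero_ne_top).comp (hz hzO)
    have h2 := h1.sqrt.const_mul (2 * cst)
    simp only [ENNReal.toReal_zero, Real.sqrt_zero, mul_zero] at h2
    obtain ⟨ρ, hρ0, hρ⟩ := Metric.isOpen_iff.1 hO z hzO
    refine squeeze_zero' (Eventually.of_forall fun r => le_max_right _ _) ?_ h2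
    filter_upwards [Ioo_mem_nhdsGT hρ0] with r hr
    have hcb : closedBall z r ⊆ O := (closedBall_subset_ball hr.2).trans hρ
    set E : Set X := {x | ¬ Disjoint (closedBall z r) (un C C' (p x, p' x) : Set ℂ)} with hE
    have mE : MeasurableSet E := meas_meet mU z r
    refine max_le ?_ (by positivity)
    have e1 := habs (Rv Ω (UK.bump z r))
    rw [← integral_inter_add_sdiff mE (iZ _).abs.integrableOn] at e1
    have e2 := ind_le (memZ (W := W) (p := fun x => (p x, p' x)) (C := un C C') _) hA (hA.inter mE)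
      inter_subset_left (by positivity) (E_bump mom cross h h' hu ht ht' hr.1 (hcb.trans hOΩ) hA
        fun x hx => (hAD x hx).mono_left hcb)
    have e3 : ∫ x in A \ E, |Z (Rv Ω (UK.bump z r)) x| ∂μ ≤ ∫ _ in A \ E, cst ∂μ := by
      refine setIntegral_mono_on_ae (iZ _).abs.integrableOn (integrable_const _).integrableOn
        (hA.diff mE) ?_
      filter_upwards [hb z r hr.1 (hcb.trans hOΩ)] with x hx hxA
      exact hx (not_not.1 hxA.2)
    have e4 : ∫ _ in A \ E, cst ∂μ ≤ cst * μ.real A := by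
      rw [setIntegral_const, smul_eq_mul, mul_comm]
      exact mul_le_mul_of_nonneg_left (measureReal_mono sdiff_subset) hc
    have e5 : μ.real (A ∩ E) = ((μ.restrict A) E).toReal := by
      rw [Measure.restrict_apply mE, inter_comm]
      rfl
    rw [e5] at e2
    simp only [Function.comp_def]
    linarith

end Px

/-- **POSX** -/
theorem posx (mom : MOM) (cross : CROSS) : POSX := by
  intro Ω X T T' _ _ _ μ W p C p' C' D h h' hu hD ht ht' hb h0 h0' φ hφ
  have := h.prob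
  set Z : X → ℝ := Zc W (fun x => (p x, p' x)) (un C C') (Rv Ω φ) with hZ
  have iZ : Integrable Z μ := (Px.memZ _).integrable (by norm_num)
  set c : ℝ := cst * ∫ z, |φ z| with hc
  have key : ∀ n : ℕ, ∀ᵐ x ∂μ, Disjoint (cthickening (1 / ((n : ℝ) + 1)) (tsupport φ))
      (D (p' x) : Set ℂ) → |Z x| ≤ c := by
    intro n
    set Ξ : Set X := {x | Disjoint (cthickening (1 / ((n : ℝ) + 1)) (tsupport φ))
      (D (p' x) : Set ℂ)} with hΞ
    have mΞ : MeasurableSet Ξ := meas_disjoint (hD.comp h'.mp) isClosed_cthickening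
    have hs : ∀ s, MeasurableSet s → |∫ x in s ∩ Ξ, Z x ∂μ| ≤ ∫ _ in s ∩ Ξ, c ∂μ := by
      intro s hs
      have h1 := Px.set_le mom cross h h' hu ht ht' hb h0 h0'
        (O := thickening (1 / ((n : ℝ) + 1)) (tsupport φ) ∩ Ω) (isOpen_thickening.inter h.op)
        inter_subset_right (hs.inter mΞ) (fun x hx => hx.2.mono_left
          (inter_subset_left.trans (thickening_subset_cthickening _ _)))
        (test_of hφ (subset_inter (self_subset_thickening (by positivity) _) hφ.2.2))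
      rw [setIntegral_const, smul_eq_mul, hc]
      linarith
    have k1 : 0 ≤ᵐ[μ.restrict Ξ] fun x => c - Z x :=
      ae_nonneg_restrict_of_forall_setIntegral_nonneg_inter
        ((integrable_const c).sub iZ).integrableOn fun s hs' _ => by
          rw [integral_sub (integrable_const c).integrableOn iZ.integrableOn]
          linarith [(abs_le.1 (hs s hs')).2]
    have k2 : 0 ≤ᵐ[μ.restrict Ξ] fun x => c + Z x :=
      ae_nonneg_restrict_of_forall_setIntegral_nonneg_inter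
        ((integrable_const c).add iZ).integrableOn fun s hs' _ => by
          rw [integral_add (integrable_const c).integrableOn iZ.integrableOn]
          linarith [(abs_le.1 (hs s hs')).1]
    filter_upwards [(ae_restrict_iff' mΞ).1 k1, (ae_restrict_iff' mΞ).1 k2] with x h1 h2 hx
    have h3 : 0 ≤ c - Z x := h1 hx
    have h4 : 0 ≤ c + Z x := h2 hx
    exact abs_le.2 ⟨by linarith, by linarith⟩
  filter_upwards [ae_all_iff.2 key] with x hx hd
  obtain ⟨δ, hδ, hδ'⟩ := hd.exists_cthickenings hφ.2.1.isCompact (D (p' x)).isCompact.isClosed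
  obtain ⟨n, hn⟩ := exists_nat_one_div_lt hδ
  exact hx n ((hδ'.mono_left (cthickening_mono hn.le _)).mono_right (self_subset_cthickening _))

end Vale.Agent.P155.SG
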