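import Vale.Agent.P155SG.Bas
import Vale.Agent.P155H.Slit

/-!
# P155, block (G): TRA
-/

set_option linter.all false

namespace Vale.Agent.P155.SG

open MeasureTheory ProbabilityTheory Set Metric TopologicalSpace Filter Topology Vale.Agent.P155
  Vale.Agent.P155.Q1 Vale.Agent.P155.Uq Vale.Agent.P155.Soup

namespace Tr

theorem exp_sub {a b : ℝ} (ha : a ≤ 0) : Real.exp a - Real.exp b ≤ |a - b| := by
  have h1 := Real.add_one_le_exp (b - a)
  have h2 := Real.exp_le_one_iff.2 ha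
  have h3 := Real.exp_pos a
  rw [Real.exp_sub, le_div_iff₀ h3] at h1
  nlinarith [le_abs_self (a - b), abs_nonneg (a - b)]

theorem tilt_lip {ι : Type} [Fintype ι] {l : ℝ} (hl : 0 ≤ l) (x y : ι → ℝ) :
    |GT.tilt l x - GT.tilt l y| ≤ l / 2 * ∑ j, |x j - y j| * |x j + y j| := by
  have n (z : ι → ℝ) : -(l / 2) * ∑ j, z j ^ 2 ≤ 0 :=
    mul_nonpos_of_nonpos_of_nonneg (by linarith) (by positivity)
  refine (abs_sub_le_iff.2 ⟨exp_sub (n x), (exp_sub (n y)).trans_eq (abs_sub_comm _ _)⟩).trans ?_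
  rw [← mul_sub, abs_mul, abs_neg, abs_of_nonneg (by linarith), ← Finset.sum_sub_distrib]
  refine mul_le_mul_of_nonneg_left ((Finset.abs_sum_le_sum_abs _ _).trans_eq ?_) (by linarith)
  simp only [sq_sub_sq, abs_mul, mul_comm]

theorem cont_int {ι H X : Type} [Fintype ι] [DecidableEq ι]
    [NormedAddCommGroup H] [InnerProductSpace ℝ H]
    [MeasurableSpace X] {μ : Measure X} [IsFiniteMeasure μ] (W : H →ₗᵢ[ℝ] Lp ℝ 2 μ) {l : ℝ}
    (hl : 0 ≤ l) (A : Set X) :
    Continuous fun r : ι → H => ∫ x in A, GT.tilt l (fun j => W (r j) x) ∂μ := by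
  have i (r : ι → H) : Integrable (fun x => GT.tilt l fun j => W (r j) x) μ :=
    .of_bound ((GT.cont_tilt l).measurable.comp (GT.meas_W W r)).aestronglyMeasurable 1
      (ae_of_all _ fun x => by
        rw [Real.norm_of_nonneg (GT.tilt_pos _ _).le]; exact GT.tilt_le hl _)
  have cs (f g : Lp ℝ 2 μ) : ∫ x, |f x| * |g x| ∂μ ≤ ‖f‖ * ‖g‖ := by
    have := real_inner_le_norm |g| |f|
    rw [norm_abs_eq_norm, norm_abs_eq_norm, L2.inner_def, mul_comm] at this
    refine le_of_eq_of_le (integral_congr_ae ?_) this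
    filter_upwards [Lp.coeFn_abs f, Lp.coeFn_abs g] with x h1 h2
    simp [h1, h2]
  have i2 (f g : Lp ℝ 2 μ) : Integrable (fun x => |f x| * |g x|) μ :=
    (Lp.memLp f).abs.integrable_mul (Lp.memLp g).abs
  refine continuous_iff_continuousAt.2 fun e => tendsto_iff_norm_sub_tendsto_zero.2
    (squeeze_zero (g := fun r => l / 2 * ∑ j, ‖r j - e j‖ * ‖r j + e j‖)
      (fun _ => norm_nonneg _) (fun r => ?_) ?_)
  · rw [← integral_sub (i r).integrableOn (i e).integrableOn]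
    refine (norm_integral_le_integral_norm _).trans ((setIntegral_le_integral ((i r).sub (i e)).norm
      (ae_of_all _ fun _ => norm_nonneg _)).trans ((integral_mono_ae ((i r).sub (i e)).norm
      ((integrable_finsetSum Finset.univ fun j _ => i2 (W (r j - e j)) (W (r j + e j))).const_mul
        (l / 2)) ?_).trans ?_))
    · filter_upwards [ae_all_iff.2 fun j => Lp.coeFn_sub (W (r j)) (W (e j)),
        ae_all_iff.2 fun j => Lp.coeFn_add (W (r j)) (W (e j))] with x h1 h2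
      simp only [map_sub, map_add, h1, h2]
      exact tilt_lip hl _ _
    · rw [integral_const_mul, integral_finsetSum _ fun j _ => i2 _ _]
      refine mul_le_mul_of_nonneg_left (Finset.sum_le_sum fun j _ => ?_) (by linarith)
      simpa only [W.norm_map] using cs (W (r j - e j)) (W (r j + e j))
  · have : Continuous fun r : ι → H => l / 2 * ∑ j, ‖r j - e j‖ * ‖r j + e j‖ := by fun_prop
    simpa using this.tendsto e

variable {V E B W K : Set ℂ} {ε : ℝ}

theorem sub (h : Stg V E B W ε) : W ⊆ V := (Geo.hole_sub h.hole).trans sdiff_subset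

theorem fr (h : Stg V E B W ε) : frontier W ∩ V ⊆ E := by
  rintro z ⟨h1, h2⟩
  by_contra h3
  rw [h.dom.1.frontier_eq] at h1
  obtain ⟨r, hr, h4⟩ := Metric.isOpen_iff.1 (h.seed.dom.1.sdiff h.seed.cq.isClosed) z ⟨h2, h3⟩
  obtain ⟨y, y1, y2⟩ := mem_closure_iff.1 h1.1 _ isOpen_ball (mem_ball_self hr)
  exact h1.2 (Geo.sub_hole h.hole (convex_ball z r).isPreconnected h4 y1 y2 (mem_ball_self hr))

theorem cl (h : Stg V E B W ε) : IsClosed (Wᶜ ∪ cthickening ε E) :=
  h.dom.1.isClosed_compl.union isClosed_cthickening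

theorem cpt (h : Stg V E B W ε) : IsCompact (Qs V E W ε) :=
  h.seed.dom.2.1.isCompact_closure.inter_left (cl h)

theorem ne (h : Stg V E B W ε) : (Qs V E W ε).Nonempty := by
  obtain ⟨z, hz⟩ := nonempty_frontier_iff.2 ⟨h.dom.2.2.1, Geo.dom_ne_univ h.dom⟩
  rw [h.dom.1.frontier_eq] at hz
  exact ⟨z, Or.inl hz.2, closure_mono (sub h) hz.1⟩

theorem conn (h : Stg V E B W ε) : IsConnected (Wᶜ ∪ cthickening ε E) := by
  obtain ⟨⟨x, hx⟩, hc⟩ := Geo.dom_compl_conn h.dom
  refine ⟨⟨x, Or.inl hx⟩, isPreconnected_of_forall x ?_⟩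
  rintro y (hy | hy)
  · exact ⟨_, subset_union_left, hx, hy, hc⟩
  · rw [cthickening_eq_biUnion_closedBall _ h.pos.le, h.seed.cq.isClosed.closure_eq] at hy
    obtain ⟨z, z1, z2⟩ := mem_iUnion₂.1 hy
    exact ⟨_, union_subset_union_right _ (closedBall_subset_cthickening z1 ε), Or.inl hx, Or.inr z2,
      hc.union z (fun h1 => (Geo.hole_sub h.hole h1).2 z1) (mem_closedBall_self h.pos.le)
        (convex_closedBall z ε).isPreconnected⟩

theorem off (hK : Qs V E W ε ⊆ K) : V \ K ⊆ W \ cthickening ε E := fun z hz =>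
  ⟨by_contra fun h => hz.2 (hK ⟨Or.inl h, subset_closure hz.1⟩),
    fun h => hz.2 (hK ⟨Or.inr h, subset_closure hz.1⟩)⟩

theorem eqv (h : Stg V E B W ε) (hK : Qs V E W ε ⊆ K) : V \ K = W \ K :=
  subset_antisymm (fun z hz => ⟨(off hK hz).1, hz.2⟩) (sdiff_subset_sdiff_left (sub h))

end Tr

open Tr in
/-- **TRA** -/
theorem tra_of (tm : TM) (hj : HJ) (dens : DENS) (can : CAN0) (loch : LOCH) (htx : HTX) (trf : TRF)
    (hlm : HLM) : TRA := by
  intro V E B W ε h Q0 W0 c0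
  obtain ⟨Q1, W1, c1⟩ := can V h.seed.dom
  have hV := h.seed.dom
  have p0 := c0.loc.prob
  have p1 := c1.loc.prob
  obtain ⟨J, C, j1, j2, j3⟩ := hj V W E ε hV.1 hV.2.1 h.dom.1 (sub h) (fr h) h.pos
  let ι : GV W →ₗᵢ[ℝ] GV V := ⟨Submodule.inclusion (U.GV_mono (sub h)), fun _ => rfl⟩
  let P : GV V →L[ℝ] GV W := (GV W).orthogonalProjection.comp (GV V).subtypeL
  have P0 {e : GV V} (he : P e = 0) : (e : Uq.HL) ∈ (GV W)ᗮ :=
    Submodule.orthogonalProjection_eq_zero_iff.1 he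
  obtain ⟨Q, W', q1, q2, q3, q4, q5, q6⟩ := tm _ _ ι P J C _ _ Q0 Q1 W0 W1 c0.loc.iso c1.loc.iso
    (fun g m => Submodule.inner_orthogonalProjection_eq_of_mem_right m (g : Uq.HL))
    fun n e he h0 => j3 n e he fun j => P0 (h0 j)
  have qm : Measure.QuasiMeasurePreserving Prod.fst Q Q0 :=
    Measure.quasiMeasurePreserving_fst.mono_left q3
  have sF (A : NC) := ((hlm W _ h.dom.1 h.dom.2.1 (cpt h) (ne h)).2 A).1
  have loc {T : Type} [MeasurableSpace T] {p : Sp W → T} {D : T → NC} (hp : Loc W0 p D)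
      (hs : ∀ s, Qs V E W ε ⊆ D (p s)) : Loc W' (fun x => p x.1) D := by
    refine ⟨hV.1, hV.2.1, q1, q2, hp.mp.comp measurable_fst, hp.mC, fun K hK w hw h1 => ?_⟩
    by_cases h2 : Qs V E W ε ⊆ K
    · have e : Uq.Vk V K = (Uq.Vk W K).map ι.toLinearMap := by
        ext f
        rw [mem_Vk, eqv h h2]
        exact ⟨fun hf => ⟨⟨f, U.GV_mono sdiff_subset hf⟩, hf, rfl⟩, fun ⟨m, h3, h4⟩ => h4 ▸ h3⟩
      rw [e]
      refine q5 _ (fun s => w (p s)) (isClosed_Vk K) (fun e he => ?_)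
        ⟨hw.1.comp hp.mp, hw.2.imp fun _ h _ => h _⟩ (hp.pc K hK w hw h1)
      exact (Submodule.mem_orthogonal' _ _).2 fun m hm => j1 e (P0 he) m
        (U.GV_mono (eqv h h2 ▸ off h2) hm)
    · have e (s) : w (p s) = 0 := by_contra fun h3 => h2 ((hs s).trans (h1 _ h3))
      intro f _ g _
      simp [e]
  obtain ⟨x1, x2⟩ := htx W Q0 W0 c0 _ (cpt h) (ne h)
  have l1 := loc x1 fun s => (sF _).trans subset_union_right
  refine ⟨_, inferInstance, StandardBorelSpace.prod, Q, Prod.fst, W', qm, l1, loc (loch W Q0 W0 c0 _ _ (cl h)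
    (conn h) subset_union_left (cpt h) inter_subset_left (inter_subset_inter_right _
      (closure_mono (sub h)))) fun s => sF _, fun φ hφ => ?_, fun A hA δ η hδ hη => ?_⟩
  · by_cases h1 : Disjoint (tsupport φ) (Qs V E W ε)
    swap
    · exact ae_of_all _ fun x h2 => (h1 (h2.mono_right (sF _))).elim
    have t := test_of hφ ((subset_sdiff.2 ⟨hφ.2.2, h1⟩).trans (off subset_rfl))
    have e : P (Rv V φ) = Rv W φ := Subtype.ext (Rv_proj hV.2.1 (sub h) (test_univ hφ))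
    have a1 := q4 (Rv V φ) fun f hf => by rw [e, j2 f φ t]
    have a2 := trf _ _ _ _ _ _ Q Q0 W' W0 _ _ _ _ Prod.fst (Qs V E W ε) (Rv V φ) (Rv W φ) l1 x1 qm
      fun K _ hK => by
        have m : (Pj V K (Rv V φ) : Uq.HL) ∈ GV (W \ K) := eqv h hK ▸ Pj_mem _
        have e2 : P (Pj V K (Rv V φ)) = Pj W K (Rv W φ) := Subtype.ext
          ((Submodule.starProjection_eq_self_iff.2 (U.GV_mono sdiff_subset m)).trans (by
            rw [Pj_Rv hV.2.1 (test_univ hφ), Pj_Rv h.dom.2.1 (test_univ hφ), eqv h hK]))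
        rw [← e2]
        refine q4 _ fun f hf => ?_
        rw [e2, j1 f (P0 hf) _ (U.GV_mono (eqv h hK ▸ off hK) (Pj_mem _))]
        exact (Submodule.inner_left_of_mem_orthogonal (U.GV_mono sdiff_subset m) (P0 hf)).symm
    filter_upwards [a1, a2, qm.ae (x2 φ (test_mono t sdiff_subset))] with x b1 b2 b3 hd
    rw [Zc, b1, b2 ((sF _).trans subset_union_right) rfl, e]
    exact b3 hd
  · obtain ⟨n, e, l, hl, e0, e1⟩ := q6 A hA _ (half_pos hδ)
    have z := GT.Zd_pos hl (Matrix.posSemidef_gram ℝ e)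
    have o := isOpen_lt ((GT.cont_Zd (ι := Fin n) (H := GV V) hl).const_mul (Q0.real A - δ))
      (cont_int (ι := Fin n) W' hl (Prod.fst ⁻¹' A))
    obtain ⟨ρ, hρ, h1⟩ := Metric.isOpen_iff.1 o e
      (lt_of_lt_of_le (mul_lt_mul_of_pos_right (by linarith) z) e1 : (Q0.real A - δ) * _ < _)
    choose φ t1 t2 using fun j => dens V W E η hV.1 hV.2.1 h.dom.1 (sub h) (fr h) hη (e j)
      (P0 (e0 j)) ρ hρ
    exact ⟨n, φ, l, hl, t1, le_of_lt (h1 ((dist_pi_lt_iff hρ).2 fun j => by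
      rw [dist_comm, dist_eq_norm]; exact t2 j))⟩

end Vale.Agent.P155.SG
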