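import Vale.Agent.P155SG.Sk

/-!
# P155, block (G): rows TRF and CROSS
-/

set_option linter.all false

namespace Vale.Agent.P155.SG

open MeasureTheory ProbabilityTheory Set Metric TopologicalSpace Filter Topology Vale.Agent.P155
  Vale.Agent.P155.Q1 Vale.Agent.P155.Uq Vale.Agent.P155.Soup

namespace Trf

theorem Yc_eq {Ω : Set ℂ} {X T : Type} [MeasurableSpace X] [MeasurableSpace T] {μ : Measure X}
    [h : IsProbabilityMeasure μ] {W : GV Ω →ₗᵢ[ℝ] Lp ℝ 2 μ} {p : X → T} {C : T → NC}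
    (D : YD W p C) (f : GV Ω) : Yc W p C f = YData.Y D f := dif_pos ⟨h, D⟩

theorem sub_Kj (n : ℕ) (A : NC) : (A : Set ℂ) ⊆ U.Kj (U.ixj n (A, A)) := fun z hz =>
  U.mem_Kj.2 ⟨U.sqi n z, U.mem_msq.2 ⟨z, Or.inl hz, U.mem_sqi n z⟩, U.mem_sqi n z⟩

theorem closed_Kj (j : U.DJ) : IsClosed (U.Kj j) :=
  isClosed_biUnion_finset fun i _ => U.isClosed_dsq _ i

theorem fib {X T J : Type} [MeasurableSpace X] [MeasurableSpace T] [MeasurableSpace J] [Countable J]
    [MeasurableSingletonClass J] {μ : Measure X} {p : X → T} {K : T → J} {F G : J → X → ℝ}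
    {w : T → ℝ} (hp : Measurable p) (hK : Measurable K) (hw : BM w)
    (i1 : Integrable (fun x => w (p x) * F (K (p x)) x) μ)
    (i2 : Integrable (fun x => w (p x) * G (K (p x)) x) μ)
    (h : ∀ j w, BM w → ∫ x, w (p x) * F j x ∂μ = ∫ x, w (p x) * G j x ∂μ) :
    ∫ x, w (p x) * F (K (p x)) x ∂μ = ∫ x, w (p x) * G (K (p x)) x ∂μ := by
  have hm : Measurable fun x => K (p x) := hK.comp hp
  have e : ∀ (F : X → ℝ) j, ∫ x in (fun x => K (p x)) ⁻¹' {j}, w (p x) * F x ∂μ =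
      ∫ x, (K ⁻¹' {j}).indicator w (p x) * F x ∂μ := fun F j => by
    rw [← integral_indicator (hm (measurableSet_singleton j))]
    refine integral_congr_ae (Eventually.of_forall fun x => ?_)
    by_cases hx : K (p x) = j <;> simp [indicator, hx]
  rw [integral_fiber hm (fun j x => w (p x) * F j x) i1,
    integral_fiber hm (fun j x => w (p x) * G j x) i2]
  refine tsum_congr fun j => (e _ j).trans ((h j _ ⟨hw.1.indicator (hK (measurableSet_singleton j)),
    hw.2.imp fun C hC t => ?_⟩).trans (e _ j).symm)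
  exact (norm_indicator_le_norm_self w t).trans (hC t)

theorem cross {X T T' J H : Type} [MeasurableSpace X] [MeasurableSpace T] [MeasurableSpace T']
    [MeasurableSpace J] [Countable J] [MeasurableSingletonClass J] {μ : Measure X}
    [IsProbabilityMeasure μ] [NormedAddCommGroup H] [InnerProductSpace ℝ H]
    {W : H →ₗᵢ[ℝ] Lp ℝ 2 μ} {p : X → T} {θ : T → T'} {idx : ℕ → T → J} {idx' : ℕ → T' → J}
    {P P' : J → H →L[ℝ] H} {Q : T → H →L[ℝ] H} {Q' : T' → H →L[ℝ] H} (D : YData W p idx P Q)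
    (D' : YData W (fun x => θ (p x)) idx' P' Q') (hθ : Measurable θ) {w : T → ℝ} (hw : BM w)
    (f g : H) : ∫ x, w (p x) * (D.Y f x * D'.Y g x) ∂μ =
      ∫ x, w (p x) * inner ℝ (Q (p x) f) (Q' (θ (p x)) g) ∂μ := by
  obtain ⟨hw, c, hc⟩ := hw
  have wm := (hw.comp D.mp).aestronglyMeasurable (μ := μ)
  have sm : ∀ n, StronglyMeasurable fun t => P' (idx' n (θ t)) g :=
    fun n => (D'.sm n g).comp_measurable hθ
  refine tendsto_nhds_unique ((tendsto_wint wm (fun x => hc _) (D.tendsto_Y f)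
    (D'.tendsto_Y g)).congr fun n => ?_) (D.wlim f g hw hc sm (fun n t => D'.norm_le _ _)
      fun t => D'.lim (θ t) g)
  refine Eq.trans (integral_congr_ae ((D'.coe_yn n g).mono fun x hx => by simp only [hx]; rfl))
    (fib (K := fun t => idx' n (θ t)) (F := fun j x => D.yn n f x * W (P' j g) x)
      (G := fun j x => inner ℝ (P (idx n (p x)) f) (P' j g))
      D.mp ((D'.midx n).comp hθ) ⟨hw, c, hc⟩
      (integrable_wint wm (fun x => hc _) (Lp.memLp _) (D'.memLp_Yn n g)) ?_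
      fun j w hw => D.momW n f _ hw.1 hw.2)
  refine Integrable.bdd_mul (c := c) (Integrable.of_bound
    (((D.sm n f).inner (sm n)).comp_measurable D.mp).aestronglyMeasurable (‖f‖ * ‖g‖)
    (Eventually.of_forall fun x => (abs_real_inner_le_norm _ _).trans ?_)) wm
    (Eventually.of_forall fun x => hc _)
  exact mul_le_mul (D.norm_le _ _) (D'.norm_le _ _) (norm_nonneg _) (norm_nonneg _)

end Trf

open Trf

theorem trf_of (hM : MOM) : TRF := by
  intro Ω Ω' X X' T T' _ _ _ _ μ μ' W W' p p' C C' a K0 f f' L L' ha h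
  have := L.prob
  have := L'.prob
  have D := (hM _ _ _ _ _ _ _ L).1
  have D' := (hM _ _ _ _ _ _ _ L').1
  obtain ⟨ns, h1, h2⟩ := (tendstoInMeasure_of_tendsto_Lp (D.tendsto_Y f)).exists_seq_tendsto_ae
  obtain ⟨ms, h3, h4⟩ := (tendstoInMeasure_of_tendsto_Lp
    ((D'.tendsto_Y f').comp h1.tendsto_atTop)).exists_seq_tendsto_ae
  have h5 : ∀ j, ∀ᵐ x ∂μ, K0 ⊆ U.Kj j → W (Pj Ω (U.Kj j) f) x = W' (Pj Ω' (U.Kj j) f') (a x) :=
    fun j => eventually_imp_distrib_left.2 (h _ (closed_Kj j))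
  rw [Yc_eq D, Yc_eq D']
  filter_upwards [h2, ha.ae h4, ae_all_iff.2 h5, ae_all_iff.2 fun n => D.coe_yn n f,
    ha.ae (ae_all_iff.2 fun n => D'.coe_yn n f')] with x x2 x4 x5 x6 x7 k e
  refine tendsto_nhds_unique (x2.comp h3.tendsto_atTop) (x4.congr fun i => ?_)
  exact (x7 _).trans ((((x6 _).trans (x5 _ (k.trans (sub_Kj _ _)))).trans (by simp only [e]; rfl)).symm)

theorem cross_of (hM : MOM) : CROSS := by
  intro Ω X T T' _ _ _ μ W p C θ C' L hθ L' w hw f g
  have := L.prob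
  have D := (hM _ _ _ _ _ _ _ L).1
  have D' := (hM _ _ _ _ _ _ _ L').1
  rw [Yc_eq D, Yc_eq D']
  exact cross D D' hθ hw f g

end Vale.Agent.P155.SG
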