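import Vale.Agent.P155SG.Bas
import Vale.Agent.P155T.MLE2
import Vale.Agent.P155H.Slit
import Vale.Agent.P155.U.ExtFub

/-!
# P155, block (G): the row TRLE
-/

set_option linter.all false

namespace Vale.Agent.P155.SG

open MeasureTheory Set Metric TopologicalSpace Filter Topology Matrix Vale.Agent.P155
  Vale.Agent.P155.Q1 Vale.Agent.P155.Uq Vale.Agent.P155.Soup Vale.Agent.P155.BL
  Vale.Agent.P155S.Poi Vale.Agent.P155.LJ Vale.Agent.P155.GT

variable {u g : ℂ → ℝ} {N : ℕ → ℕ} {ψ : ∀ n, Fin (N n) → ℂ → ℝ} {V : Set ℂ}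

theorem ai_int (h : AI u N ψ) (hg : Continuous g) (n : ℕ) (i : Fin (N n)) :
    Integrable fun y => ψ n i y * g y :=
  ((h.contφ n i).mul hg).integrable_of_hasCompactSupport
    (HasCompactSupport.mul_right (h.cpt.mono fun y => h.supp n i y))

theorem ai_nonneg (h : AI u N ψ) (x : ℂ) : 0 ≤ u x :=
  h.sum 0 x ▸ Finset.sum_nonneg fun _ _ => mul_nonneg (h.nonneg _ _ _) (integral_nonneg (h.nonneg _ _))

theorem ai_le (h : AI u N ψ) (hg : Continuous g) {n : ℕ} {i : Fin (N n)} {c : ℝ}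
    (hc : ∀ y, ψ n i y ≠ 0 → |g y| ≤ c) : |∫ y, ψ n i y * g y| ≤ c * ∫ y, ψ n i y := by
  rw [← integral_const_mul]
  refine abs_integral_le_integral_abs.trans (integral_mono (ai_int h hg n i).abs
    (by simpa using (ai_int h continuous_one n i).const_mul c) fun y => ?_)
  by_cases h0 : ψ n i y = 0
  · simp [h0]
  · simp only [abs_mul, abs_of_nonneg (h.nonneg n i y), mul_comm c]
    exact mul_le_mul_of_nonneg_left (hc y h0) (h.nonneg n i y)

theorem ai_sq (h : AI u N ψ) (n : ℕ) : ∑ i, (∫ y, ψ n i y) ^ 2 = ∫ y, u y := by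
  simp only [← h.sum n, sq]
  rw [integral_finset_sum _ fun i _ => ai_int h continuous_const n i]
  simp only [integral_mul_const]

theorem ai_apx (h : AI u N ψ) (hg : UniformContinuous g) {ε : ℝ} (hε : 0 < ε) :
    ∀ᶠ n in atTop, ∀ x, |∑ i, (∫ y, ψ n i y * g y) * ψ n i x - g x * u x| ≤ ε * u x := by
  obtain ⟨δ, hδ, h1⟩ := Metric.uniformContinuous_iff.1 hg ε hε
  filter_upwards [(tendsto_one_div_add_atTop_nhds_zero_nat (𝕜 := ℝ)).eventually_lt_const hδ]
    with n hn x
  rw [← h.sum n, Finset.mul_sum, Finset.mul_sum, ← Finset.sum_sub_distrib]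
  refine (Finset.abs_sum_le_sum_abs _ _).trans (Finset.sum_le_sum fun i _ => ?_)
  by_cases h0 : ψ n i x = 0
  · simp [h0]
  have := ai_le h (hg.continuous.sub (continuous_const (y := g x))) (n := n) (i := i) fun y hy =>
    (h1 ((h.small n i y x hy h0).trans_lt hn)).le
  simp only [Pi.sub_apply, mul_sub] at this
  rw [integral_sub (ai_int h hg.continuous n i) (ai_int h continuous_const n i),
    integral_mul_const] at this
  rw [mul_left_comm, mul_left_comm ε, mul_comm, ← mul_sub, abs_mul, abs_of_nonneg (h.nonneg n i x),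
    mul_comm (g x)]
  exact mul_le_mul_of_nonneg_left this (h.nonneg n i x)

theorem ai_tendsto (hb : Bornology.IsBounded V) (h : AI u N ψ) (hψ : ∀ n i, IsTest univ (ψ n i))
    (hg : UniformContinuous g) {φ : ℂ → ℝ} (hφ : IsTest univ φ) (e : ∀ x, φ x = g x * u x) :
    Tendsto (fun n => ∑ i, (∫ y, ψ n i y * g y) • Rv V (ψ n i)) atTop (𝓝 (Rv V φ)) := by
  obtain ⟨C, hC, h1⟩ := poinc_test hb
  set c := √(C * ∫ x, u x ^ 2)
  have hc : 0 < c + 1 := by positivity
  refine Metric.tendsto_nhds.2 fun ε hε => (ai_apx h hg (div_pos hε hc)).mono fun n hn => ?_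
  have t1 := test_sum' Finset.univ (fun i => ∫ y, ψ n i y * g y) fun i _ => hψ n i
  have t2 := U.test_comb t1 hφ 1 (-1)
  have h2 := h1 V _ subset_rfl t2.1.continuous t2.2.1
  rw [green_Rv hb t2, Rv_lin hb t1 hφ, Rv_sum hb _ _ fun i _ => hψ n i, one_smul, neg_one_smul,
    ← sub_eq_add_neg, ← dist_eq_norm] at h2
  have h3 : ∫ z, (1 * ∑ i, (∫ y, ψ n i y * g y) * ψ n i z + -1 * φ z) ^ 2 ≤
      (ε / (c + 1)) ^ 2 * ∫ z, u z ^ 2 := by
    rw [← integral_const_mul]
    refine integral_mono_of_nonneg (ae_of_all _ fun _ => sq_nonneg _) (Integrable.const_mul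
      ((h.cont.memLp_of_hasCompactSupport h.cpt).integrable_sq) _)
      (ae_of_all _ fun z => ?_)
    simp only [one_mul, neg_one_mul, ← sub_eq_add_neg, e, ← mul_pow]
    exact sq_le_sq' (abs_le.1 (hn z)).1 (abs_le.1 (hn z)).2
  refine lt_of_le_of_lt (abs_le_of_sq_le_sq' (b := ε / (c + 1) * c) (h2.trans ?_)
    (by positivity)).2 ?_
  · rw [mul_pow, Real.sq_sqrt (by positivity), mul_left_comm]
    exact mul_le_mul_of_nonneg_left h3 hC.le
  · rw [div_mul_eq_mul_div, div_lt_iff₀ hc]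
    linarith

/-- **TRLE** -/
theorem trle : TRLE := by
  intro W hW V K O hV hK hc hO n φ l hl hφ
  have hb := hV.2.1
  have ho := hV.1.sdiff hK
  have hT : IsCompact (⋃ j, tsupport (φ j)) := isCompact_iUnion fun j => (hφ j).2.1
  obtain ⟨δ, hδ, h1⟩ := hT.exists_cthickening_subset_open (hO.inter ho)
    (iUnion_subset fun j => (hφ j).2.2)
  obtain ⟨u, N, ψ, hu, hA, hψ⟩ := exists_ai (isOpen_thickening (δ := δ)) hT.isBounded.thickening
  have hψ' m i : IsTest univ (ψ m i) := ⟨(hψ m i).1, (hψ m i).2.1, subset_univ _⟩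
  have hs : tsupport u ⊆ O ∩ (V \ K) := by
    rw [tsupport, hu]
    exact (closure_thickening_subset_cthickening _ _).trans h1
  have hu0 j x (hx : x ∈ tsupport (φ j)) : u x ≠ 0 :=
    show x ∈ Function.support u from hu ▸ self_subset_thickening hδ _ (mem_iUnion.2 ⟨j, hx⟩)
  set g := fun j x => φ j x * (u x)⁻¹
  have gc j : Continuous (g j) := continuous_of_tsupport fun x hx =>
    (hφ j).1.continuous.continuousAt.mul
      (hA.cont.continuousAt.inv₀ (hu0 j x (tsupport_mul_subset_left hx)))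
  have gs j : HasCompactSupport (g j) := (hφ j).2.1.mul_right
  choose B hB using fun j => (gc j).bounded_above_of_compact_support (gs j)
  set r := fun m i => (Rv V (ψ m i) : Uq.HL)
  set M := GV (V \ K)
  have hu1 : 0 ≤ ∫ y, u y := integral_nonneg (ai_nonneg hA)
  set L := l * ((∑ j, B j ^ 2) * ∫ y, u y) + 1
  have hL : 0 < L := by positivity
  have hr m := ratio_mono hL M (r := r m) (a := fun j i => √l * ∫ y, ψ m i y * g j y)
    (r' := fun j => √l • ∑ i, (∫ y, ψ m i y * g j y) • r m i)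
    (fun j => by simp only [Finset.smul_sum, smul_smul]) fun ξ => by
      have e i : (∑ j, ξ j * (√l * ∫ y, ψ m i y * g j y)) ^ 2 ≤
          l * ((∑ j, B j ^ 2) * (∫ y, ψ m i y) ^ 2) * ∑ j, ξ j ^ 2 := by
        refine (Finset.sum_mul_sq_le_sq_mul_sq _ _ _).trans ?_
        rw [mul_comm]
        simp only [mul_pow, Real.sq_sqrt hl, ← Finset.mul_sum, Finset.sum_mul]
        gcongr with j
        have := abs_le.1 (ai_le hA (gc j) (n := m) (i := i) fun y _ => hB j y)
        exact (sq_le_sq' this.1 this.2).trans_eq (mul_pow _ _ _)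
      refine (Finset.sum_le_sum fun i _ => e i).trans ?_
      rw [← Finset.sum_mul, ← Finset.mul_sum, ← Finset.mul_sum, ai_sq hA]
      exact mul_le_mul_of_nonneg_right (le_add_of_nonneg_right zero_le_one) (by positivity)
  have t1 : Tendsto (fun m j => ∑ i, (∫ y, ψ m i y * g j y) • r m i) atTop
      (𝓝 fun j => (Rv V (φ j) : Uq.HL)) := tendsto_pi_nhds.2 fun j => by
    simpa using tendsto_subtype_rng.1 (ai_tendsto hb hA hψ'
      ((gs j).uniformContinuous_of_continuous (gc j)) (test_univ (hφ j)) fun x => by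
        by_cases h0 : x ∈ tsupport (φ j)
        · exact (inv_mul_cancel_right₀ (hu0 j x h0) _).symm
        · simp [g, image_eq_zero_of_notMem_tsupport h0])
  have t2 := (((cont_Zd hl).comp (continuous_pi fun j => M.starProjection.continuous.comp
    (continuous_apply j))).tendsto _).comp t1 |>.div (((cont_Zd hl).tendsto _).comp t1)
    (Zd_pos hl (posSemidef_gram ℝ _)).ne'
  have s1 : ∀ z ∈ V, SimplyConnectedSpace (connectedComponentIn V z) := fun z hz => by
    rw [(Geo.dom_conn hV).isPreconnected.connectedComponentIn hz]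
    exact hV.2.2.2
  have s2 : ∀ z ∈ V \ K, SimplyConnectedSpace (connectedComponentIn (V \ K) z) := fun z hz =>
    (Geo.dom_hole hV.1 hb (hV.1.isClosed_compl.union hK) hc subset_union_left ⟨z,
      ⟨hz.1, fun h => h.elim (· hz.1) hz.2⟩, by rw [← sdiff_sdiff, sdiff_compl, inter_self]⟩).2.2.2
  have p1 m := GD.gm_psd hW hV.1 hb s1 (hψ' m) (hA.nonneg m)
  have p2 m := GD.gm_psd hW ho (hb.subset sdiff_subset) s2 (hψ' m) (hA.nonneg m)
  have k (U) (hU : U ⊆ V) m (ξ : Fin (N m) → ℝ) : ‖∑ i, ξ i • (GV U).starProjection (r m i)‖ ^ 2 =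
      greenEnergy U fun z => ∑ i, ξ i * ψ m i z := by
    rw [green_proj' hb hU (test_sum' _ _ fun i _ => hψ' m i), Rv_sum hb _ _ fun i _ => hψ' m i]
    simp [r]
  have g1 m : gm W V (ψ m) = (2 : ℝ) • gram ℝ (r m) :=
    GD.gm_gram hW hV.1 hb s1 (hψ' m) (hA.nonneg m) fun ξ => by
      simpa only [Submodule.starProjection_eq_self_iff.2 (Rv V _).2, r] using k V subset_rfl m ξ
  have g2 m := GD.gm_gram hW ho (hb.subset sdiff_subset) s2 (hψ' m) (hA.nonneg m)
    (k _ sdiff_subset m)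
  have hs' := hs.trans inter_subset_right
  have t3 := (Real.continuous_exp.tendsto _).comp ((ljw W hW V _ u N ψ hV.1 ho hb sdiff_subset hA hs'
    (L / 2) (half_pos hL).le p1 p2).div_const 2)
  have h2 := le_of_tendsto_of_tendsto' t2 t3 fun m => by
    have := hr m
    simp only [map_smul, gram_smul hl] at this
    simp only [Function.comp, ← Zd_div (half_pos hL).le (p1 m) (p2 m)]
    simpa only [Function.comp, g1, g2, Zd, smul_smul, one_smul, one_mul,
      div_mul_cancel₀ L two_ne_zero, Pi.div_apply] using this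
  rw [div_le_iff₀' (Zd_pos hl (posSemidef_gram ℝ _))] at h2
  refine (ENNReal.ofReal_le_ofReal h2).trans ?_
  rw [ENNReal.ofReal_mul (Zd_pos hl (posSemidef_gram ℝ _)).le]
  refine mul_le_mul' le_rfl (le_trans (ENNReal.ofReal_le_ofReal (Real.exp_le_exp.2
    (div_le_div_of_nonneg_right (lam_le hW hV.1 ho hb hA.cont hA.cpt hs' _) two_pos.le))) ?_)
  rw [← inv_ex (lam_fin hW ho hb hA.cpt hs')]
  refine ENNReal.inv_le_inv.2 (ex_anti.antitone (measure_mono (μ := nu W) ?_))
  rintro γ ⟨a1, a2, z, a3, a4⟩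
  obtain ⟨y, b1, b2⟩ := not_subset.1 a2
  exact ⟨a1, ⟨y, b1, not_not.1 fun h => b2 ⟨a1 b1, h⟩⟩, z, a3, (hs (subset_tsupport _ a4)).1⟩

end Vale.Agent.P155.SG
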