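import Vale.Agent.P155I.Asm2
import Vale.Agent.P155SG.Can
import Vale.Agent.P155SG.Cpl
import Vale.Agent.P155SG.Crit
import Vale.Agent.P155SG.Exy
import Vale.Agent.P155SG.Fin
import Vale.Agent.P155SG.Flux
import Vale.Agent.P155SG.Hj
import Vale.Agent.P155SG.Htx
import Vale.Agent.P155SG.Key
import Vale.Agent.P155SG.Loch
import Vale.Agent.P155SG.Mom
import Vale.Agent.P155SG.Noe
import Vale.Agent.P155SG.Pos
import Vale.Agent.P155SG.Tra
import Vale.Agent.P155SG.Trf
import Vale.Agent.P155SG.Trle

/-!
# P155, block (G): the assembly of the rows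
-/

set_option linter.all false

namespace Vale.Agent.P155.SG

open Vale.Agent.P155.Soup

/-- the lower bound for the loop mass from the two remaining rows -/
theorem mgec_of (tm : TM) (topo : TOPO) : MGEc :=
  have trf := trf_of mom
  have cross := cross_of mom
  have can1 := can1_of mom
  fin_of gs can0 hlm (wk_of hlm) trle
    (tra_of tm Hj.hj Hj.dens can0 (loch_of hlm) (htx_of mono cross can1 hlm) trf hlm)
    (noe_of cpl pull mono trf (key_of mom) (posx mom cross)
      (crit_of mom mono trf cross (exy_of mom) flux2) can1 hlm topo)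

end Vale.Agent.P155.SG
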