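import Vale.Agent.P155SG.Bas

/-!
# P155, block (G): the critical exponential estimate on one piece (helper57)
-/

set_option linter.all false

namespace Vale.Agent.P155.SG

open MeasureTheory ProbabilityTheory Set Metric TopologicalSpace Filter Topology Vale.Agent.P155
  Vale.Agent.P155.Q1 Vale.Agent.P155.Uq Vale.Agent.P155.Soup
open scoped NNReal ENNReal

namespace Cr

variable {Ω K K' : Set ℂ} {X T T' : Type} [MeasurableSpace X] [MeasurableSpace T]
  [MeasurableSpace T'] {μ : Measure X} {W : GV Ω →ₗᵢ[ℝ] Lp ℝ 2 μ} {p : X → T} {C C2 : T → NC}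

theorem Pj_Pj' (h : K ⊆ K') (f : GV Ω) : Pj Ω K' (Pj Ω K f) = Pj Ω K' f :=
  ext_inner_right ℝ fun g => by rw [Pj_sym, Pj_sym, Pj_Pj h, ← Pj_sym]

theorem Pj_anti (h : K ⊆ K') (f : GV Ω) : ‖Pj Ω K' f‖ ^ 2 ≤ ‖Pj Ω K f‖ ^ 2 := by
  rw [← Pj_Pj' h]
  exact pow_le_pow_left₀ (norm_nonneg _) (Pj_norm_le _) 2

theorem Pj_sq_le (f : GV Ω) : ‖Pj Ω K f‖ ^ 2 ≤ ‖f‖ ^ 2 :=
  pow_le_pow_left₀ (norm_nonneg _) (Pj_norm_le _) 2

theorem meas_N (mom : MOM) (l : Loc W p C) (f : GV Ω) :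
    Measurable fun t => ‖Pj Ω (C t) f‖ ^ 2 := by
  simpa only [Pj_self] using (mom _ _ _ _ _ _ _ l).2.2.1 f f

theorem int_N (mom : MOM) (l : Loc W p C) (f : GV Ω) :
    Integrable (fun x => ‖Pj Ω (C (p x)) f‖ ^ 2) μ := by
  have := l.prob
  refine Integrable.of_bound ((meas_N mom l f).comp l.mp).aestronglyMeasurable (‖f‖ ^ 2)
    (Eventually.of_forall fun x => ?_)
  rw [Real.norm_eq_abs, abs_of_nonneg (sq_nonneg _)]
  exact Pj_sq_le f

theorem bm_ind {A : Set T} (hA : MeasurableSet A) : BM (A.indicator fun _ => (1 : ℝ)) :=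
  ⟨measurable_const.indicator hA, 1, fun t => by by_cases h : t ∈ A <;> simp [h]⟩

theorem int_ind {A : Set T} (hp : Measurable p) (hA : MeasurableSet A) (v : T → ℝ) (F : X → ℝ) :
    ∫ x, A.indicator v (p x) * F x ∂μ = ∫ x in p ⁻¹' A, v (p x) * F x ∂μ := by
  rw [← integral_indicator (hp hA)]
  refine integral_congr_ae (Eventually.of_forall fun x => ?_)
  by_cases h : p x ∈ A
  · simp only [indicator_of_mem h, indicator_of_mem (mem_preimage.2 h)]
  · simp only [indicator_of_notMem h, indicator_of_notMem (mt mem_preimage.1 h), zero_mul]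

/-- the variance of the difference of the fields off two nested sets -/
theorem sq_diff (mom : MOM) (cross : CROSS) (l : Loc W p C) (l2 : Loc W p C2)
    (h : ∀ t, (C t : Set ℂ) ⊆ C2 t) {A : Set T} (hA : MeasurableSet A) (f : GV Ω) :
    ∫ x in p ⁻¹' A, (Yc W p C f x - Yc W p C2 f x) ^ 2 ∂μ =
      ∫ x in p ⁻¹' A, (‖Pj Ω (C (p x)) f‖ ^ 2 - ‖Pj Ω (C2 (p x)) f‖ ^ 2) ∂μ := by
  have a1 := ((mom _ _ _ _ _ _ _ l).2.2.2.1 _ (bm_ind hA) f f).1
  have a2 := ((mom _ _ _ _ _ _ _ l2).2.2.2.1 _ (bm_ind hA) f f).1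
  have a3 : ∫ x, A.indicator (fun _ => (1 : ℝ)) (p x) * (Yc W p C f x * Yc W p C2 f x) ∂μ = _ :=
    cross _ _ _ _ _ W p C id C2 l measurable_id l2 _ (bm_ind hA) f f
  have e (t : T) : inner ℝ (Pj Ω (C t) f) (Pj Ω (C2 t) f) = ‖Pj Ω (C2 t) f‖ ^ 2 := by
    rw [real_inner_comm, Pj_nest (h t), Pj_self]
  simp only [id, e, Pj_self, int_ind l.mp hA, one_mul] at a1 a2 a3
  have m1 := Lp.memLp (Yc W p C f)
  have m2 := Lp.memLp (Yc W p C2 f)
  have i1 : IntegrableOn (fun x => Yc W p C f x * Yc W p C f x) (p ⁻¹' A) μ :=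
    (m1.integrable_mul m1).integrableOn
  have i2 : IntegrableOn (fun x => Yc W p C2 f x * Yc W p C2 f x) (p ⁻¹' A) μ :=
    (m2.integrable_mul m2).integrableOn
  have i3 : IntegrableOn (fun x => Yc W p C f x * Yc W p C2 f x) (p ⁻¹' A) μ :=
    (m1.integrable_mul m2).integrableOn
  have e2 (x : X) : (Yc W p C f x - Yc W p C2 f x) ^ 2 = (Yc W p C f x * Yc W p C f x +
      Yc W p C2 f x * Yc W p C2 f x) - 2 * (Yc W p C f x * Yc W p C2 f x) := by ring
  have i4 : IntegrableOn (fun x => Yc W p C f x * Yc W p C f x + Yc W p C2 f x * Yc W p C2 f x)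
      (p ⁻¹' A) μ := i1.add i2
  simp only [e2]
  rw [integral_sub i4 (i3.const_mul 2), integral_add i1 i2, integral_const_mul, a1, a2, a3,
    integral_sub (int_N mom l f).integrableOn (int_N mom l2 f).integrableOn]
  ring

/-- the exponential identity on a set -/
theorem exy_set (mom : MOM) (exy : EXY) (l : Loc W p C) (f : GV Ω) {A : Set T}
    (hA : MeasurableSet A) {v : T → ℝ} (hv : Measurable v) {m : ℝ} (hm : ∀ t, m ≤ v t) :
    IntegrableOn (fun x => Real.exp (Zc W p C f x + ‖Pj Ω (C (p x)) f‖ ^ 2 / 2 - v (p x)))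
      (p ⁻¹' A) μ ∧ ∫ x in p ⁻¹' A, Real.exp (W f x - v (p x)) ∂μ =
      ∫ x in p ⁻¹' A, Real.exp (Zc W p C f x + ‖Pj Ω (C (p x)) f‖ ^ 2 / 2 - v (p x)) ∂μ := by
  obtain ⟨-, h2, h3⟩ := exy _ _ _ _ W p C l f
  have bw : BM (A.indicator fun t => Real.exp (-v t)) :=
    ⟨hv.neg.exp.indicator hA, Real.exp (-m), fun t => by
      by_cases h : t ∈ A
      · rw [indicator_of_mem h, abs_of_pos (Real.exp_pos _)]
        exact Real.exp_le_exp.2 (neg_le_neg (hm t))
      · rw [indicator_of_notMem h, abs_zero]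
        exact (Real.exp_pos _).le⟩
  have h4 := h3 _ bw
  simp only [int_ind l.mp hA, ← Real.exp_add, neg_add_eq_sub] at h4
  refine ⟨Integrable.integrableOn ?_, h4⟩
  have h5 : Integrable (fun x => Real.exp (‖Pj Ω (C (p x)) f‖ ^ 2 / 2 - v (p x)) *
      Real.exp (Zc W p C f x)) μ := by
    refine h2.bdd_mul (c := Real.exp (‖f‖ ^ 2 / 2 - m))
      (((((meas_N mom l f).div_const 2).sub hv).exp).comp l.mp).aestronglyMeasurable
      (Eventually.of_forall fun x => ?_)
    rw [Real.norm_eq_abs, abs_of_pos (Real.exp_pos _)]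
    exact Real.exp_le_exp.2 (by linarith [Pj_sq_le (K := C (p x)) f, hm (p x)])
  refine h5.congr (Eventually.of_forall fun x => ?_)
  simp only [← Real.exp_add]
  congr 1
  ring

theorem exp_le {x : ℝ} (h : 2 ≤ x) : Real.exp (-(x / 2)) ≤ 1 / 2 := by
  have := Real.add_one_le_exp (x / 2)
  rw [Real.exp_neg, one_div]
  exact inv_anti₀ two_pos (by linarith)

/-- the estimate on one piece -/
theorem piece (mom : MOM) (mono : MONO) (trf : TRF) (cross : CROSS) (exy : EXY) {p' : X → T'}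
    {C' D : T' → NC} (l : Loc W p C) (hD : Measurable D)
    (l2 : Loc W (fun x => (p x, p' x)) (un C C')) (l3 : Loc W (fun x => (p x, D (p' x))) (un C id))
    (F : NC) {Ξ : Set NC} (hΞ : MeasurableSet Ξ) (hF : ∀ᵐ x ∂μ, D (p' x) ∈ Ξ → D (p' x) ≤ F)
    {A : Set T} (hA : MeasurableSet A) (f : GV Ω) {m s c : ℝ} (hs : 0 < s) (hc : 0 ≤ c)
    (h1 : ∀ᵐ x ∂μ, D (p' x) ∈ Ξ → Zc W (fun x => (p x, p' x)) (un C C') f x ≤ m)
    (h2 : ∀ᵐ x ∂μ, p x ∈ A → Zc W p C f x = m)
    (h3 : ∀ᵐ x ∂μ, p x ∈ A → ‖Pj Ω (C (p x)) f‖ ^ 2 - ‖Pj Ω (C (p x) ⊔ F : NC) f‖ ^ 2 ≤ c) :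
    μ.real {x | (p x ∈ A ∧ D (p' x) ∈ Ξ) ∧
      2 ≤ ‖Pj Ω (C (p x)) f‖ ^ 2 - ‖Pj Ω (un C C' (p x, p' x)) f‖ ^ 2} ≤
      (c / s + s + c) * μ.real (p ⁻¹' A) := by
  have := l.prob
  set S : Set X := {x | p x ∈ A ∧ D (p' x) ∈ Ξ} with hS
  set E : Set X := {x | 2 ≤ ‖Pj Ω (C (p x)) f‖ ^ 2 - ‖Pj Ω (un C C' (p x, p' x)) f‖ ^ 2} with hE
  have mS : MeasurableSet S := l3.mp (hA.prod hΞ)
  have mE : MeasurableSet E := measurableSet_le measurable_const
    (((meas_N mom l f).comp l.mp).sub ((meas_N mom l2 f).comp l2.mp))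
  have mN := meas_N mom l f
  have hm (t : T) : m ≤ m + ‖Pj Ω (C t) f‖ ^ 2 / 2 := le_add_of_nonneg_right (by positivity)
  -- the larger sets
  have l4 : Loc W p fun t => C t ⊔ F :=
    mono _ _ _ _ _ W p C id _ l measurable_id (meas_sup l.mC measurable_const)
      (Eventually.of_forall fun x => subset_union_left)
  have l5 : Loc W (fun x => (p x, D (p' x))) fun t => un C id t ⊔ F :=
    mono _ _ _ _ _ W _ _ id _ l3 measurable_id (meas_sup l3.mC measurable_const)
      (Eventually.of_forall fun x => subset_union_left)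
  obtain ⟨u1, u2⟩ := exy_set mom exy l2 f (A := A ×ˢ (D ⁻¹' Ξ)) (hA.prod (hD hΞ))
    (v := fun t => m + ‖Pj Ω (C t.1) f‖ ^ 2 / 2)
    (measurable_const.add ((mN.comp measurable_fst).div_const 2)) fun t => hm t.1
  obtain ⟨v1, v2⟩ := exy_set mom exy l5 f (A := A ×ˢ Ξ) (hA.prod hΞ)
    (v := fun t => m + ‖Pj Ω (C t.1) f‖ ^ 2 / 2)
    (measurable_const.add ((mN.comp measurable_fst).div_const 2)) fun t => hm t.1
  change IntegrableOn _ S μ at u1 v1
  change ∫ x in S, _ ∂μ = ∫ x in S, _ ∂μ at u2 v2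
  -- the upper bound
  have up : ∫ x in S, Real.exp (W f x - (m + ‖Pj Ω (C (p x)) f‖ ^ 2 / 2)) ∂μ ≤
      μ.real S - μ.real (S ∩ E) / 2 := by
    have i1 : IntegrableOn (E.indicator fun _ => (1 / 2 : ℝ)) S μ :=
      ((integrable_const _).indicator mE).integrableOn
    have : ∫ x in S, (1 - E.indicator (fun _ => (1 / 2 : ℝ)) x) ∂μ =
        μ.real S - μ.real (S ∩ E) / 2 := by
      rw [integral_sub (integrable_const _) i1, setIntegral_indicator mE]
      simp only [integral_const, MeasurableSet.univ, measureReal_restrict_apply, univ_inter,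
        smul_eq_mul]
      ring
    rw [u2, ← this]
    refine setIntegral_mono_on_ae u1 ((integrable_const _).integrableOn.sub i1) mS ?_
    filter_upwards [h1] with x k1 hx
    have k2 := k1 hx.2
    have k3 : ‖Pj Ω (un C C' (p x, p' x)) f‖ ^ 2 ≤ ‖Pj Ω (C (p x)) f‖ ^ 2 :=
      Pj_anti subset_union_left f
    by_cases h : x ∈ E
    · rw [indicator_of_mem h]
      refine (Real.exp_le_exp.2 ?_).trans ((exp_le h).trans (by norm_num))
      linarith
    · rw [indicator_of_notMem h, sub_zero]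
      exact Real.exp_le_one_iff.2 (by linarith)
  -- the lower bound
  have tr := trf Ω Ω X X _ _ μ μ W W _ _ _ _ id ∅ f f l5 l4 (Measure.QuasiMeasurePreserving.id μ)
    fun _ _ _ => Eventually.of_forall fun _ => rfl
  have m2 : MemLp (fun x => Yc W p C f x - Yc W p (fun t => C t ⊔ F) f x) 2 μ :=
    (Lp.memLp _).sub (Lp.memLp _)
  have var : ∫ x in S, (Yc W p C f x - Yc W p (fun t => C t ⊔ F) f x) ^ 2 ∂μ ≤
      c * μ.real (p ⁻¹' A) := by
    refine (setIntegral_mono_set m2.integrable_sq.integrableOn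
      (Eventually.of_forall fun x => sq_nonneg _)
      (HasSubset.Subset.eventuallyLE fun x hx => (hx.1 : x ∈ p ⁻¹' A))).trans ?_
    rw [sq_diff mom cross l l4 (fun t => subset_union_left) hA f]
    refine (setIntegral_mono_on_ae ((int_N mom l f).sub (int_N mom l4 f)).integrableOn
      (integrable_const c).integrableOn (l.mp hA) h3).trans_eq ?_
    simp [mul_comm]
  have lo : μ.real S - (c / s + s + c) * μ.real (p ⁻¹' A) / 2 ≤
      ∫ x in S, Real.exp (W f x - (m + ‖Pj Ω (C (p x)) f‖ ^ 2 / 2)) ∂μ := by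
    have i1 : IntegrableOn (fun x => (1 / (2 * s)) *
        (Yc W p C f x - Yc W p (fun t => C t ⊔ F) f x) ^ 2) S μ :=
      (m2.integrable_sq.const_mul _).integrableOn
    have le : μ.real S ≤ μ.real (p ⁻¹' A) := measureReal_mono fun x hx => hx.1
    have : μ.real S - (c / s + s + c) * μ.real (p ⁻¹' A) / 2 ≤ ∫ x in S, ((1 - (s + c) / 2) -
        (1 / (2 * s)) * (Yc W p C f x - Yc W p (fun t => C t ⊔ F) f x) ^ 2) ∂μ := by
      rw [integral_sub (integrable_const _) i1, integral_const_mul]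
      simp only [integral_const, MeasurableSet.univ, measureReal_restrict_apply, univ_inter,
        smul_eq_mul]
      have b1 := mul_le_mul_of_nonneg_left var (by positivity : 0 ≤ 1 / (2 * s))
      have b2 := mul_le_mul_of_nonneg_left le (by positivity : 0 ≤ (s + c) / 2)
      have b3 : 1 / (2 * s) * (c * μ.real (p ⁻¹' A)) = c / s * μ.real (p ⁻¹' A) / 2 := by
        field_simp
      nlinarith
    rw [v2]
    refine this.trans (setIntegral_mono_on_ae ((integrable_const _).integrableOn.sub i1) v1 mS ?_)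
    filter_upwards [tr, hF, h2, h3] with x k1 k2 k3 k4 hx
    have e : un C id (p x, D (p' x)) ⊔ F = C (p x) ⊔ F := by
      show C (p x) ⊔ D (p' x) ⊔ F = _
      rw [sup_assoc, sup_eq_right.2 (k2 hx.2)]
    have k5 := k1 (empty_subset _) e
    have k6 := k3 hx.1
    have k7 := k4 hx.1
    refine le_trans ?_ (Real.add_one_le_exp _)
    simp only [Zc, e, id] at k5 k6 ⊢
    rw [k5]
    set d := Yc W p C f x - Yc W p (fun t => C t ⊔ F) f x with hd
    have k8 : -d ≤ 1 / (2 * s) * d ^ 2 + s / 2 := by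
      have : 1 / (2 * s) * d ^ 2 + s / 2 + d = (d + s) ^ 2 / (2 * s) := by
        field_simp
        ring
      have : 0 ≤ (d + s) ^ 2 / (2 * s) := by positivity
      linarith
    linarith
  have : μ.real (S ∩ E) ≤ (c / s + s + c) * μ.real (p ⁻¹' A) := by linarith
  exact this

end Cr

end Vale.Agent.P155.SG
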