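import Vale.Agent.P155S.Sk
import Vale.Agent.P155T.D
import Vale.Agent.P155H.Join
import Vale.Agent.P155.U.Xex1
import Vale.Agent.P155.U.Dya
import Vale.Agent.P155.U.Piece
import Vale.Agent.P155.U.Geo
import Vale.Agent.P155.U.Bump
import Vale.Agent.P155.U.Hil

/-!
# P155, block (G): local sets of the field, definitions
-/

set_option linter.all false

namespace Vale.Agent.P155.SG

open MeasureTheory ProbabilityTheory Set Metric TopologicalSpace Filter Topology Vale.Agent.P155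
  Vale.Agent.P155.Q1 Vale.Agent.P155.Uq Vale.Agent.P155.Soup
open Vale.Agent.P155.Tree (Dom Carp)
open scoped NNReal ENNReal

noncomputable section

open Classical in
/-- the gradient of the Green potential of `φ` in `Ω` -/
def Rv (Ω : Set ℂ) (φ : ℂ → ℝ) : GV Ω :=
  if h : ∃ r : GV Ω, ∀ v, IsTest Ω v → inner ℝ (r : HL) (gr v) = ∫ z, φ z * v z then h.choose
  else 0

/-- the projection onto the fields which vanish on `K` -/
def Pj (Ω K : Set ℂ) : GV Ω →L[ℝ] GV Ω := PG (sdiff_subset : Ω \ K ⊆ Ω)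

section
variable {Ω : Set ℂ} {X T : Type} [MeasurableSpace X] [MeasurableSpace T] {μ : Measure X}

/-- the weight `w` only depends on the field on the orthogonal complement of `M` -/
def Perp {H : Type} [NormedAddCommGroup H] [InnerProductSpace ℝ H] (W : H →ₗᵢ[ℝ] Lp ℝ 2 μ)
    (M : Submodule ℝ H) (w : X → ℝ) : Prop :=
  ∀ f ∈ M, ∀ g ∈ Mᗮ, ∫ x, (w x : ℂ) * Complex.exp (Complex.I * (W (g + f) x : ℝ)) ∂μ =
    Complex.exp (-(‖f‖ ^ 2 / 2 : ℝ)) * ∫ x, (w x : ℂ) * Complex.exp (Complex.I * (W g x : ℝ)) ∂μ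

/-- `C (p x)` is a local set of the field `W`, with the information `p x` -/
structure Loc (W : GV Ω →ₗᵢ[ℝ] Lp ℝ 2 μ) (p : X → T) (C : T → NC) : Prop where
  op : IsOpen Ω
  bd : Bornology.IsBounded Ω
  prob : IsProbabilityMeasure μ
  iso : GT.Iso W
  mp : Measurable p
  mC : Measurable C
  pc : ∀ K : Set ℂ, IsClosed K → ∀ w : T → ℝ, BM w → (∀ t, w t ≠ 0 → (C t : Set ℂ) ⊆ K) →
    Perp W (Uq.Vk Ω K) fun x => w (p x)

/-- the data of the limit field -/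
def YD (W : GV Ω →ₗᵢ[ℝ] Lp ℝ 2 μ) (p : X → T) (C : T → NC) : Prop :=
  YData W p (fun n t => U.ixj n (C t, C t)) (fun j => Pj Ω (U.Kj j)) fun t => Pj Ω (C t)

open Classical in
/-- the part of the field off the local set -/
def Yc (W : GV Ω →ₗᵢ[ℝ] Lp ℝ 2 μ) (p : X → T) (C : T → NC) (f : GV Ω) : Lp ℝ 2 μ :=
  if h : IsProbabilityMeasure μ ∧ YD W p C then
    haveI := h.1
    YData.Y h.2 f
  else 0

/-- the harmonic part of the field -/
def Zc (W : GV Ω →ₗᵢ[ℝ] Lp ℝ 2 μ) (p : X → T) (C : T → NC) (f : GV Ω) (x : X) : ℝ :=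
  W f x - Yc W p C f x

/-- the harmonic part is bounded by `cst` off `D` -/
def Ht (W : GV Ω →ₗᵢ[ℝ] Lp ℝ 2 μ) (p : X → T) (C : T → NC) (D : X → Set ℂ) : Prop :=
  ∀ φ, IsTest Ω φ → ∀ᵐ x ∂μ, Disjoint (tsupport φ) (D x) →
    |Zc W p C (Rv Ω φ) x| ≤ cst * ∫ z, |φ z|

/-- the same on bumps off the local set -/
def Hb (W : GV Ω →ₗᵢ[ℝ] Lp ℝ 2 μ) (p : X → T) (C : T → NC) : Prop :=
  ∀ z r, 0 < r → closedBall z r ⊆ Ω → ∀ᵐ x ∂μ, Disjoint (closedBall z r) (C (p x) : Set ℂ) →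
    |Zc W p C (Rv Ω (UK.bump z r)) x| ≤ cst

/-- unions of components of `Ω \ K` -/
def Un (Ω K P : Set ℂ) : Prop :=
  P ⊆ Ω \ K ∧ ∀ S, IsPreconnected S → S ⊆ Ω \ K → (S ∩ P).Nonempty → S ⊆ P

/-- on `P` the harmonic part is `σ * cst` -/
structure Side (W : GV Ω →ₗᵢ[ℝ] Lp ℝ 2 μ) (p : X → T) (C : T → NC) (σ : ℝ) (P : T → Set ℂ) :
    Prop where
  sg : σ = 1 ∨ σ = -1
  ms : ∀ z, MeasurableSet {t | z ∈ P t}
  un : ∀ᵐ x ∂μ, Un Ω (C (p x)) (P (p x))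
  val : ∀ φ, IsTest Ω φ → ∀ᵐ x ∂μ, tsupport φ ⊆ P (p x) →
    σ * Zc W p C (Rv Ω φ) x = cst * ∫ z, φ z

end

/-- the union of two random sets -/
def un {T T' : Type} (C : T → NC) (C' : T' → NC) (t : T × T') : NC := C t.1 ⊔ C' t.2

/-- the hull of the compact set `Q` -/
def hl (Ω Q : Set ℂ) (A : NC) : NC := toNC (closure (SWR.KK Ω Q A))

/-- the first carpet -/
def lv {Ω : Set ℂ} (t : Past Ω 1) : NC := (t (Fin.last 1)).1

/-- the first carpet together with the hull of `Q` -/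
def lh {Ω : Set ℂ} (Q : Set ℂ) (t : Past Ω 1) : NC := lv t ⊔ hl Ω Q (lv t)

/-- the canonical carpets with their field -/
structure Can (Ω : Set ℂ) (Q : Measure (Sp Ω)) (W : GV Ω →ₗᵢ[ℝ] Lp ℝ 2 Q) : Prop where
  dom : Dom Ω
  can : Canon Ω Q
  cc : CondCh Ω (fun φ => (Rv Ω φ : HL)) Q W
  loc : Loc W (past 1) lv
  path : ∀ᵐ s ∂Q, SWR.Path Ω s
  law : Q.map (fun s => (s 1).1) = L1 Ω

/-- a connected piece of `T` in `P`, of size `M ℓ`, comes `ℓ`-close to `K` -/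
def XD (K P T : Set ℂ) (y : ℂ) (r δ M : ℝ) : Prop :=
  ∃ (ℓ : ℝ) (D : Set ℂ), 0 < ℓ ∧ IsPreconnected D ∧ D ⊆ T ∩ P ∩ ball y (r / 4) ∧
    (∀ x ∈ D, δ ≤ infDist x K) ∧ ∃ q ∈ D, ∃ q' ∈ D, infDist q K ≤ ℓ ∧ M * ℓ ≤ dist q q' ∧
      M ^ 2 * ℓ ≤ r

open Classical in
/-- the test function of the layer -/
def lay {n : ℕ} (q : Fin n → ℂ) (φ : Fin n → ℂ → ℝ) (a b : ℝ) (K P : Set ℂ) (z : ℂ) : ℝ :=
  ∑ i ∈ Finset.univ.filter fun i => q i ∈ P ∧ a ≤ infDist (q i) K ∧ infDist (q i) K ≤ b, φ i z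

end

end Vale.Agent.P155.SG
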