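import Vale.Agent.P155SG.Fx3
import Vale.Agent.P155SG.Bas

/-!
# P155, block (G): harmonic fields are limits of potentials of charges near the boundary
-/

namespace Vale.Agent.P155.Soup.Fx

open MeasureTheory Set Metric Filter Topology Vale.Agent.P155.Uq Vale.Agent.P155.U

variable {V W A : Set ℂ} {u v : ℂ → ℝ}

theorem ind_near (hW : IsOpen W) (hd : Disjoint (tsupport u) (frontier W)) (z : ℂ) :
    (z ∈ W ∧ W.indicator u =ᶠ[𝓝 z] u) ∨ W.indicator u =ᶠ[𝓝 z] 0 := by
  by_cases h1 : z ∈ W
  · left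
    refine ⟨h1, ?_⟩
    filter_upwards [hW.mem_nhds h1] with w hw
    exact indicator_of_mem hw u
  right
  by_cases h2 : z ∈ closure W
  · have h3 : z ∉ tsupport u := fun h =>
      disjoint_left.1 hd h ⟨h2, by rwa [hW.interior_eq]⟩
    filter_upwards [notMem_tsupport_iff_eventuallyEq.1 h3] with w hw
    exact indicator_apply_eq_zero.2 fun _ => hw
  · filter_upwards [isClosed_closure.isOpen_compl.mem_nhds h2] with w hw
    exact indicator_of_notMem (fun h => hw (subset_closure h)) u

/-- the part in `W` of a test function which vanishes near the frontier -/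
theorem ind_test (hW : IsOpen W) (hu : IsTest V u) (hd : Disjoint (tsupport u) (frontier W)) :
    IsTest W (W.indicator u) ∧ tsupport (W.indicator u) ⊆ tsupport u ∧
      ‖gr (W.indicator u)‖ ≤ ‖gr u‖ := by
  have hs : tsupport (W.indicator u) ⊆ tsupport u :=
    closure_mono fun z hz h0 => hz (indicator_apply_eq_zero.2 fun _ => h0)
  have ht : IsTest W (W.indicator u) := by
    refine ⟨contDiff_iff_contDiffAt.2 fun z => ?_,
      hu.2.1.isCompact.of_isClosed_subset (isClosed_tsupport _) hs, fun z hz => ?_⟩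
    · rcases ind_near hW hd z with h | h
      · exact hu.1.contDiffAt.congr_of_eventuallyEq h.2
      · exact contDiffAt_const.congr_of_eventuallyEq h
    · rcases ind_near hW hd z with h | h
      · exact h.1
      · exact absurd hz (notMem_tsupport_iff_eventuallyEq.2 h)
  refine ⟨ht, hs, ?_⟩
  apply le_of_sq_le_sq _ (norm_nonneg _) |>.trans le_rfl
  rw [norm_gr ht, norm_gr hu]
  apply integral_mono (test_sq ht) (test_sq hu)
  intro z
  show ‖fderiv ℝ (W.indicator u) z‖ ^ 2 ≤ ‖fderiv ℝ u z‖ ^ 2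
  rcases ind_near hW hd z with h | h
  · rw [h.2.fderiv_eq]
  · rw [h.fderiv_eq]
    have : fderiv ℝ (0 : ℂ → ℝ) z = 0 := fderiv_const_apply 0
    rw [this, norm_zero, zero_pow two_ne_zero]
    positivity

/-- the cutoff near `A` -/
theorem exists_cutW (hb : Bornology.IsBounded V) (hW : IsOpen W) (hA : frontier W ∩ V ⊆ A)
    {ε : ℝ} (hε : 0 < ε) : ∃ (c : ℂ → ℝ) (K : ℝ), IsTest (thickening ε A) c ∧
      (∀ z, 0 ≤ c z ∧ c z ≤ 1) ∧ (∀ z ∈ thickening (ε / 2) (A ∩ V), c z = 1) ∧ 0 < K ∧
      ∀ v, IsTest V v → IsTest W (W.indicator fun z => (1 - c z) * v z) ∧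
        tsupport (W.indicator fun z => (1 - c z) * v z) ⊆ tsupport v ∧
        ‖gr (W.indicator fun z => (1 - c z) * v z)‖ ≤ K * ‖gr v‖ := by
  obtain ⟨c, hc, h1, h2⟩ := exists_cut (U := thickening ε A) (T := cthickening (ε / 2) (A ∩ V))
    isOpen_thickening (isCompact_of_isClosed_isBounded isClosed_cthickening
      (hb.subset inter_subset_right).cthickening)
    ((cthickening_subset_thickening' hε (half_lt_self hε) _).trans
      (thickening_subset_of_subset ε inter_subset_left))
  have hca : ∀ z, |c z| ≤ 1 := fun z => abs_le.2 ⟨by linarith [(h2 z).1], (h2 z).2⟩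
  obtain ⟨K, hK, hKb⟩ := cut_bound hb hc hca
  have h3 : ∀ z ∈ thickening (ε / 2) (A ∩ V), c z = 1 := fun z hz =>
    h1 z (thickening_subset_cthickening _ _ hz)
  refine ⟨c, K + 1, hc, h2, h3, by positivity, fun v hv => ?_⟩
  have ht := test_mul hv (contDiff_const.sub hc.1 : ContDiff ℝ _ fun z => 1 - c z)
  have hs : tsupport (fun z => (1 - c z) * v z) ⊆ tsupport v :=
    closure_mono fun z hz h0 => hz (by show (1 - c z) * v z = 0; rw [h0, mul_zero])
  have hd : Disjoint (tsupport fun z => (1 - c z) * v z) (frontier W) := by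
    refine disjoint_left.2 fun z hz hf => notMem_tsupport_iff_eventuallyEq.2 ?_ hz
    have hzV := hv.2.2 (hs hz)
    filter_upwards [isOpen_thickening.mem_nhds
      (self_subset_thickening (half_pos hε) (A ∩ V) ⟨hA ⟨hf, hzV⟩, hzV⟩)] with w hw
    rw [h3 w hw]
    simp
  obtain ⟨i1, i2, i3⟩ := ind_test hW ht hd
  refine ⟨i1, i2.trans hs, i3.trans ?_⟩
  have e : gr (fun z => (1 - c z) * v z) = gr v - gr (fun z => c z * v z) := by
    have h4 := gr_comb hv (test_mul hv hc.1) 1 (-1)
    rw [one_smul, neg_one_smul, ← sub_eq_add_neg] at h4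
    rw [← h4]
    congr 1
    funext z
    ring
  rw [e]
  linarith [norm_sub_le (gr v) (gr fun z => c z * v z), hKb v hv]

end Vale.Agent.P155.Soup.Fx

namespace Vale.Agent.P155.SG

open MeasureTheory Set Metric Filter Topology Vale.Agent.P155.Uq Vale.Agent.P155.U
  Vale.Agent.P155.Soup.Fx

/-- **DENS** -/
theorem dens : DENS := by
  intro V W A ε hV hb hW hWV hA hε e he η hη
  obtain ⟨c, K, hc, -, -, hK, h⟩ := exists_cutW hb hW hA hε
  have hcl : (e : Uq.HL) ∈ closure (G0 V : Set Uq.HL) :=
    gv_ind (p := fun g => g ∈ closure (G0 V : Set Uq.HL)) isClosed_closure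
      (fun v hv => subset_closure ⟨v, hv, rfl⟩) e.2
  obtain ⟨_, ⟨u, hu, rfl⟩, hue⟩ := Metric.mem_closure_iff.1 hcl (η / (2 * (K + 1)))
    (by positivity)
  rw [dist_eq_norm] at hue
  have hg := isTest_nlap hu
  obtain ⟨g1, g2, -⟩ := h _ hg
  set g' := W.indicator fun z => (1 - c z) * nlap u z with hg'
  have ht := test_comb hg (test_mono g1 hWV) 1 (-1)
  refine ⟨fun z => 1 * nlap u z + -1 * g' z, ⟨ht.1, ht.2.1, fun z hz => ⟨ht.2.2 hz, ?_⟩⟩, ?_⟩
  · by_contra hn
    rw [mem_union, not_or, mem_compl_iff, not_not] at hn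
    have hzW : z ∈ W := by
      by_contra h'
      exact hn.1 (self_subset_thickening hε A
        (hA ⟨⟨hn.2, by rwa [hW.interior_eq]⟩, ht.2.2 hz⟩))
    refine notMem_tsupport_iff_eventuallyEq.2 ?_ hz
    filter_upwards [hW.mem_nhds hzW,
      notMem_tsupport_iff_eventuallyEq.1 fun h' => hn.1 (hc.2.2 h')] with w h1 h2
    rw [hg', indicator_of_mem h1, h2]
    simp
  · refine lt_of_le_of_lt (norm_le_of_test (U := V) (ε := η / 2)
      (e - Rv V fun z => 1 * nlap u z + -1 * g' z).2 (half_pos hη).le fun v hv => ?_)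
      (half_lt_self hη)
    obtain ⟨v1, -, v3⟩ := h v hv
    set v' := W.indicator fun z => (1 - c z) * v z with hv'
    have e1 : ∫ z, (1 * nlap u z + -1 * g' z) * v z = inner ℝ (gr u) (gr v - gr v') := by
      rw [inner_sub_right, inner_nlap hu hv, inner_nlap hu v1,
        ← integral_sub (int_test (test_univ hg) hv) (int_test (test_univ hg) v1)]
      congr 1
      funext z
      by_cases hz : z ∈ W
      · rw [hg', hv', indicator_of_mem hz, indicator_of_mem hz]
        ring
      · rw [hg', hv', indicator_of_notMem hz, indicator_of_notMem hz]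
        ring
    have e2 : inner ℝ (e : Uq.HL) (gr v') = 0 :=
      Submodule.inner_left_of_mem_orthogonal (gr_mem v1) he
    have e3 : inner ℝ ((e - Rv V fun z => 1 * nlap u z + -1 * g' z : GV V) : Uq.HL) (gr v) =
        inner ℝ ((e : Uq.HL) - gr u) (gr v - gr v') := by
      rw [Submodule.coe_sub, inner_sub_left, Rv_inner hb (test_univ ht) hv, e1, inner_sub_left,
        inner_sub_right (e : Uq.HL), e2, sub_zero]
    rw [e3]
    refine (abs_real_inner_le_norm _ _).trans ?_
    have h1 : ‖gr v - gr v'‖ ≤ (K + 1) * ‖gr v‖ := by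
      linarith [norm_sub_le (gr v) (gr v')]
    refine (mul_le_mul hue.le h1 (norm_nonneg _) (by positivity)).trans (le_of_eq ?_)
    field_simp

end Vale.Agent.P155.SG
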