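import Vale.Agent.P155SG.Defs

/-!
# P155, block (G): the statements of the rows
-/

set_option linter.all false

namespace Vale.Agent.P155.SG

open MeasureTheory ProbabilityTheory Set Metric TopologicalSpace Filter Topology Vale.Agent.P155
  Vale.Agent.P155.Q1 Vale.Agent.P155.Uq Vale.Agent.P155.Soup
  Vale.Agent.P155.BL Vale.Agent.P155S.Poi
open Vale.Agent.P155.Tree (Dom Carp)
open scoped NNReal ENNReal

/-! ## Local sets -/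

/-- **MOM**: moments of the field off a local set -/
def MOM : Prop := ∀ (Ω : Set ℂ) (X T : Type) [MeasurableSpace X] [MeasurableSpace T]
  (μ : Measure X) (W : GV Ω →ₗᵢ[ℝ] Lp ℝ 2 μ) (p : X → T) (C : T → NC), Loc W p C →
  YD W p C ∧
  (∀ (f g : GV Ω) (a b : ℝ), Yc W p C (a • f + b • g) = a • Yc W p C f + b • Yc W p C g) ∧
  (∀ f g : GV Ω, Measurable fun t => inner ℝ (Pj Ω (C t) f) g) ∧
  (∀ w : T → ℝ, BM w → ∀ f g : GV Ω,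
    ∫ x, w (p x) * (Yc W p C f x * Yc W p C g x) ∂μ =
      ∫ x, w (p x) * inner ℝ (Pj Ω (C (p x)) f) g ∂μ ∧
    ∫ x, w (p x) * (Yc W p C f x * W g x) ∂μ = ∫ x, w (p x) * inner ℝ (Pj Ω (C (p x)) f) g ∂μ ∧
    ∫ x, w (p x) * Yc W p C f x ∂μ = 0) ∧
  ∀ (v : ℂ → ℝ) (f : GV Ω), IsTest Ω v → (f : HL) = gr v →
    ∀ᵐ x ∂μ, Disjoint (tsupport v) (C (p x) : Set ℂ) → Zc W p C f x = 0

/-- **MONO**: larger sets, less information -/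
def MONO : Prop := ∀ (Ω : Set ℂ) (X T T' : Type) [MeasurableSpace X] [MeasurableSpace T]
  [MeasurableSpace T'] (μ : Measure X) (W : GV Ω →ₗᵢ[ℝ] Lp ℝ 2 μ) (p : X → T) (C : T → NC)
  (θ : T → T') (C' : T' → NC), Loc W p C → Measurable θ → Measurable C' →
  (∀ᵐ x ∂μ, (C (p x) : Set ℂ) ⊆ C' (θ (p x))) → Loc W (fun x => θ (p x)) C'

/-- **PULL**: extension of the probability space -/
def PULL : Prop := ∀ (Ω : Set ℂ) (X S T : Type) [MeasurableSpace X] [MeasurableSpace S]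
  [MeasurableSpace T] (μ : Measure X) (Q : Measure S) (a : X → S) (Wt : GV Ω →ₗᵢ[ℝ] Lp ℝ 2 μ)
  (W : GV Ω →ₗᵢ[ℝ] Lp ℝ 2 Q) (p : S → T) (C : T → NC), MeasurePreserving a μ Q →
  (∀ f, ∀ᵐ x ∂μ, Wt f x = W f (a x)) → Loc W p C → Loc Wt (fun x => p (a x)) C

/-- **CPL**: the conditionally independent coupling -/
def CPL : Prop := ∀ (Ω : Set ℂ) (S S' : Type) [MeasurableSpace S] [StandardBorelSpace S]
  [MeasurableSpace S'] [StandardBorelSpace S'] (Q : Measure S) (Q' : Measure S')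
  [IsProbabilityMeasure Q] [IsProbabilityMeasure Q'] (W : GV Ω →ₗᵢ[ℝ] Lp ℝ 2 Q)
  (W' : GV Ω →ₗᵢ[ℝ] Lp ℝ 2 Q'), GT.Iso W → GT.Iso W' →
  ∃ (X : Type) (_ : MeasurableSpace X) (μ : Measure X) (a : X → S) (a' : X → S')
    (Wt : GV Ω →ₗᵢ[ℝ] Lp ℝ 2 μ), MeasurePreserving a μ Q ∧ MeasurePreserving a' μ Q' ∧
    (∀ f, ∀ᵐ x ∂μ, Wt f x = W f (a x)) ∧ (∀ f, ∀ᵐ x ∂μ, Wt f x = W' f (a' x)) ∧
    ∀ (T T' : Type) [MeasurableSpace T] [MeasurableSpace T'] (p : S → T) (C : T → NC)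
      (p' : S' → T') (C' : T' → NC), Loc W p C → Loc W' p' C' →
      Loc Wt (fun x => (p (a x), p' (a' x))) (un C C')

/-- **TRF**: the field off the set only depends on the set -/
def TRF : Prop := ∀ (Ω Ω' : Set ℂ) (X X' T T' : Type) [MeasurableSpace X] [MeasurableSpace X']
  [MeasurableSpace T] [MeasurableSpace T'] (μ : Measure X) (μ' : Measure X')
  (W : GV Ω →ₗᵢ[ℝ] Lp ℝ 2 μ) (W' : GV Ω' →ₗᵢ[ℝ] Lp ℝ 2 μ') (p : X → T) (p' : X' → T')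
  (C : T → NC) (C' : T' → NC) (a : X → X') (K0 : Set ℂ) (f : GV Ω) (f' : GV Ω'),
  Loc W p C → Loc W' p' C' → Measure.QuasiMeasurePreserving a μ μ' →
  (∀ K, IsClosed K → K0 ⊆ K → ∀ᵐ x ∂μ, W (Pj Ω K f) x = W' (Pj Ω' K f') (a x)) →
  ∀ᵐ x ∂μ, K0 ⊆ (C (p x) : Set ℂ) → C (p x) = C' (p' (a x)) →
    Yc W p C f x = Yc W' p' C' f' (a x)

/-- **CROSS**: mixed moments -/
def CROSS : Prop := ∀ (Ω : Set ℂ) (X T T' : Type) [MeasurableSpace X] [MeasurableSpace T]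
  [MeasurableSpace T'] (μ : Measure X) (W : GV Ω →ₗᵢ[ℝ] Lp ℝ 2 μ) (p : X → T) (C : T → NC)
  (θ : T → T') (C' : T' → NC), Loc W p C → Measurable θ → Loc W (fun x => θ (p x)) C' →
  ∀ w : T → ℝ, BM w → ∀ f g : GV Ω,
    ∫ x, w (p x) * (Yc W p C f x * Yc W (fun x => θ (p x)) C' g x) ∂μ =
      ∫ x, w (p x) * inner ℝ (Pj Ω (C (p x)) f) (Pj Ω (C' (θ (p x))) g) ∂μ

/-- **EXY**: real exponential moments -/
def EXY : Prop := ∀ (Ω : Set ℂ) (X T : Type) [MeasurableSpace X] [MeasurableSpace T]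
  (μ : Measure X) (W : GV Ω →ₗᵢ[ℝ] Lp ℝ 2 μ) (p : X → T) (C : T → NC), Loc W p C → ∀ f : GV Ω,
  Integrable (fun x => Real.exp (W f x)) μ ∧ Integrable (fun x => Real.exp (Zc W p C f x)) μ ∧
  ∀ w : T → ℝ, BM w → ∫ x, w (p x) * Real.exp (W f x) ∂μ =
    ∫ x, w (p x) * Real.exp (Zc W p C f x + ‖Pj Ω (C (p x)) f‖ ^ 2 / 2) ∂μ

/-- **KEY**: the harmonic part of the union, on bumps -/
def KEY : Prop := ∀ (Ω : Set ℂ) (X T T' : Type) [MeasurableSpace X] [MeasurableSpace T]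
  [MeasurableSpace T'] (μ : Measure X) (W : GV Ω →ₗᵢ[ℝ] Lp ℝ 2 μ) (p : X → T) (C : T → NC)
  (p' : X → T') (C' : T' → NC), Loc W p C → Loc W p' C' →
  Loc W (fun x => (p x, p' x)) (un C C') → (∀ᵐ x ∂μ, UK.Geo Ω (C (p x))) →
  (∀ᵐ x ∂μ, UK.Geo Ω (C' (p' x))) → Hb W p C → Hb W p' C' →
  Hb W (fun x => (p x, p' x)) (un C C')

/-- **POSX**: the harmonic part of the union, on all test functions -/
def POSX : Prop := ∀ (Ω : Set ℂ) (X T T' : Type) [MeasurableSpace X] [MeasurableSpace T]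
  [MeasurableSpace T'] (μ : Measure X) (W : GV Ω →ₗᵢ[ℝ] Lp ℝ 2 μ) (p : X → T) (C : T → NC)
  (p' : X → T') (C' D : T' → NC), Loc W p C → Loc W p' C' →
  Loc W (fun x => (p x, p' x)) (un C C') → Measurable D → Ht W p C (fun _ => ∅) →
  Ht W p' C' (fun x => D (p' x)) → Hb W (fun x => (p x, p' x)) (un C C') →
  (∀ᵐ x ∂μ, volume ((C (p x) : Set ℂ) ∩ Ω) = 0) →
  (∀ᵐ x ∂μ, volume (((C' (p' x) : Set ℂ) ∩ Ω) \ D (p' x)) = 0) →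
  Ht W (fun x => (p x, p' x)) (un C C') fun x => D (p' x)

/-! ## Potential theory -/

/-- **FU**: the time spent near a connected set -/
def FU : Prop := ∃ C : ℝ, ∀ (Ω K : Set ℂ) (b : ℝ) (f g : ℂ → ℝ), UK.Geo Ω K → 0 < b →
  IsTest univ f → IsTest univ g → (∀ z, 0 ≤ f z ∧ f z ≤ 1 / b ^ 2) →
  (∀ z, f z ≠ 0 → infDist z K ≤ b) → (∀ z, 0 ≤ g z) →
  0 ≤ inner ℝ (Rv (Ω \ K) f) (Rv (Ω \ K) g) ∧
    inner ℝ (Rv (Ω \ K) f) (Rv (Ω \ K) g) ≤ C * ∫ z, g z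

/-- **FL**: the lower bound -/
def FL : Prop := ∃ c M0 : ℝ, 0 < c ∧ 1 ≤ M0 ∧ ∀ (Ω K : Set ℂ) (x : ℂ) (b d : ℝ) (f g : ℂ → ℝ),
  UK.Geo Ω K → 0 < b → x ∈ Ω → 4 * b ≤ infDist x K → infDist x K ≤ d → IsTest univ f →
  (∀ z, 0 ≤ f z) → (∀ z ∈ connectedComponentIn (Ω \ K) x, dist z x ≤ M0 * d →
    b ≤ infDist z K → infDist z K ≤ 2 * b → 1 / b ^ 2 ≤ f z) →
  IsTest (ball x b) g → (∀ z, 0 ≤ g z) → c * ∫ z, g z ≤ inner ℝ (Rv (Ω \ K) f) (Rv (Ω \ K) g)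

/-- **FLUX**: the far drop is bounded, the near drop is large -/
def FLUX : Prop := ∃ C0 : ℝ, ∀ L : ℝ, ∃ M : ℝ, ∀ (Ω : Set ℂ) (y : ℂ) (r δ : ℝ), 0 < r → 0 < δ →
  closedBall y (2 * r) ⊆ Ω → ∃ (n : ℕ) (q : Fin n → ℂ) (φ : Fin n → ℂ → ℝ) (a b : ℝ), 0 < a ∧
    (∀ i, IsTest (ball (q i) a ∩ ball y r) (φ i) ∧ ∀ z, 0 ≤ φ i z) ∧
    ∀ K P : Set ℂ, UK.Geo Ω K → Un Ω K P →
      greenEnergy (Ω \ K) (lay q φ a b K P) - greenEnergy (ball y r \ K) (lay q φ a b K P) ≤ C0 ∧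
      ∀ T : Set ℂ, UK.Geo Ω (K ∪ T) → XD K P T y r δ M →
        L ≤ greenEnergy (Ω \ K) (lay q φ a b K P) - greenEnergy (Ω \ (K ∪ T)) (lay q φ a b K P)

/-- **CRIT**: the second set does not enter the first one off `D` -/
def CRIT : Prop := ∀ (Ω : Set ℂ) (X T T' : Type) [MeasurableSpace X] [MeasurableSpace T]
  [MeasurableSpace T'] (μ : Measure X) (W : GV Ω →ₗᵢ[ℝ] Lp ℝ 2 μ) (p : X → T) (C : T → NC)
  (p' : X → T') (C' D : T' → NC) (σ : ℝ) (P : T → Set ℂ), Loc W p C → Measurable p' →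
  Measurable C' → Measurable D → Loc W (fun x => (p x, p' x)) (un C C') →
  Loc W (fun x => (p x, D (p' x))) (un C id) → Side W p C σ P →
  Ht W (fun x => (p x, p' x)) (un C C') (fun x => D (p' x)) →
  (∀ᵐ x ∂μ, UK.Geo Ω (C (p x)) ∧ UK.Geo Ω ((C (p x) : Set ℂ) ∪ C' (p' x)) ∧
    (D (p' x) : Set ℂ) ⊆ closure Ω) →
  ∀ (y : ℂ) (r : ℝ), 0 < r → closedBall y (2 * r) ⊆ Ω →
    ∀ᵐ x ∂μ, Disjoint (closedBall y (2 * r)) (D (p' x) : Set ℂ) →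
      ∃ M : ℝ, ∀ δ : ℝ, 0 < δ → ¬ XD (C (p x)) (P (p x)) (C' (p' x)) y r δ M

/-- **HJ**: the cutoff is a Hilbert-Schmidt operator on the harmonic fields -/
def HJ : Prop := ∀ (V W A : Set ℂ) (ε : ℝ), IsOpen V → Bornology.IsBounded V → IsOpen W → W ⊆ V →
  frontier W ∩ V ⊆ A → 0 < ε → ∃ (J : GV V →L[ℝ] GV W) (C : ℝ),
    (∀ e : GV V, (e : HL) ∈ (GV W)ᗮ → ∀ m : GV W, (m : HL) ∈ GV (W \ cthickening ε A) →
      inner ℝ (J e) m = 0) ∧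
    (∀ (e : GV V) (φ : ℂ → ℝ), IsTest (W \ cthickening ε A) φ →
      inner ℝ (J e) (Rv W φ) = inner ℝ e (Rv V φ)) ∧
    ∀ (n : ℕ) (e : Fin n → GV V), Orthonormal ℝ e → (∀ j, (e j : HL) ∈ (GV W)ᗮ) →
      ∑ j, ‖J (e j)‖ ^ 2 ≤ C

/-- **DENS**: harmonic fields are limits of potentials of charges near `A` -/
def DENS : Prop := ∀ (V W A : Set ℂ) (ε : ℝ), IsOpen V → Bornology.IsBounded V → IsOpen W →
  W ⊆ V → frontier W ∩ V ⊆ A → 0 < ε → ∀ e : GV V, (e : HL) ∈ (GV W)ᗮ → ∀ η : ℝ, 0 < η →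
  ∃ φ, IsTest (V ∩ (thickening ε A ∪ (closure W)ᶜ)) φ ∧ ‖e - Rv V φ‖ < η

/-- **TM**: the transport of a Gaussian field to a larger space -/
def TM : Prop := ∀ (H M : Type) [NormedAddCommGroup H] [InnerProductSpace ℝ H] [CompleteSpace H]
  [NormedAddCommGroup M] [InnerProductSpace ℝ M] [CompleteSpace M] (ι : M →ₗᵢ[ℝ] H)
  (P J : H →L[ℝ] M) (C : ℝ) (S0 S1 : Type) [MeasurableSpace S0] [MeasurableSpace S1]
  (Q0 : Measure S0) (Q1 : Measure S1) [IsProbabilityMeasure Q0] [IsProbabilityMeasure Q1]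
  (W0 : M →ₗᵢ[ℝ] Lp ℝ 2 Q0) (W1 : H →ₗᵢ[ℝ] Lp ℝ 2 Q1), GT.Iso W0 → GT.Iso W1 →
  (∀ g m, inner ℝ (P g) m = inner ℝ g (ι m)) →
  (∀ (n : ℕ) (e : Fin n → H), Orthonormal ℝ e → (∀ j, P (e j) = 0) → ∑ j, ‖J (e j)‖ ^ 2 ≤ C) →
  ∃ (Q : Measure (S0 × S1)) (W : H →ₗᵢ[ℝ] Lp ℝ 2 Q), IsProbabilityMeasure Q ∧ GT.Iso W ∧
    Q ≪ Q0.prod Q1 ∧
    (∀ g, (∀ e, P e = 0 → inner ℝ (J e) (P g) = inner ℝ e g) →
      ∀ᵐ x ∂Q, W g x = W0 (P g) x.1) ∧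
    (∀ (M0 : Submodule ℝ M) (w : S0 → ℝ), IsClosed (M0 : Set M) → (∀ e, P e = 0 → J e ∈ M0ᗮ) →
      BM w → Perp W0 M0 w → Perp W (M0.map ι.toLinearMap) fun x => w x.1) ∧
    ∀ E : Set S0, MeasurableSet E → ∀ δ : ℝ, 0 < δ → ∃ (n : ℕ) (e : Fin n → H) (l : ℝ), 0 ≤ l ∧
      (∀ j, P (e j) = 0) ∧ (Q0.real E - δ) * GT.Zd l (Matrix.gram ℝ e) ≤
        ∫ x in Prod.fst ⁻¹' E, GT.tilt l (fun j => W (e j) x) ∂Q

/-! ## The canonical carpets -/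

/-- **CAN0** -/
def CAN0 : Prop := ∀ Ω, Dom Ω → ∃ (Q : Measure (Sp Ω)) (W : GV Ω →ₗᵢ[ℝ] Lp ℝ 2 Q), Can Ω Q W

/-- **CAN1**: the harmonic part given the first carpet -/
def CAN1 : Prop := ∀ (Ω : Set ℂ) (Q : Measure (Sp Ω)) (W : GV Ω →ₗᵢ[ℝ] Lp ℝ 2 Q), Can Ω Q W →
  (∀ φ, IsTest Ω φ → ∀ᵐ s ∂Q, Zc W (past 1) lv (Rv Ω φ) s = cst * pr (s 1).2 φ) ∧
  Ht W (past 1) lv (fun _ => ∅) ∧
  ∃ P P' : Past Ω 1 → Set ℂ, Side W (past 1) lv 1 P ∧ Side W (past 1) lv (-1) P' ∧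
    ∀ᵐ s ∂Q, Ω \ (s 1).1 ⊆ P (past 1 s) ∪ P' (past 1 s)

/-- **HLM**: the hull map -/
def HLM : Prop := ∀ Ω F : Set ℂ, IsOpen Ω → Bornology.IsBounded Ω → IsCompact F → F.Nonempty →
  Measurable (hl Ω F) ∧ ∀ A : NC, F ⊆ hl Ω F A ∧ (hl Ω F A : Set ℂ) ⊆ F ∪ closure Ω ∧
    (IsPreconnected F → IsPreconnected (hl Ω F A : Set ℂ)) ∧
    (SWR.Nice1 Ω A → (hl Ω F A : Set ℂ) = SWR.KK Ω F A)

/-- **LOCH**: the hull is a local set -/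
def LOCH : Prop := ∀ (Ω : Set ℂ) (Q : Measure (Sp Ω)) (W : GV Ω →ₗᵢ[ℝ] Lp ℝ 2 Q), Can Ω Q W →
  ∀ K F : Set ℂ, IsClosed K → IsConnected K → Ωᶜ ⊆ K → IsCompact F → F ⊆ K →
  K ∩ closure Ω ⊆ F → Loc W (fun s => hl Ω F (s 1).1) id

/-- **HTX**: the harmonic part given the carpet and the hull -/
def HTX : Prop := ∀ (Ω : Set ℂ) (Q : Measure (Sp Ω)) (W : GV Ω →ₗᵢ[ℝ] Lp ℝ 2 Q), Can Ω Q W →
  ∀ F : Set ℂ, IsCompact F → F.Nonempty →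
  Loc W (past 1) (lh F) ∧ Ht W (past 1) (lh F) fun s => hl Ω F (s 1).1

/-- **WK**: the tilt given the hull -/
def WK : Prop := ∀ (Ω : Set ℂ) (Q : Measure (Sp Ω)) (W : GV Ω →ₗᵢ[ℝ] Lp ℝ 2 Q), Can Ω Q W →
  ∀ K : Set ℂ, IsClosed K → IsConnected K → Ωᶜ ⊆ K →
  ∀ (n : ℕ) (φ : Fin n → ℂ → ℝ) (l : ℝ) (F : NC → ℝ), 0 ≤ l → BM F → (∀ j, IsTest Ω (φ j)) →
  (∀ A, F A ≠ 0 → ∀ j, Disjoint (tsupport (φ j)) (A : Set ℂ)) →
  ∫ s, F (hl Ω (K ∩ closure Ω) (s 1).1) * GT.tilt l (fun j => W (Rv Ω (φ j)) s) ∂Q =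
    ∫ s, F (hl Ω (K ∩ closure Ω) (s 1).1) * GT.Zd l (Matrix.gram ℝ fun j =>
      Pj Ω (hl Ω (K ∩ closure Ω) (s 1).1) (Rv Ω (φ j))) ∂Q

/-- **TRLE**: the ratio of the partition functions is bounded by the loop mass -/
def TRLE : Prop := ∀ W, IsWiener W → ∀ V K O : Set ℂ, Dom V → IsClosed K →
  IsPreconnected (Vᶜ ∪ K) → IsOpen O → ∀ (n : ℕ) (φ : Fin n → ℂ → ℝ) (l : ℝ), 0 ≤ l →
  (∀ j, IsTest (O ∩ (V \ K)) (φ j)) →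
  ENNReal.ofReal (GT.Zd l (Matrix.gram ℝ fun j => Pj V K (Rv V (φ j)))) ≤
    ENNReal.ofReal (GT.Zd l (Matrix.gram ℝ fun j => Rv V (φ j))) * (ex (Lam W V K O))⁻¹

/-! ## The assembly -/

/-- the geometric setting: `W` is the component of `V \ E` which contains `B ∩ V` -/
structure Stg (V E B W : Set ℂ) (ε : ℝ) : Prop where
  seed : Seed V E B
  hole : IsHole V E W
  dom : Dom W
  sub : B ∩ V ⊆ W
  ne : (B ∩ V).Nonempty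
  pos : 0 < ε
  far : Disjoint (cthickening ε B) (cthickening ε E)

/-- the seed of the hull in `W` -/
def Qs (V E W : Set ℂ) (ε : ℝ) : Set ℂ := (Wᶜ ∪ cthickening ε E) ∩ closure V

/-- **TOPO**: a hole which joins `B` and `E` is entered by the carpet of `W` -/
def TOPO : Prop := ∀ (V E B W : Set ℂ) (ε : ℝ), Stg V E B W ε → ∀ (G G' : NC) (U : Set ℂ),
  Carp V G → SWR.Nice1 V G → Carp W G' → SWR.Nice1 W G' →
  G' ∉ Geo.Jc W (cthickening ε B) (cthickening ε E) → IsHole V G U → (closure U ∩ B).Nonempty →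
  (closure U ∩ cthickening ε E).Nonempty →
  ∃ (i : ℕ) (r : ℚ), 0 < r ∧ closedBall (denseSeq ℂ i) (2 * r) ⊆ V ∧
    Disjoint (closedBall (denseSeq ℂ i) (2 * r)) (SWR.KK W (Qs V E W ε) G') ∧
    ∀ M : ℝ, ∃ δ : ℝ, 0 < δ ∧ XD G U G' (denseSeq ℂ i) r δ M

/-- the carpets of `W` coupled with the field of `V` -/
structure Tra (V E W : Set ℂ) (ε : ℝ) (Q0 : Measure (Sp W)) {S : Type} [MeasurableSpace S]
    (Q : Measure S) (π : S → Sp W) (W' : GV V →ₗᵢ[ℝ] Lp ℝ 2 Q) : Prop where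
  qmp : Measure.QuasiMeasurePreserving π Q Q0
  l1 : Loc W' (fun x => past 1 (π x)) (lh (Qs V E W ε))
  l2 : Loc W' (fun x => hl W (Qs V E W ε) (π x 1).1) id
  ht : Ht W' (fun x => past 1 (π x)) (lh (Qs V E W ε)) fun x => hl W (Qs V E W ε) (π x 1).1
  tv : ∀ A : Set (Sp W), MeasurableSet A → ∀ δ η : ℝ, 0 < δ → 0 < η →
    ∃ (n : ℕ) (φ : Fin n → ℂ → ℝ) (l : ℝ), 0 ≤ l ∧
      (∀ j, IsTest (V ∩ (thickening η E ∪ (closure W)ᶜ)) (φ j)) ∧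
      (Q0.real A - δ) * GT.Zd l (Matrix.gram ℝ fun j => Rv V (φ j)) ≤
        ∫ x in π ⁻¹' A, GT.tilt l (fun j => W' (Rv V (φ j)) x) ∂Q

/-- **TRA** -/
def TRA : Prop := ∀ (V E B W : Set ℂ) (ε : ℝ), Stg V E B W ε →
  ∀ (Q0 : Measure (Sp W)) (W0 : GV W →ₗᵢ[ℝ] Lp ℝ 2 Q0), Can W Q0 W0 →
  ∃ (S : Type) (_ : MeasurableSpace S) (_ : StandardBorelSpace S) (Q : Measure S) (π : S → Sp W)
    (W' : GV V →ₗᵢ[ℝ] Lp ℝ 2 Q), Tra V E W ε Q0 Q π W'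

/-- **NOE**: in the coupling, no hole in `V` joins `B` and `E` unless a hole in `W` does -/
def NOE : Prop := ∀ (V E B W : Set ℂ) (ε : ℝ), Stg V E B W ε →
  ∀ (Q1 : Measure (Sp V)) (W1 : GV V →ₗᵢ[ℝ] Lp ℝ 2 Q1), Can V Q1 W1 →
  ∀ (Q0 : Measure (Sp W)) (W0 : GV W →ₗᵢ[ℝ] Lp ℝ 2 Q0), Can W Q0 W0 →
  ∀ (S : Type) [MeasurableSpace S] [StandardBorelSpace S] (Q : Measure S) (π : S → Sp W)
    (W' : GV V →ₗᵢ[ℝ] Lp ℝ 2 Q), Tra V E W ε Q0 Q π W' →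
  ∃ (X : Type) (_ : MeasurableSpace X) (μ : Measure X) (a : X → Sp V) (a' : X → S),
    MeasurePreserving a μ Q1 ∧ MeasurePreserving a' μ Q ∧
    (∀ f, ∀ᵐ x ∂μ, W1 f (a x) = W' f (a' x)) ∧
    ∀ᵐ x ∂μ, (π (a' x) 1).1 ∉ Geo.Jc W (cthickening ε B) (cthickening ε E) →
      (a x 1).1 ∉ Geo.Jc V B (cthickening ε E)

end Vale.Agent.P155.SG
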