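import Vale.Agent.P155SG.TmB
import Vale.Agent.P155SG.Sk

/-!
# P155, block (G): the transfer measure
-/

set_option linter.all false

namespace Vale.Agent.P155.SG.Tm

open MeasureTheory ProbabilityTheory Filter Topology Complex Vale.Agent.P155.GT
open scoped NNReal ENNReal

variable {S0 S1 : Type} [MeasurableSpace S0] [MeasurableSpace S1] {Q0 : Measure S0}
  {Q1 : Measure S1} [IsProbabilityMeasure Q0] [IsProbabilityMeasure Q1]
  {H M : Type} [NormedAddCommGroup H] [InnerProductSpace ℝ H] [NormedAddCommGroup M]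
  [InnerProductSpace ℝ M] {W0 : M →ₗᵢ[ℝ] Lp ℝ 2 Q0} {W1 : H →ₗᵢ[ℝ] Lp ℝ 2 Q1} {κ : Type}
  {e : κ → H} {v : κ → M}

theorem hil [CompleteSpace H] [CompleteSpace M] (ι : M →ₗᵢ[ℝ] H) (P J : H →L[ℝ] M)
    (hP : ∀ g m, inner ℝ (P g) m = inner ℝ g (ι m)) : (∀ m, P (ι m) = m) ∧
    ∃ (κ : Type) (e : κ → H) (T : H →L[ℝ] H), Orthonormal ℝ e ∧ (∀ i, P (e i) = 0) ∧
      (∀ i, T (e i) = e i) ∧
      (∀ g, (∀ n, P n = 0 → inner ℝ (J n) (P g) = inner ℝ n g) → T g = 0) ∧ ∀ g, ∃ r,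
        Tendsto (fun u : Finset κ => T g + ∑ i ∈ u, inner ℝ (P g) (J (e i)) • e i) atTop (𝓝 r) ∧
        ‖g‖ ^ 2 = ‖P g‖ ^ 2 + ‖r‖ ^ 2 := by
  have Pι : ∀ m, P (ι m) = m := fun m => ext_inner_right ℝ fun m' => by
    rw [hP, ι.inner_map_map]
  set N : Submodule ℝ H := LinearMap.ker (P : H →ₗ[ℝ] M) with hN
  have : CompleteSpace N := (ContinuousLinearMap.isClosed_ker P).completeSpace_coe
  obtain ⟨κ, b, -⟩ := exists_hilbertBasis ℝ N
  have Pe : ∀ i, P (b i) = 0 := fun i => (b i).2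
  set R : H →L[ℝ] H := ContinuousLinearMap.id ℝ H - ι.toContinuousLinearMap ∘L P with hR
  have Ra : ∀ x, R x = x - ι (P x) := fun x => rfl
  have PR : ∀ x, P (R x) = 0 := fun x => by rw [Ra, map_sub, Pι, sub_self]
  have iR : ∀ n x, P n = 0 → inner ℝ n (R x) = inner ℝ n x := fun n x hn => by
    rw [Ra, inner_sub_right, ← hP, hn, inner_zero_left, sub_zero]
  set A : H →L[ℝ] H := ContinuousLinearMap.adjoint J ∘L P with hA
  have iA : ∀ n g, inner ℝ n (A g) = inner ℝ (J n) (P g) := fun n g =>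
    ContinuousLinearMap.adjoint_inner_right J n (P g)
  set T : H →L[ℝ] H := R - R ∘L A with hT
  have Ta : ∀ g, T g = R (g - A g) := fun g => (map_sub R g (A g)).symm
  refine ⟨Pι, κ, fun i => b i, T, b.orthonormal.comp_linearIsometry N.subtypeₗᵢ, Pe, fun i => ?_,
    fun g hg => ?_, fun g => ⟨R g, ?_, ?_⟩⟩
  · rw [Ta, hA, ContinuousLinearMap.comp_apply, Pe, map_zero, sub_zero, Ra, Pe, map_zero, sub_zero]
  · rw [← inner_self_eq_zero (𝕜 := ℝ)]
    have := PR (g - A g)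
    rw [← Ta] at this
    conv_lhs => arg 3; rw [Ta]
    rw [iR _ _ this, inner_sub_right, iA, hg _ this, sub_self]
  · have h2 := N.subtypeL.hasSum (b.hasSum_repr ⟨R (A g), PR _⟩)
    have h3 : HasSum (fun i => inner ℝ (P g) (J (b i)) • (b i : H)) (R (A g)) := by
      convert h2 using 2 with i
      · rw [map_smul, b.repr_apply_apply, Submodule.coe_inner]
        congr 1
        rw [iR _ _ (Pe i), iA, real_inner_comm]
      · rfl
    have h4 : R g = T g + R (A g) := (sub_add_cancel _ _).symm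
    rw [h4]
    exact Tendsto.const_add _ h3
  · have h2 : g = R g + ι (P g) := (sub_add_cancel _ _).symm
    conv_lhs => rw [h2, norm_add_sq_real, ← hP, PR, inner_zero_left, ι.norm_map]
    ring

/-- the limit measure -/
def Lim (W0 : M →ₗᵢ[ℝ] Lp ℝ 2 Q0) (W1 : H →ₗᵢ[ℝ] Lp ℝ 2 Q1) (e : κ → H) (v : κ → M)
    (Q : Measure (S0 × S1)) : Prop := ∀ F : S0 × S1 → ℂ, Bm F → Tendsto
  (fun u => ∫ y, ∫ s, F (s, y) * dn W0 (eta W1 e v u y) s ∂Q0 ∂Q1) atTop (𝓝 (∫ x, F x ∂Q))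

theorem exQ (h0 : Iso W0) (he : Orthonormal ℝ e) (hs : Summable fun i => ‖v i‖ ^ 2) :
    ∃ Q : Measure (S0 × S1), IsProbabilityMeasure Q ∧ Q ≪ Q0.prod Q1 ∧ Lim W0 W1 e v Q ∧
      ∀ (G : S0 → ℝ) (τ : S1 → ℝ) (a : ℝ), Measurable G → Measurable τ → (∀ s, 0 ≤ G s) →
        (∀ s, G s ≤ 1) → (∀ y, 0 ≤ τ y) → (∀ y, τ y ≤ 1) →
        (∀ᶠ u in atTop, ∫ y, τ y * ‖eta W1 e v u y‖ ∂Q1 ≤ a) →
        (∫ s, G s ∂Q0) * ∫ y, τ y ∂Q1 - a ≤ ∫ x, G x.1 * τ x.2 ∂Q := by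
  obtain ⟨ρ, mρ, ρ0, iρ, hρ⟩ := exists_rho (W1 := W1) h0 he hs
  set Q := (Q0.prod Q1).withDensity fun x => ENNReal.ofReal (ρ x) with hQ
  have iQ : ∀ {E : Type} [NormedAddCommGroup E] [NormedSpace ℝ E] (F : S0 × S1 → E),
      ∫ x, F x ∂Q = ∫ x, ρ x • F x ∂Q0.prod Q1 := fun F => by
    rw [hQ, integral_withDensity_eq_integral_toReal_smul mρ.ennreal_ofReal
      (ae_of_all _ fun _ => ENNReal.ofReal_lt_top)]
    simp only [ENNReal.toReal_ofReal (ρ0 _)]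
  have core : Lim W0 W1 e v Q := fun F hF => by
    simp only [← fub_rho h0 _ hF, iQ, real_smul, mul_comm _ (F _)]
    exact lim_rho h0 iρ hρ hF
  refine ⟨Q, ?_, withDensity_absolutelyContinuous _ _, core, fun g τ a mg mτ g0 g1 τ0 τ1 hl => ?_⟩
  · have h2 := core _ (bm_const 1)
    simp only [one_mul, integral_complex_ofReal, dn_one h0, integral_const, probReal_univ,
      one_smul, real_smul, mul_one] at h2
    exact ⟨(ENNReal.toReal_eq_one_iff _).1 (ofReal_injective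
      (tendsto_nhds_unique h2 tendsto_const_nhds))⟩
  rw [← integral_prod_mul, iQ]
  set G : S0 × S1 → ℝ := fun x => g x.1 * τ x.2 with hG
  have mG : Measurable G := (mg.comp measurable_fst).mul (mτ.comp measurable_snd)
  have G0 : ∀ x, 0 ≤ G x ∧ G x ≤ τ x.2 := fun x =>
    ⟨mul_nonneg (g0 _) (τ0 _), mul_le_of_le_one_left (τ0 _) (g1 _)⟩
  have bG : ∀ x, ‖G x‖ ≤ 1 := fun x =>
    (Real.norm_of_nonneg (G0 x).1).trans_le ((G0 x).2.trans (τ1 _))
  refine le_of_tendsto (f := fun u => ∫ x, G x ∂Q0.prod Q1 - a -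
    ∫ x, |rho W0 W1 e v u x - ρ x| ∂Q0.prod Q1) (x := atTop)
    (by simpa using hρ.const_sub (∫ x, G x ∂Q0.prod Q1 - a)) (hl.mono fun u hu => ?_)
  have h2 := wl1 (W1 := W1) (e := e) (v := v) h0 mτ τ0 τ1 u ∅
  simp only [rho_empty, eta, Finset.sum_empty, sub_zero] at h2
  have i1 : Integrable G (Q0.prod Q1) := .of_bound mG.aestronglyMeasurable 1 (ae_of_all _ bG)
  have i2 : Integrable (fun x : S0 × S1 => τ x.2 * |rho W0 W1 e v u x - 1|) (Q0.prod Q1) :=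
    ((int_rho h0 W1 e v u).sub (integrable_const 1)).abs.bdd_mul
      (mτ.comp measurable_snd).aestronglyMeasurable (c := 1)
      (ae_of_all _ fun x => (Real.norm_of_nonneg (τ0 _)).trans_le (τ1 _))
  have i3 : Integrable (fun x => |rho W0 W1 e v u x - ρ x|) (Q0.prod Q1) :=
    ((int_rho h0 W1 e v u).sub iρ).abs
  have i4 : Integrable (fun x => G x * ρ x) (Q0.prod Q1) :=
    iρ.bdd_mul mG.aestronglyMeasurable (c := 1) (ae_of_all _ bG)
  have h3 : ∫ x, G x ∂Q0.prod Q1 ≤ ∫ x, G x * ρ x + τ x.2 * |rho W0 W1 e v u x - 1| +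
      |rho W0 W1 e v u x - ρ x| ∂Q0.prod Q1 := integral_mono i1 ((i4.add i2).add i3) fun x => by
    have b1 := (G0 x).1
    have b2 := (G0 x).2
    have b4 := neg_abs_le (rho W0 W1 e v u x - 1)
    have b5 := le_abs_self (rho W0 W1 e v u x - ρ x)
    have b6 := abs_nonneg (rho W0 W1 e v u x - 1)
    have b7 := abs_nonneg (rho W0 W1 e v u x - ρ x)
    dsimp only
    linarith [mul_le_mul_of_nonneg_left b4 b1, mul_le_mul_of_nonneg_left b5 b1,
      mul_le_mul_of_nonneg_right b2 b6, mul_le_mul_of_nonneg_right (b2.trans (τ1 x.2)) b7]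
  rw [int_add3 i4 i2 i3] at h3
  unfold eta at hu
  simp only [smul_eq_mul, mul_comm (ρ _)]
  linarith

/-- the new field -/
noncomputable def wf (W0 : M →ₗᵢ[ℝ] Lp ℝ 2 Q0) (W1 : H →ₗᵢ[ℝ] Lp ℝ 2 Q1) (m : M) (g : H)
    (x : S0 × S1) : ℝ := W0 m x.1 + W1 g x.2

omit [IsProbabilityMeasure Q0] [IsProbabilityMeasure Q1] in
theorem mwf (m : M) (g : H) : Measurable (wf W0 W1 m g) :=
  ((mW W0 _).comp measurable_fst).add ((mW W1 _).comp measurable_snd)

omit [IsProbabilityMeasure Q0] [IsProbabilityMeasure Q1] in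
theorem bwf (m : M) (g : H) : Bm fun x => cexp (I * (wf W0 W1 m g x : ℝ)) :=
  ⟨by have := mwf (W0 := W0) (W1 := W1) m g; fun_prop, 1, fun x => by
    simp only [mul_comm I, norm_exp_ofReal_mul_I, le_refl]⟩

omit [IsProbabilityMeasure Q0] [IsProbabilityMeasure Q1] in
theorem spl (G : S0 → ℂ) (m h : M) (g : H) (y : S1) :
    ∫ s, G s * cexp (I * (wf W0 W1 m g (s, y) : ℝ)) * dn W0 h s ∂Q0 =
      cexp (I * (W1 g y : ℝ) - (‖h‖ ^ 2 / 2 : ℝ)) *
        ∫ s, (Real.exp (W0 h s) : ℂ) * (G s * cexp (I * (W0 m s : ℝ))) ∂Q0 := by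
  rw [← integral_const_mul]
  congr 1
  funext s
  simp only [wf, dn, ofReal_exp, ofReal_add, ofReal_sub, mul_add, Complex.exp_add, Complex.exp_sub]
  ring

theorem Lim.char {Q : Measure (S0 × S1)} (h : Lim W0 W1 e v Q) (h0 : Iso W0) (h1 : Iso W1) (m : M)
    {g r : H} (hr : Tendsto (fun u : Finset κ => g + ∑ i ∈ u, inner ℝ m (v i) • e i) atTop (𝓝 r)) :
    ∫ x, cexp (I * (wf W0 W1 m g x : ℝ)) ∂Q = cexp (-((‖m‖ ^ 2 + ‖r‖ ^ 2) / 2 : ℝ)) := by
  refine tendsto_nhds_unique (h _ (bwf m g)) ?_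
  have h2 : ∀ u, ∫ y, ∫ s, cexp (I * (wf W0 W1 m g (s, y) : ℝ)) * dn W0 (eta W1 e v u y) s ∂Q0 ∂Q1 =
      cexp (-(‖m‖ ^ 2 / 2 : ℝ)) *
        cexp (-(‖g + ∑ i ∈ u, inner ℝ m (v i) • e i‖ ^ 2 / 2 : ℝ)) := fun u => by
    rw [← h1 (g + _), ← integral_const_mul]
    refine integral_congr_ae ?_
    filter_upwards [W_add W1 g (∑ i ∈ u, inner ℝ m (v i) • e i),
      W_fin W1 u (fun i => inner ℝ m (v i)) e] with y y1 y2
    have h3 := spl (W0 := W0) (W1 := W1) (fun _ => 1) m (eta W1 e v u y) g y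
    simp only [one_mul] at h3
    have h4 : inner ℝ m (eta W1 e v u y) = ∑ i ∈ u, inner ℝ m (v i) * W1 (e i) y := by
      simp only [eta, inner_sum, real_inner_smul_right, mul_comm]
    rw [h3, shift h0, y1, y2, h4, ← Complex.exp_add, ← Complex.exp_add]
    congr 1
    push_cast
    ring
  simp only [h2]
  have h3 : Continuous fun x : H => cexp (-(‖m‖ ^ 2 / 2 : ℝ)) * cexp (-(‖x‖ ^ 2 / 2 : ℝ)) := by
    fun_prop
  rw [add_div, ofReal_add, neg_add, Complex.exp_add]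
  exact (h3.tendsto _).comp hr

theorem Lim.perp {Q : Measure (S0 × S1)} (h : Lim W0 W1 e v Q) (h0 : Iso W0) {M0 : Submodule ℝ M}
    (hv : ∀ i, v i ∈ M0ᗮ) {z : S0 → ℝ} (hz : Uq.BM z) (hp : Perp W0 M0 z) {f m : M} (hf : f ∈ M0)
    (hm : m ∈ M0ᗮ) (g : H) : ∫ x, (z x.1 : ℂ) * cexp (I * (wf W0 W1 (m + f) g x : ℝ)) ∂Q =
      cexp (-(‖f‖ ^ 2 / 2 : ℝ)) * ∫ x, (z x.1 : ℂ) * cexp (I * (wf W0 W1 m g x : ℝ)) ∂Q := by
  have bz : Bm fun s => (z s : ℂ) := Bm.ofReal hz.1 hz.2.choose_spec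
  have bz' : ∀ m, Bm fun x : S0 × S1 => (z x.1 : ℂ) * cexp (I * (wf W0 W1 m g x : ℝ)) := fun m =>
    (bz.comp measurable_fst).mul (bwf m g)
  refine tendsto_nhds_unique (h _ (bz' _)) (((h _ (bz' m)).const_mul _).congr fun u => ?_)
  rw [← integral_const_mul]
  congr 1
  funext y
  have hη : eta W1 e v u y ∈ M0ᗮ := sum_mem fun i _ => M0ᗮ.smul_mem _ (hv i)
  rw [spl (fun s => z s), spl (fun s => z s), perp_exp h0 bz fun t =>
    hp f hf _ (add_mem hm (M0ᗮ.smul_mem t hη)), mul_left_comm]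

end Tm

open MeasureTheory ProbabilityTheory Filter Topology Complex Vale.Agent.P155.GT Tm

theorem tm : TM := by
  intro H M _ _ _ _ _ _ ι P J C S0 S1 _ _ Q0 Q1 _ _ W0 W1 h0 h1 hP hJ
  obtain ⟨Pι, κ, e, T, he, Pe, Te, T0, lim⟩ := hil ι P J hP
  have hs : Summable fun i => ‖J (e i)‖ ^ 2 := summable_of_sum_le (fun i => sq_nonneg _) (c := C)
    fun u => by
      rw [← Finset.sum_coe_sort, ← u.equivFin.symm.sum_comp]
      exact hJ _ _ (he.comp (fun j => (u.equivFin.symm j : κ))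
        (Subtype.val_injective.comp u.equivFin.symm.injective)) fun j => Pe _
  obtain ⟨Q, pQ, ac, hQ, tv⟩ := exQ (W1 := W1) h0 he hs
  have a0 : ∀ {p : S0 → Prop}, (∀ᵐ s ∂Q0, p s) → ∀ᵐ x ∂Q, p x.1 := fun h =>
    ac.ae_le (Measure.quasiMeasurePreserving_fst.ae h)
  have a1 : ∀ {p : S1 → Prop}, (∀ᵐ s ∂Q1, p s) → ∀ᵐ x ∂Q, p x.2 := fun h =>
    ac.ae_le (Measure.quasiMeasurePreserving_snd.ae h)
  obtain ⟨W, hW, hWw⟩ := mkIso (P := Q) (fun g => wf W0 W1 (P g) (T g)) (fun g => mwf _ _)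
    (fun f g => by
      filter_upwards [a0 (W_add W0 (P f) (P g)), a1 (W_add W1 (T f) (T g))] with x x0 x1
      rw [map_add P, map_add T, wf, x0, x1, wf, wf]
      ring)
    (fun t g => by
      filter_upwards [a0 (W_smul W0 t (P g)), a1 (W_smul W1 t (T g))] with x x0 x1
      rw [map_smul P, map_smul T, wf, x0, x1, wf]
      ring)
    (fun g => by
      obtain ⟨r, hr, e1⟩ := lim g
      rw [hQ.char h0 h1 _ hr, e1])
  refine ⟨Q, W, pQ, hW, ac, fun g hg => ?_, fun M0 z _ hM hz hp f hf g hg => ?_,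
    fun E hE δ hδ => ?_⟩
  · filter_upwards [hWw g, a1 (W_zero W1)] with x x0 x1
    rw [x0, wf, T0 g hg, x1, add_zero]
  · obtain ⟨f, hf, rfl⟩ := hf
    change ∫ x, (z x.1 : ℂ) * cexp (I * (W (g + ι f) x : ℝ)) ∂Q = cexp (-(‖ι f‖ ^ 2 / 2 : ℝ)) * _
    have e1 : ∀ g, ∫ x, (z x.1 : ℂ) * cexp (I * (W g x : ℝ)) ∂Q =
        ∫ x, (z x.1 : ℂ) * cexp (I * (wf W0 W1 (P g) (T g) x : ℝ)) ∂Q := fun g =>
      integral_congr_ae ((hWw g).mono fun x hx => by simp only [hx])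
    have Tf : T (g + ι f) = T g := by
      rw [map_add, T0 (ι f) fun n hn => by
        rw [Pι, ← hP, hn, inner_zero_left, real_inner_comm]
        exact hM n hn f hf, add_zero]
    have Pg : P g ∈ M0ᗮ := fun m hm => by
      rw [real_inner_comm, hP, real_inner_comm]
      exact hg _ ⟨m, hm, rfl⟩
    rw [e1, e1, ι.norm_map, Tf, map_add, Pι]
    exact hQ.perp h0 (fun i => hM _ (Pe i)) hz hp hf Pg _
  · obtain ⟨n, c, l, l0, hl⟩ := tilt_eta h1 he hs hδ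
    refine ⟨n, fun j => e (c j), l, l0, fun j => Pe _, ?_⟩
    have h2 := tv (E.indicator 1) _ _ (measurable_one.indicator hE)
      ((cont_tilt l).measurable.comp (meas_W W1 _))
      (fun s => Set.indicator_nonneg (fun _ _ => zero_le_one) s)
      (fun s => Set.indicator_le_self' (fun _ _ => zero_le_one) s)
      (fun y => (tilt_pos _ _).le) (fun y => tilt_le l0 _) hl
    simp only [Function.comp_def] at h2
    rw [integral_indicator_one hE, h1.tilt l0, mul_comm _ δ, ← sub_mul] at h2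
    refine h2.trans_eq ?_
    rw [← integral_indicator (measurable_fst hE)]
    have h3 : ∀ j, ∀ᵐ x ∂Q, W (e (c j)) x = W1 (e (c j)) x.2 := fun j => by
      filter_upwards [hWw (e (c j)), a0 (W_zero W0)] with x x0 x1
      rw [x0, wf, Pe, Te, x1, zero_add]
    refine integral_congr_ae ?_
    filter_upwards [ae_all_iff.2 h3] with x hx
    by_cases hx' : x.1 ∈ E <;> simp [hx', hx]

end Vale.Agent.P155.SG
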