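import Vale.Agent.P155SG.Sk
import Vale.Agent.P155Z.TOPO
import Vale.Agent.P155.SW905.KKC

/-!
# P155, block (G): a hole which joins `B` and `E` is entered by the carpet of `W`
-/

namespace Vale.Agent.P155.SG

open Set Metric TopologicalSpace Filter Topology Vale.Agent.P155 Vale.Agent.P155.Q1
  Vale.Agent.P155.Soup Vale.Agent.P155.Geo
open Vale.Agent.P155.Tree (Dom Carp)

namespace Tp

/-- boundary bumping -/
theorem bump {K A : Set ℂ} {x : ℂ} (hK : IsCompact K) (hc : IsPreconnected K) (hA : IsClosed A)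
    (hx : x ∈ K ∩ A) (hn : ¬ K ⊆ A) :
    ∃ y ∈ connectedComponentIn (K ∩ A) x, y ∉ interior A := by
  by_contra h
  push Not at h
  have : CompactSpace ↥(K ∩ A) := isCompact_iff_compactSpace.1 (hK.inter_right hA)
  have : Nonempty {s : Set ↥(K ∩ A) // IsClopen s ∧ ⟨x, hx⟩ ∈ s} :=
    ⟨⟨univ, isClopen_univ, trivial⟩⟩
  obtain ⟨⟨Z, h1, h2⟩, h3⟩ := exists_subset_nhds_of_compactSpace
    (V := fun s : {s : Set ↥(K ∩ A) // IsClopen s ∧ ⟨x, hx⟩ ∈ s} => s.1)
    (fun s t => ⟨⟨s.1 ∩ t.1, s.2.1.inter t.2.1, s.2.2, t.2.2⟩, inter_subset_left,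
      inter_subset_right⟩) (fun s => s.2.1.isClosed) (U := Subtype.val ⁻¹' interior A)
    (fun z hz => (isOpen_interior.preimage continuous_subtype_val).mem_nhds (h _ (by
      rw [connectedComponentIn_eq_image hx, connectedComponent_eq_iInter_isClopen]
      exact ⟨z, hz, rfl⟩)))
  obtain ⟨u, hu, rfl⟩ := isOpen_induced_iff.1 h1.isOpen
  have h4 : IsClosed (Subtype.val '' (Subtype.val ⁻¹' u : Set ↥(K ∩ A))) :=
    (h1.isClosed.isCompact.image continuous_subtype_val).isClosed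
  obtain ⟨a, ha, ha'⟩ := not_subset.1 hn
  obtain ⟨k, hk, hk1, hk2⟩ := hc _ _ (hu.inter (isOpen_interior (s := A))) h4.isOpen_compl
    (fun k _ => by
      by_contra e
      rw [mem_union, not_or, notMem_compl_iff] at e
      obtain ⟨z, hz, rfl⟩ := e.2
      exact e.1 ⟨hz, h3 hz⟩) ⟨x, hx.1, h2, h3 h2⟩ ⟨a, ha, fun ⟨z, _, e⟩ => ha' (e ▸ z.2.2)⟩
  exact hk2 ⟨⟨k, hk, interior_subset hk1.2⟩, hk1.1, rfl⟩

variable {V G G' U O : Set ℂ} {q : ℂ}

theorem front (ho : IsOpen V) (hG : IsClosed G) (hU : IsHole V G U) (hq : q ∈ closure U)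
    (hV : q ∈ V) (hn : q ∉ G) : q ∈ U := by
  have h1 : IsHole V G (connectedComponentIn (V \ G) q) := ⟨q, ⟨hV, hn⟩, rfl⟩
  have h2 := mem_connectedComponentIn (show q ∈ V \ G from ⟨hV, hn⟩)
  obtain ⟨z, a, b⟩ := mem_closure_iff.1 hq _ (CI.Holes.hole_open ho hG h1) h2
  rwa [hole_meet hU h1 b a]

/-- if `G'` touches `G` from inside `U` there are long thin crossings -/
theorem touch (hG : IsClosed G) (hG' : IsCompact G') (hc : IsPreconnected G')
    (hU : IsHole V G U) (hO : IsOpen O) (hOV : O ⊆ V) (hn : ¬ G' ⊆ O) (hq : q ∈ O) (hqG : q ∈ G)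
    (ht : q ∈ closure (G' ∩ U)) :
    ∃ (i : ℕ) (r : ℚ), 0 < r ∧ closedBall (denseSeq ℂ i) (2 * r) ⊆ O ∧
      ∀ M : ℝ, ∃ δ : ℝ, 0 < δ ∧ XD G U G' (denseSeq ℂ i) r δ M := by
  obtain ⟨R, hR, h1⟩ := Metric.isOpen_iff.1 hO q hq
  obtain ⟨r, hr0, hr1⟩ := exists_rat_btwn (show 0 < R / 3 by positivity)
  obtain ⟨i, hi⟩ := (denseRange_denseSeq ℂ).exists_dist_lt q (show (0 : ℝ) < r / 8 by positivity)
  refine ⟨i, r, by exact_mod_cast hr0, fun z hz => h1 ?_, fun M => ?_⟩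
  · rw [mem_closedBall] at hz
    rw [mem_ball]
    linarith [dist_triangle_right z q (denseSeq ℂ i)]
  obtain ⟨m, hm1, hm2, hm3⟩ : ∃ m : ℝ, 1 ≤ m ∧ M ≤ m ∧ M ^ 2 ≤ m ^ 2 :=
    ⟨|M| + 1, by linarith [abs_nonneg M], by linarith [le_abs_self M],
      by nlinarith [abs_nonneg M, sq_abs M]⟩
  obtain ⟨l, hl, hl1⟩ : ∃ l : ℝ, 0 < l ∧ m ^ 2 * l = r / 16 :=
    ⟨r / 16 / m ^ 2, by positivity, by field_simp⟩
  have hl2 : m * l ≤ r / 16 := by nlinarith [mul_pos (show 0 < m by linarith) hl]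
  have hl3 : l ≤ r / 16 := by nlinarith
  obtain ⟨x, hx, hxq⟩ := Metric.mem_closure_iff.1 ht l hl
  rw [dist_comm] at hxq
  have hd : 0 < infDist x G := (hG.notMem_iff_infDist_pos ⟨q, hqG⟩).1 (hole_sub hU hx.2).2
  have hd1 : infDist x G ≤ l := (infDist_le_dist_of_mem hqG).trans hxq.le
  obtain ⟨η, hη, hη1⟩ : ∃ η : ℝ, 0 < η ∧ m * η = infDist x G / 2 :=
    ⟨infDist x G / 2 / m, by positivity, by field_simp⟩
  have hη2 : η ≤ infDist x G / 2 := by nlinarith
  have ci := continuous_infDist_pt G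
  have hA : IsClosed (closedBall q (r / 8) ∩ {z | η ≤ infDist z G}) :=
    isClosed_closedBall.inter (isClosed_le continuous_const ci)
  have hAO : closedBall q (r / 8) ∩ {z | η ≤ infDist z G} ⊆ O := fun z hz =>
    h1 (closedBall_subset_ball (by linarith) hz.1)
  have hxA : x ∈ G' ∩ (closedBall q (r / 8) ∩ {z | η ≤ infDist z G}) :=
    ⟨hx.1, mem_closedBall.2 (by linarith), show η ≤ infDist x G by linarith⟩
  obtain ⟨y, hy, hy1⟩ := bump hG' hc hA hxA fun e => hn (e.trans hAO)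
  have s1 := connectedComponentIn_subset (G' ∩ (closedBall q (r / 8) ∩ {z | η ≤ infDist z G})) x
  have s2 := mem_connectedComponentIn hxA
  have s3 := sub_hole hU isPreconnected_connectedComponentIn (fun z hz => ⟨hOV (hAO (s1 hz).2),
    fun e => absurd (show η ≤ infDist z G from (s1 hz).2.2)
      (by rw [infDist_zero_of_mem e]; exact not_le.2 hη)⟩) s2 hx.2
  have s4 : connectedComponentIn (G' ∩ (closedBall q (r / 8) ∩ {z | η ≤ infDist z G})) x ⊆
      G' ∩ U ∩ ball (denseSeq ℂ i) (r / 4) := fun z hz => ⟨⟨(s1 hz).1, s3 hz⟩, by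
    have := mem_closedBall.1 (s1 hz).2.1
    rw [mem_ball]
    linarith [dist_triangle z q (denseSeq ℂ i)]⟩
  refine ⟨η, hη, ?_⟩
  by_cases e : dist y q < r / 8
  · have e1 : ball q (r / 8) ∩ {z | η < infDist z G} ⊆
        closedBall q (r / 8) ∩ {z | η ≤ infDist z G} := fun z hz =>
      ⟨ball_subset_closedBall hz.1, show η ≤ infDist z G from le_of_lt hz.2⟩
    have e2 : infDist y G ≤ η := not_lt.1 fun e2 => hy1 (interior_maximal e1
      (isOpen_ball.inter (isOpen_lt continuous_const ci)) ⟨e, e2⟩)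
    have e3 := infDist_le_infDist_add_dist (x := x) (y := y) (s := G)
    refine ⟨η, _, hη, isPreconnected_connectedComponentIn, s4, fun z hz => (s1 hz).2.2, y, hy, x,
      s2, e2, ?_, ?_⟩
    · rw [dist_comm]
      nlinarith
    · nlinarith
  · refine ⟨l, _, hl, isPreconnected_connectedComponentIn, s4, fun z hz => (s1 hz).2.2, x, s2, y,
      hy, hd1, ?_, ?_⟩
    · nlinarith [dist_triangle_left y q x]
    · nlinarith

end Tp

open Tp in
/-- **TOPO** -/
theorem topo : TOPO := by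
  intro V E B W ε hS G G' U hG nG hG' nG' hJ hU hB hE
  by_contra hcon
  have hV := hS.seed.dom
  have hW := hS.dom
  have cG := G.isCompact.isClosed
  have cG' := G'.isCompact.isClosed
  have hWV : W ⊆ V := (hole_sub hS.hole).trans sdiff_subset
  have hK : IsClosed (SWR.KK W (Qs V E W ε) G') := SW905.KK_closed
    ((hW.1.isClosed_compl.union isClosed_cthickening).inter isClosed_closure) nG'.fin hW.2.1
  have nt : ∀ q ∈ V, q ∉ SWR.KK W (Qs V E W ε) G' → q ∈ (G : Set ℂ) →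
      q ∉ closure ((G' : Set ℂ) ∩ U) := fun q a b c d => by
    obtain ⟨z, hz⟩ := (Tree.topo.1 W hW).1.1
    obtain ⟨i, r, h1, h2, h3⟩ := touch cG G'.isCompact hG'.1.2 hU (hV.1.sdiff hK) sdiff_subset
      (fun e => (e (hG'.2.1 hz)).2 (.inl ⟨.inl (hW.1.frontier_eq ▸ hz).2,
        closure_mono hWV (frontier_subset_closure hz)⟩)) ⟨a, b⟩ c d
    exact hcon ⟨i, r, h1, h2.trans sdiff_subset, disjoint_left.2 fun z hz => (h2 hz).2, h3⟩
  have kE : ∀ D, IsHole W G' D → (closure D ∩ Qs V E W ε).Nonempty →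
      (closure D ∩ cthickening ε E).Nonempty := fun D a ⟨w, b, c⟩ =>
    ⟨w, b, c.1.resolve_left (not_not.2 (nG'.inside D a b))⟩
  have hUo := CI.Holes.hole_open hV.1 cG hU
  have hUV := nG.inside U hU
  have hUb : Bornology.IsBounded U := hV.2.1.subset (subset_closure.trans hUV)
  obtain ⟨q, ⟨hq1, hq2⟩, hq3⟩ : ∃ q ∈ closure U ∩ B, q ∉ U := by
    by_contra h
    push Not at h
    obtain ⟨q, hq⟩ := hB
    have := hS.seed.pr.subset_of_closure_inter_subset hUo ⟨q, .inr hq.2, h q hq⟩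
      fun z hz => h z ⟨hz.1, hz.2.resolve_left (not_not.2 (hUV hz.1))⟩
    obtain ⟨z, hz⟩ := nonempty_compl.2 (Tree.Topo.ne_univ hV.2.1)
    exact hz (hUV (subset_closure (this (.inl hz))))
  have hqW := hS.sub ⟨hq2, hUV hq1⟩
  have hqB := self_subset_cthickening (δ := ε) B hq2
  have hqK : q ∉ SWR.KK W (Qs V E W ε) G' := by
    rintro (a | ⟨_, ⟨D, a, b, rfl⟩, c⟩)
    · exact hS.far.notMem_of_mem_left hqB (a.1.resolve_left (not_not.2 hqW))
    · exact hJ ⟨D, a, ⟨q, c, hqB⟩, kE D a b⟩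
  have hqG : q ∈ (G : Set ℂ) := by_contra fun e => hq3 (front hV.1 cG hU hq1 (hUV hq1) e)
  obtain ⟨s, hs, h1⟩ := Metric.isOpen_iff.1
    ((hW.1.inter isClosed_closure.isOpen_compl).inter (isOpen_ball (x := q) (ε := ε))) q
    ⟨⟨hqW, nt q (hUV hq1) hqK hqG⟩, mem_ball_self hS.pos⟩
  obtain ⟨x, hx, hxq⟩ := Metric.mem_closure_iff.1 hq1 (s / 2) (by positivity)
  have hd : 0 < infDist x Uᶜ :=
    (hUo.isClosed_compl.notMem_iff_infDist_pos ⟨q, hq3⟩).1 (not_not.2 hx)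
  have hd1 : infDist x Uᶜ ≤ dist x q := infDist_le_dist_of_mem hq3
  rw [dist_comm] at hxq
  have b1 : ball x (infDist x Uᶜ) ⊆ ball q s := ball_subset_ball' (by linarith)
  have b2 : ball x (infDist x Uᶜ) ⊆ W \ G' := fun z hz => ⟨(h1 (b1 hz)).1.1, fun e =>
    (h1 (b1 hz)).1.2 (subset_closure ⟨e, ball_infDist_compl_subset hz⟩)⟩
  have hxx := mem_ball_self (x := x) hd
  obtain ⟨D, hD, hxD⟩ : ∃ D, IsHole W G' D ∧ x ∈ D :=
    ⟨_, ⟨x, b2 hxx, rfl⟩, mem_connectedComponentIn (b2 hxx)⟩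
  obtain ⟨p, hp, hp1⟩ := hUo.isClosed_compl.exists_infDist_eq_dist ⟨q, hq3⟩ x
  have hpD : p ∈ closure D := by
    refine closure_mono (sub_hole hD (convex_ball _ _).isPreconnected b2 hxx hxD) ?_
    rw [closure_ball x hd.ne', mem_closedBall, dist_comm, hp1]
  have hxB : (closure D ∩ cthickening ε B).Nonempty := ⟨x, subset_closure hxD,
    mem_cthickening_of_dist_le x q ε B hq2 (mem_ball.1 (h1 (b1 hxx)).2).le⟩
  have hDK : ∀ z ∈ closure D, z ∉ SWR.KK W (Qs V E W ε) G' := by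
    rintro z hz (a | ⟨_, ⟨D', a, b, rfl⟩, c⟩)
    · exact hJ ⟨D, hD, hxB, kE D hD ⟨z, hz, a⟩⟩
    · by_cases e : D = D'
      · exact hJ ⟨D, hD, hxB, kE D hD (e ▸ b)⟩
      · exact (nG'.disj D D' hD a e).notMem_of_mem_left hz c
  have dD := Tree.topo.2.2 W G' hW.1 hW.2.1 hG' D hD
  have fD := dD.1.frontier_eq
  have fG : frontier D ⊆ G' := fun z hz => by
    rw [fD] at hz
    exact by_contra fun e => hz.2 (front hW.1 cG' hD hz.1 (nG'.inside D hD hz.1) e)
  by_cases hT : (frontier D ∩ U).Nonempty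
  · have t1 : frontier D ⊆ U := by
      have t2 : ∀ z ∈ frontier D, z ∈ closure ((G' : Set ℂ) ∩ U) → z ∈ U := fun z a b => by
        have c := closure_mono inter_subset_right b
        exact front hV.1 cG hU c (hUV c) fun e =>
          nt z (hUV c) (hDK z (frontier_subset_closure a)) e b
      intro z hz
      by_contra e
      obtain ⟨w, a, b, c⟩ := (Tree.topo.1 D dD).1.2 _ _ hUo
        (isClosed_closure (s := (G' : Set ℂ) ∩ U)).isOpen_compl
        (fun w a => (em _).imp (t2 w a) id) hT ⟨z, hz, fun b => e (t2 z hz b)⟩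
      exact c (subset_closure ⟨fG a, b⟩)
    have t3 : closure D ∩ Uᶜ ⊆ D := fun z hz => by_contra fun e => hz.2 (t1 (fD ▸ ⟨hz.1, e⟩))
    have t4 := (Tree.topo.1 U (Tree.topo.2.2 V G hV.1 hV.2.1 hG U hU)).2.1
      |>.subset_of_closure_inter_subset dD.1 ⟨p, hp, t3 ⟨hpD, hp⟩⟩ t3
    exact Tree.Topo.ne_univ (hUb.union dD.2.1) (eq_univ_of_forall fun z => (em _).imp id (@t4 z))
  · have t1 := (hole_conn hU).2.subset_of_closure_inter_subset dD.1 ⟨x, hx, hxD⟩
      fun z hz => by_contra fun e => hT ⟨z, fD ▸ ⟨hz.1, e⟩, hz.2⟩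
    exact hJ ⟨D, hD, hxB, hE.mono (inter_subset_inter_left _ (closure_mono t1))⟩

end Vale.Agent.P155.SG
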