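import Vale.Agent.P155SG.All
import Vale.Agent.P155SG.Tm
import Vale.Agent.P155SG.Topo

/-!
# P155, block (G): the lower bound for the loop mass
-/

set_option linter.all false

namespace Vale.Agent.P155.SG

theorem mgec : Soup.MGEc := mgec_of tm topo

end Vale.Agent.P155.SG
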