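import Vale.Agent.P155.U.Hil
import Vale.Agent.P155.U.ExtFub
import Vale.Agent.P155.U.ExtGreen

/-!
# P155, flux lemma, part 1: length and area, truncation, products, the equilibrium potential
-/

namespace Vale.Agent.P155.Soup.Fx

open MeasureTheory Set Metric Vale.Agent.P155.Uq Vale.Agent.P155.U
open scoped ContDiff

/-- length and area on one circle -/
theorem circ_energy {w : ℂ → ℝ} (hw : ContDiff ℝ 1 w) (p : ℂ) {t : ℝ} (ht : 0 < t) {z1 z2 : ℂ}
    (h1 : dist z1 p = t) (h2 : dist z2 p = t) (e1 : w z1 = 0) (e2 : 1 ≤ w z2) :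
    (2 * Real.pi)⁻¹ * t⁻¹ ≤ ∫ α in (-Real.pi)..Real.pi, t * ‖fderiv ℝ w (pp p t α)‖ ^ 2 := by
  have hpi := Real.pi_pos
  obtain ⟨θ, hθ, hz⟩ := exists_pp h2
  have h3 := circ_le hw p ht.le h1 e1 hθ
  rw [hz] at h3
  have h4 : 1 ≤ ∫ α in (-Real.pi)..Real.pi, t * ‖fderiv ℝ w (pp p t α)‖ :=
    (e2.trans (le_abs_self _)).trans h3
  have hc1 : Continuous (fun α : ℝ => pp p t α) :=
    (continuous_pp p).comp (Continuous.prodMk_right t)
  have hc : Continuous (fun α : ℝ => ‖fderiv ℝ w (pp p t α)‖) :=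
    ((hw.continuous_fderiv (by norm_num)).comp hc1).norm
  have h5 : ∫ α in (-Real.pi)..Real.pi, t * ‖fderiv ℝ w (pp p t α)‖ ≤
      ∫ α in (-Real.pi)..Real.pi,
        ((4 * Real.pi)⁻¹ + Real.pi * t * (t * ‖fderiv ℝ w (pp p t α)‖ ^ 2)) := by
    apply intervalIntegral.integral_mono_on (by linarith)
      ((continuous_const.mul hc).intervalIntegrable _ _)
      ((continuous_const.add (continuous_const.mul
        (continuous_const.mul (hc.pow 2)))).intervalIntegrable _ _)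
    intro α _
    show t * ‖fderiv ℝ w (pp p t α)‖ ≤
      (4 * Real.pi)⁻¹ + Real.pi * t * (t * ‖fderiv ℝ w (pp p t α)‖ ^ 2)
    set x := t * ‖fderiv ℝ w (pp p t α)‖ with hx
    have e : Real.pi * t * (t * ‖fderiv ℝ w (pp p t α)‖ ^ 2) = Real.pi * x ^ 2 := by
      rw [hx]; ring
    rw [e]
    have h6 : 0 ≤ Real.pi * (x - (2 * Real.pi)⁻¹) ^ 2 := by positivity
    have h7 : Real.pi * (x - (2 * Real.pi)⁻¹) ^ 2 = Real.pi * x ^ 2 - x + (4 * Real.pi)⁻¹ := by
      field_simp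
      ring
    linarith
  have hc2 : Continuous (fun α : ℝ => Real.pi * t * (t * ‖fderiv ℝ w (pp p t α)‖ ^ 2)) :=
    continuous_const.mul (continuous_const.mul (hc.pow 2))
  rw [intervalIntegral.integral_add (continuous_const.intervalIntegrable _ _)
    (hc2.intervalIntegrable _ _),
    intervalIntegral.integral_const, intervalIntegral.integral_const_mul (Real.pi * t)] at h5
  set E := ∫ α in (-Real.pi)..Real.pi, t * ‖fderiv ℝ w (pp p t α)‖ ^ 2 with hE
  have h8 : (Real.pi - -Real.pi) • (4 * Real.pi)⁻¹ = 1 / 2 := by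
    rw [smul_eq_mul]
    field_simp
    ring
  rw [h8] at h5
  have h9 : 1 / 2 ≤ Real.pi * t * E := by linarith
  have h10 : (2 * Real.pi)⁻¹ * t⁻¹ = (1 / 2) / (Real.pi * t) := by
    field_simp
  rw [h10, div_le_iff₀ (by positivity)]
  linarith

/-- length and area in an annulus -/
theorem ann_energy {U : Set ℂ} {w : ℂ → ℝ} (hw : IsTest U w) (p : ℂ) {a b : ℝ} (ha : 0 < a)
    (hab : a ≤ b) (h : ∀ t ∈ Icc a b, (∃ z, dist z p = t ∧ w z = 0) ∧ ∃ z, dist z p = t ∧ 1 ≤ w z) :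
    Real.log (b / a) / (2 * Real.pi) ≤ ‖gr w‖ ^ 2 := by
  have hb : 0 < b := ha.trans_le hab
  have h1 := ball_energy (test_c1 hw) p hb.le ha.le hab le_rfl
  have h2 : ∫ z in ball p b, ‖fderiv ℝ w z‖ ^ 2 ≤ ∫ z, ‖fderiv ℝ w z‖ ^ 2 :=
    setIntegral_le_integral (test_sq hw) (Filter.Eventually.of_forall fun z => sq_nonneg _)
  have hc : Continuous (fun t => ∫ α in (-Real.pi)..Real.pi, t * ‖fderiv ℝ w (pp p t α)‖ ^ 2) :=
    continuous_inner (g := fun t α => t * ‖fderiv ℝ w (pp p t α)‖ ^ 2)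
      (continuous_fst.mul ((continuous_G (test_c1 hw) p).pow 2)) _ _
  have h3 : ∫ t in a..b, (2 * Real.pi)⁻¹ * t⁻¹ ≤
      ∫ t in a..b, ∫ α in (-Real.pi)..Real.pi, t * ‖fderiv ℝ w (pp p t α)‖ ^ 2 := by
    apply intervalIntegral.integral_mono_on hab _ (hc.intervalIntegrable _ _)
    · intro t ht
      obtain ⟨⟨z1, h1, e1⟩, z2, h2, e2⟩ := h t ht
      exact circ_energy (test_c1 hw) p (ha.trans_le ht.1) h1 h2 e1 e2
    · apply ContinuousOn.intervalIntegrable
      apply continuousOn_const.mul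
      apply continuousOn_inv₀.mono
      intro t ht
      rw [uIcc_of_le hab] at ht
      exact (ha.trans_le ht.1).ne'
  rw [intervalIntegral.integral_const_mul, integral_inv_of_pos ha hb] at h3
  rw [norm_gr hw, div_eq_inv_mul]
  linarith

/-- a smooth truncation -/
theorem exists_trunc : ∃ F : ℝ → ℝ, ContDiff ℝ ∞ F ∧ F 0 = 0 ∧ (∀ t, |deriv F t| ≤ 1) ∧
    (∀ t, 1 ≤ t → 1 ≤ F t) ∧ ∀ t, |F t| ≤ 2 := by
  let β : ContDiffBump (0 : ℝ) := ⟨1, 2, by norm_num, by norm_num⟩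
  have hβ : ContDiff ℝ ∞ β := β.contDiff
  have hd : ∀ t, HasDerivAt (fun t => ∫ x in (0 : ℝ)..t, β x) (β t) t := fun t =>
    intervalIntegral.integral_hasDerivAt_right (hβ.continuous.intervalIntegrable _ _)
      (hβ.continuous.stronglyMeasurableAtFilter _ _) hβ.continuous.continuousAt
  have hde : deriv (fun t => ∫ x in (0 : ℝ)..t, β x) = β := funext fun t => (hd t).deriv
  have hi : ∀ a b : ℝ, IntervalIntegrable β volume a b := fun a b =>
    hβ.continuous.intervalIntegrable _ _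
  have hnn : ∀ a b : ℝ, a ≤ b → 0 ≤ ∫ x in a..b, β x := fun a b h =>
    intervalIntegral.integral_nonneg h fun x _ => β.nonneg
  have hle : ∀ a b : ℝ, a ≤ b → ∫ x in a..b, β x ≤ b - a := by
    intro a b h
    have := intervalIntegral.integral_mono_on h (hi a b)
      (continuous_const.intervalIntegrable (μ := volume) (u := fun _ => (1 : ℝ)) a b)
      (fun x _ => β.le_one)
    simpa using this
  have hz : ∀ a b : ℝ, a ≤ b → (b ≤ -2 ∨ 2 ≤ a) → ∫ x in a..b, β x = 0 := by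
    intro a b h h'
    rw [intervalIntegral.integral_congr (g := fun _ => (0 : ℝ))]
    · simp
    · intro x hx
      rw [uIcc_of_le h] at hx
      apply β.zero_of_le_dist
      show (2 : ℝ) ≤ dist x 0
      rw [dist_zero_right, Real.norm_eq_abs]
      rcases h' with h' | h'
      · rw [abs_of_neg (by linarith [hx.2])]
        linarith [hx.2]
      · rw [abs_of_pos (by linarith [hx.1])]
        linarith [hx.1]
  refine ⟨fun t => ∫ x in (0 : ℝ)..t, β x, ?_, by simp, ?_, ?_, ?_⟩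
  · rw [contDiff_infty_iff_deriv]
    refine ⟨fun t => (hd t).differentiableAt, ?_⟩
    rw [hde]
    exact hβ
  · intro t
    rw [hde, abs_of_nonneg β.nonneg]
    exact β.le_one
  · intro t ht
    have h1 : ∫ x in (0 : ℝ)..1, β x = 1 := by
      rw [intervalIntegral.integral_congr (g := fun _ => (1 : ℝ))]
      · simp
      · intro x hx
        rw [uIcc_of_le zero_le_one] at hx
        apply β.one_of_mem_closedBall
        show dist x 0 ≤ (1 : ℝ)
        rw [dist_zero_right, Real.norm_eq_abs, abs_of_nonneg hx.1]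
        exact hx.2
    have h2 := intervalIntegral.integral_add_adjacent_intervals (hi 0 1) (hi 1 t)
    have h3 := hnn 1 t ht
    show 1 ≤ ∫ x in (0 : ℝ)..t, β x
    linarith
  · intro t
    show |∫ x in (0 : ℝ)..t, β x| ≤ 2
    rw [abs_le]
    rcases le_total 0 t with h | h
    · have h0 := hnn 0 t h
      refine ⟨by linarith, ?_⟩
      rcases le_total t 2 with h' | h'
      · linarith [hle 0 t h]
      · have h2 := intervalIntegral.integral_add_adjacent_intervals (hi 0 2) (hi 2 t)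
        linarith [hz 2 t h' (Or.inr le_rfl), hle 0 2 (by norm_num)]
    · rw [intervalIntegral.integral_symm]
      have h0 := hnn t 0 h
      refine ⟨?_, by linarith⟩
      rcases le_total t (-2) with h' | h'
      · have h2 := intervalIntegral.integral_add_adjacent_intervals (hi t (-2)) (hi (-2) 0)
        linarith [hz t (-2) h' (Or.inl le_rfl), hle (-2) 0 (by norm_num)]
      · linarith [hle t 0 h]

theorem test_comp {U : Set ℂ} {v : ℂ → ℝ} (hv : IsTest U v) {F : ℝ → ℝ} (hF : ContDiff ℝ ∞ F)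
    (h0 : F 0 = 0) : IsTest U (fun z => F (v z)) := by
  have hs : tsupport (fun z => F (v z)) ⊆ tsupport v := by
    apply closure_mono
    intro z hz hv0
    apply hz
    show F (v z) = 0
    rw [hv0, h0]
  exact ⟨hF.comp hv.1, hv.2.1.isCompact.of_isClosed_subset (isClosed_tsupport _) hs,
    hs.trans hv.2.2⟩

theorem norm_comp_le {U : Set ℂ} {v : ℂ → ℝ} (hv : IsTest U v) {F : ℝ → ℝ} (hF : ContDiff ℝ ∞ F)
    (h0 : F 0 = 0) (h1 : ∀ t, |deriv F t| ≤ 1) : ‖gr (fun z => F (v z))‖ ≤ ‖gr v‖ := by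
  have hc := test_comp hv hF h0
  apply le_of_sq_le_sq _ (norm_nonneg _) |>.trans le_rfl
  rw [norm_gr hc, norm_gr hv]
  apply integral_mono (test_sq hc) (test_sq hv)
  intro z
  have hd : HasFDerivAt (fun z => F (v z)) (deriv F (v z) • fderiv ℝ v z) z :=
    ((hF.differentiable (by norm_num) (v z)).hasDerivAt).comp_hasFDerivAt z
      (hv.1.differentiable (by norm_num) z).hasFDerivAt
  show ‖fderiv ℝ (fun z => F (v z)) z‖ ^ 2 ≤ ‖fderiv ℝ v z‖ ^ 2
  rw [hd.fderiv, norm_smul, Real.norm_eq_abs]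
  apply pow_le_pow_left₀ (by positivity)
  exact mul_le_of_le_one_left (norm_nonneg _) (h1 _)

theorem test_mul {U : Set ℂ} {v c : ℂ → ℝ} (hv : IsTest U v) (hc : ContDiff ℝ ∞ c) :
    IsTest U (fun z => c z * v z) := by
  have hs : tsupport (fun z => c z * v z) ⊆ tsupport v := by
    apply closure_mono
    intro z hz hv0
    apply hz
    show c z * v z = 0
    rw [hv0, mul_zero]
  exact ⟨hc.mul hv.1, hv.2.1.isCompact.of_isClosed_subset (isClosed_tsupport _) hs,
    hs.trans hv.2.2⟩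

theorem fderiv_mul' {v c : ℂ → ℝ} (hv : ContDiff ℝ ∞ v) (hc : ContDiff ℝ ∞ c) (z : ℂ) :
    fderiv ℝ (fun z => c z * v z) z = c z • fderiv ℝ v z + v z • fderiv ℝ c z :=
  fderiv_fun_mul (hc.differentiable (by norm_num) z) (hv.differentiable (by norm_num) z)

/-- pointwise product bound -/
theorem prod_sq_le {v c : ℂ → ℝ} (hv : ContDiff ℝ ∞ v) (hc : ContDiff ℝ ∞ c) (z : ℂ)
    (h1 : |c z| ≤ 1) :
    ‖fderiv ℝ (fun z => c z * v z) z‖ ^ 2 ≤
      2 * ‖fderiv ℝ v z‖ ^ 2 + 2 * (v z ^ 2 * ‖fderiv ℝ c z‖ ^ 2) := by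
  rw [fderiv_mul' hv hc]
  have h2 := norm_add_le (c z • fderiv ℝ v z) (v z • fderiv ℝ c z)
  rw [norm_smul, norm_smul, Real.norm_eq_abs, Real.norm_eq_abs] at h2
  have h3 : |c z| * ‖fderiv ℝ v z‖ ≤ ‖fderiv ℝ v z‖ := mul_le_of_le_one_left (norm_nonneg _) h1
  have h4 : ‖c z • fderiv ℝ v z + v z • fderiv ℝ c z‖ ^ 2 ≤
      (‖fderiv ℝ v z‖ + |v z| * ‖fderiv ℝ c z‖) ^ 2 :=
    pow_le_pow_left₀ (norm_nonneg _) (by linarith) 2
  have h5 : v z ^ 2 = |v z| ^ 2 := (sq_abs _).symm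
  rw [h5]
  nlinarith [sq_nonneg (‖fderiv ℝ v z‖ - |v z| * ‖fderiv ℝ c z‖)]

/-- cutoff functions -/
theorem exists_cut {U T : Set ℂ} (hU : IsOpen U) (hT : IsCompact T) (hTU : T ⊆ U) :
    ∃ c : ℂ → ℝ, IsTest U c ∧ (∀ z ∈ T, c z = 1) ∧ ∀ z, 0 ≤ c z ∧ c z ≤ 1 := by
  obtain ⟨L, hL, hKL, hLU⟩ := exists_compact_between hT hU hTU
  obtain ⟨χ, h1, h0, h2⟩ := exists_contMDiffMap_one_nhds_of_subset_interior
    (modelWithCornersSelf ℝ ℂ) (n := (⊤ : ℕ∞)) hT.isClosed hKL
  have hs : tsupport (χ : ℂ → ℝ) ⊆ L := by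
    apply closure_minimal _ hL.isClosed
    intro z hz
    by_contra h
    exact hz (h0 z h)
  exact ⟨χ, ⟨χ.contMDiff.contDiff, hL.of_isClosed_subset (isClosed_tsupport _) hs, hs.trans hLU⟩,
    fun z hz => h1.self_of_nhdsSet z hz, fun z => h2 z⟩

/-- the equilibrium potential of a compact set -/
theorem exists_equil {U T : Set ℂ} (hU : IsOpen U) (hT : IsCompact T) (hTU : T ⊆ U) :
    ∃ r : HL, (∀ ψ, IsTest U ψ → (∀ z ∈ T, 0 ≤ ψ z) → 0 ≤ inner ℝ r (gr ψ)) ∧
      ∀ δ : ℝ, 0 < δ → ∃ w, IsTest U w ∧ (∀ z ∈ T, 1 ≤ w z) ∧ (∀ z, |w z| ≤ 2) ∧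
        ‖gr w - r‖ < δ := by
  set A : Set HL := {g | ∃ v, IsTest U v ∧ (∀ z ∈ T, 1 ≤ v z) ∧ g = gr v} with hA
  have hne : A.Nonempty := by
    obtain ⟨f, h1, h2, -⟩ := exists_cut hU hT hTU
    exact ⟨_, f, h1, fun z hz => (h2 z hz).ge, rfl⟩
  have hconv : Convex ℝ A := by
    rintro _ ⟨v, hv, hv1, rfl⟩ _ ⟨w, hw, hw1, rfl⟩ s t hs ht hst
    refine ⟨fun z => s * v z + t * w z, test_comb hv hw s t, ?_, (gr_comb hv hw s t).symm⟩
    intro z hz
    have := hv1 z hz
    have := hw1 z hz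
    show 1 ≤ s * v z + t * w z
    nlinarith
  obtain ⟨r, hr, hmin⟩ := exists_norm_eq_iInf_of_complete_convex (hne.closure)
    isClosed_closure.isComplete hconv.closure 0
  rw [norm_eq_iInf_iff_real_inner_le_zero hconv.closure hr] at hmin
  have hin : ∀ g ∈ closure A, ‖r‖ ^ 2 ≤ inner ℝ r g := by
    intro g hg
    have := hmin g hg
    rw [zero_sub, inner_neg_left, inner_sub_right, real_inner_self_eq_norm_sq] at this
    linarith
  refine ⟨r, ?_, ?_⟩
  · intro ψ hψ h0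
    have h1 : r + gr ψ ∈ closure A := by
      apply map_mem_closure (f := fun g : HL => g + gr ψ) (continuous_id.add continuous_const) hr
      rintro _ ⟨v, hv, hv1, rfl⟩
      refine ⟨fun z => 1 * v z + 1 * ψ z, test_comb hv hψ 1 1, ?_, ?_⟩
      · intro z hz
        have := hv1 z hz
        have := h0 z hz
        show 1 ≤ 1 * v z + 1 * ψ z
        linarith
      · rw [gr_comb hv hψ, one_smul, one_smul]
    have h2 := hin _ h1
    rw [inner_add_right, real_inner_self_eq_norm_sq] at h2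
    linarith
  · intro δ hδ
    obtain ⟨F, hF, h0, h1, h2, h3⟩ := exists_trunc
    set e := min 1 (δ ^ 2 / (2 * (2 * ‖r‖ + 1))) with he
    have hepos : 0 < e := lt_min one_pos (by positivity)
    obtain ⟨_, ⟨v, hv, hv1, rfl⟩, hd⟩ := Metric.mem_closure_iff.1 hr e hepos
    refine ⟨fun z => F (v z), test_comp hv hF h0, fun z hz => h2 _ (hv1 z hz), fun z => h3 _, ?_⟩
    set g := gr (fun z => F (v z)) with hg
    have hgA : g ∈ closure A :=
      subset_closure ⟨_, test_comp hv hF h0, fun z hz => h2 _ (hv1 z hz), rfl⟩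
    have h4 := hin g hgA
    have h5 : ‖g‖ ≤ ‖r‖ + e := by
      have h6 := norm_comp_le hv hF h0 h1
      have h7 : ‖gr v‖ ≤ ‖r‖ + ‖gr v - r‖ := by
        have := norm_add_le r (gr v - r)
        rwa [add_sub_cancel] at this
      rw [dist_comm, dist_eq_norm] at hd
      linarith
    apply lt_of_pow_lt_pow_left₀ 2 hδ.le
    rw [norm_sub_sq_real, real_inner_comm]
    have h8 : ‖g‖ ^ 2 ≤ (‖r‖ + e) ^ 2 := pow_le_pow_left₀ (norm_nonneg _) h5 2
    have h9 : e ≤ 1 := min_le_left _ _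
    have h10 : e * (2 * (2 * ‖r‖ + 1)) ≤ δ ^ 2 := by
      have := min_le_right 1 (δ ^ 2 / (2 * (2 * ‖r‖ + 1)))
      rwa [← he, le_div_iff₀ (by positivity)] at this
    have h11 := norm_nonneg r
    nlinarith

end Vale.Agent.P155.Soup.Fx
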