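import Vale.Agent.P155SG.Fx1

/-!
# P155, flux lemma, part 2: positive functionals are limits of positive charges
-/

namespace Vale.Agent.P155.Soup.Fx

open MeasureTheory Set Metric Vale.Agent.P155.Uq Vale.Agent.P155.U
open scoped ContDiff Convolution

theorem test_univ {U : Set ℂ} {v : ℂ → ℝ} (hv : IsTest U v) : IsTest univ v :=
  ⟨hv.1, hv.2.1, subset_univ _⟩

theorem test_shift {U : Set ℂ} {v : ℂ → ℝ} (hv : IsTest U v) (a : ℂ) :
    IsTest univ (fun z => v (z + a)) :=
  ⟨hv.1.comp (contDiff_id.add contDiff_const),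
    hv.2.1.comp_homeomorph (Homeomorph.addRight a), subset_univ _⟩

theorem norm_shift {U : Set ℂ} {v : ℂ → ℝ} (hv : IsTest U v) (a : ℂ) :
    ‖gr (fun z => v (z + a))‖ = ‖gr v‖ := by
  have h : ‖gr (fun z => v (z + a))‖ ^ 2 = ‖gr v‖ ^ 2 := by
    rw [norm_gr (test_shift hv a), norm_gr hv,
      ← integral_add_right_eq_self (fun z => ‖fderiv ℝ v z‖ ^ 2) a]
    congr 1
    funext z
    rw [fderiv_comp_add_right]
  exact (pow_left_inj₀ (norm_nonneg _) (norm_nonneg _) two_ne_zero).1 h

theorem inner_nlap {U U' : Set ℂ} {v w : ℂ → ℝ} (hv : IsTest U v) (hw : IsTest U' w) :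
    inner ℝ (gr v) (gr w) = ∫ z, nlap v z * w z := by
  rw [inner_gr hv hw]
  exact (negLap_nlap hv w (test_univ hw)).symm

/-- multiplication by a cutoff function is bounded -/
theorem cut_bound {U U' : Set ℂ} (hb : Bornology.IsBounded U) {c : ℂ → ℝ} (hc : IsTest U' c)
    (h1 : ∀ z, |c z| ≤ 1) : ∃ K : ℝ, 0 < K ∧ ∀ v, IsTest U v →
      ‖gr (fun z => c z * v z)‖ ≤ K * ‖gr v‖ := by
  obtain ⟨C, hC, hP⟩ := poinc_sq hb
  obtain ⟨M, hM⟩ := (hc.2.1.fderiv (𝕜 := ℝ)).exists_bound_of_continuous
    ((test_c1 hc).continuous_fderiv (by norm_num))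
  refine ⟨Real.sqrt (2 + 2 * (M ^ 2 * C)), Real.sqrt_pos.2 (by positivity), fun v hv => ?_⟩
  apply le_of_sq_le_sq _ (by positivity) |>.trans le_rfl
  have hv2 : Integrable (fun z => v z ^ 2) :=
    (hv.1.continuous.memLp_of_hasCompactSupport hv.2.1 : MemLp v 2 volume).integrable_sq
  rw [mul_pow, Real.sq_sqrt (by positivity), norm_gr (test_mul hv hc.1), norm_gr hv]
  have h2 : ∫ z, ‖fderiv ℝ (fun z => c z * v z) z‖ ^ 2 ≤
      ∫ z, (2 * ‖fderiv ℝ v z‖ ^ 2 + 2 * M ^ 2 * v z ^ 2) := by
    apply integral_mono (test_sq (test_mul hv hc.1))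
      (((test_sq hv).const_mul _).add (hv2.const_mul _))
    intro z
    have h3 := prod_sq_le hv.1 hc.1 z (h1 z)
    have h4 : ‖fderiv ℝ c z‖ ^ 2 ≤ M ^ 2 := pow_le_pow_left₀ (norm_nonneg _) (hM z) 2
    have h5 := mul_le_mul_of_nonneg_left h4 (sq_nonneg (v z))
    show ‖fderiv ℝ (fun z => c z * v z) z‖ ^ 2 ≤ 2 * ‖fderiv ℝ v z‖ ^ 2 + 2 * M ^ 2 * v z ^ 2
    nlinarith
  rw [integral_add ((test_sq hv).const_mul _) (hv2.const_mul _), integral_const_mul,
    integral_const_mul] at h2
  have h6 := mul_le_mul_of_nonneg_left (hP v hv) (show 0 ≤ 2 * M ^ 2 by positivity)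
  nlinarith

theorem l1_bound {U : Set ℂ} (hb : Bornology.IsBounded U) : ∃ K : ℝ, 0 < K ∧ ∀ v, IsTest U v →
    ∫ z, |v z| ≤ K * ‖gr v‖ := by
  obtain ⟨r, hr, hU⟩ := hb.subset_ball_lt 0 0
  refine ⟨Real.sqrt (160 * r ^ 4), Real.sqrt_pos.2 (by positivity), fun v hv => ?_⟩
  apply le_of_sq_le_sq _ (by positivity) |>.trans le_rfl
  rw [mul_pow, Real.sq_sqrt (by positivity), norm_gr hv]
  exact l1_sq_le hr hU hv

/-- the exchange of integrals -/
theorem swap_conv {ρ g w : ℂ → ℝ} (hρ : Continuous ρ) (hρc : HasCompactSupport ρ)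
    (hg : Continuous g) (hw : Continuous w) (hwc : HasCompactSupport w) :
    Integrable (fun z => ρ z * ∫ y, g y * w (y + z)) ∧
    ∫ x, (∫ z, ρ z * g (x - z)) * w x = ∫ z, ρ z * ∫ y, g y * w (y + z) := by
  have hint : Integrable (Function.uncurry fun x z : ℂ => ρ z * g (x - z) * w x)
      (volume.prod volume) := by
    apply Continuous.integrable_of_hasCompactSupport
    · exact ((hρ.comp continuous_snd).mul (hg.comp (continuous_fst.sub continuous_snd))).mul
        (hw.comp continuous_fst)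
    · refine HasCompactSupport.intro (hwc.isCompact.prod hρc.isCompact) ?_
      rintro ⟨x, z⟩ h
      rw [mem_prod, not_and_or] at h
      show ρ z * g (x - z) * w x = 0
      rcases h with h | h
      · rw [image_eq_zero_of_notMem_tsupport h, mul_zero]
      · rw [image_eq_zero_of_notMem_tsupport h, zero_mul, zero_mul]
  have e : ∀ z, ∫ x, ρ z * g (x - z) * w x = ρ z * ∫ y, g y * w (y + z) := by
    intro z
    rw [← integral_const_mul, ← integral_add_right_eq_self (fun x => ρ z * g (x - z) * w x) z]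
    congr 1
    funext y
    rw [add_sub_cancel_right, mul_assoc]
  refine ⟨?_, ?_⟩
  · have := hint.integral_prod_right
    refine this.congr (Filter.Eventually.of_forall fun z => ?_)
    exact e z
  · have h1 := integral_integral_swap hint
    simp only [e] at h1
    rw [← h1]
    congr 1
    funext x
    rw [← integral_mul_const]

/-- **positive functionals are limits of positive charges** -/
theorem approx {U O T : Set ℂ} (hU : IsOpen U) (hb : Bornology.IsBounded U) (hO : IsOpen O)
    (hT : IsCompact T) (hTO : T ⊆ O) (hOU : O ⊆ U) {r : HL}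
    (hpos : ∀ ψ, IsTest U ψ → (∀ z ∈ T, 0 ≤ ψ z) → 0 ≤ inner ℝ r (gr ψ))
    (hap : ∀ δ : ℝ, 0 < δ → ∃ w, IsTest U w ∧ ‖gr w - r‖ < δ) {ε : ℝ} (hε : 0 < ε) :
    ∃ f, IsTest O f ∧ (∀ z, 0 ≤ f z) ∧
      ∀ v, IsTest U v → |(∫ z, f z * v z) - inner ℝ r (gr v)| ≤ ε * ‖gr v‖ := by
  obtain ⟨c, hc, hc1, hc2⟩ := exists_cut hO hT hTO
  have hca : ∀ z, |c z| ≤ 1 := fun z => abs_le.2 ⟨by linarith [(hc2 z).1], (hc2 z).2⟩
  obtain ⟨K, hK, hKb⟩ := cut_bound hb hc hca
  obtain ⟨K1, hK1, hK1b⟩ := l1_bound hb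
  obtain ⟨e0, he0, hth⟩ := hc.2.1.isCompact.exists_cthickening_subset_open hU (hc.2.2.trans hOU)
  set δ := ε / (8 * K) with hδ
  have hδ0 : 0 < δ := by positivity
  set η := ε / (4 * K1) with hη
  have hη0 : 0 < η := by positivity
  obtain ⟨u, hu, hur⟩ := hap δ hδ0
  have hgu : UniformContinuous (nlap u) :=
    (isTest_nlap hu).2.1.uniformContinuous_of_continuous (isTest_nlap hu).1.continuous
  obtain ⟨e1, he1, hunif⟩ := Metric.uniformContinuous_iff.1 hgu η hη0
  set e := min e0 e1 with he
  have hepos : 0 < e := lt_min he0 he1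
  let β : ContDiffBump (0 : ℂ) := ⟨e / 2, e, by positivity, by linarith⟩
  set ρ : ℂ → ℝ := β.normed volume with hρ
  have hρt : IsTest univ ρ := ⟨β.contDiff_normed, β.hasCompactSupport_normed, subset_univ _⟩
  set N := ‖gr ρ‖ with hN
  have hN0 : 0 ≤ N := norm_nonneg _
  obtain ⟨w, hw, hwr⟩ := hap (min δ (η / (N + 1))) (lt_min hδ0 (by positivity))
  set d := ‖gr w - r‖ * N with hd
  have hd0 : 0 ≤ d := by positivity
  have hdη : d ≤ η := by
    have h1 : ‖gr w - r‖ ≤ η / (N + 1) := hwr.le.trans (min_le_right _ _)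
    rw [le_div_iff₀ (by positivity)] at h1
    nlinarith [norm_nonneg (gr w - r)]
  have hwδ : ‖gr w - r‖ < δ := hwr.trans_le (min_le_left _ _)
  set g := nlap w with hg
  have hgt : IsTest U g := isTest_nlap hw
  set F : ℂ → ℝ := fun x => ∫ z, ρ z * g (x - z) with hF
  have hFc : ContDiff ℝ ∞ F := by
    have := hgt.2.1.contDiff_convolution_right (n := (⊤ : ℕ∞)) (μ := volume)
      (ContinuousLinearMap.mul ℝ ℝ) hρt.1.continuous.locallyIntegrable hgt.1
    exact this
  have hFx : ∀ x, F x = inner ℝ (gr w) (gr fun y => ρ (y + -x)) := by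
    intro x
    rw [inner_nlap hw (test_shift hρt (-x))]
    have h1 : F x = (ρ ⋆[ContinuousLinearMap.mul ℝ ℝ, volume] g) x := rfl
    rw [h1, convolution_mul_swap]
    congr 1
    funext y
    rw [mul_comm, ← hg]
    congr 1
    have := β.normed_neg (μ := volume) (y + -x)
    rw [hρ, ← this]
    congr 1
    ring
  have hFd : ∀ x ∈ tsupport c, 0 ≤ F x + d := by
    intro x hx
    have ht : IsTest U fun y => ρ (y + -x) := by
      refine ⟨(test_shift hρt (-x)).1, (test_shift hρt (-x)).2.1, ?_⟩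
      refine subset_trans ?_ ((closedBall_subset_cthickening hx e0).trans hth)
      apply closure_minimal _ isClosed_closedBall
      intro y hy
      have h1 : y + -x ∈ Function.support (β.normed volume) := hy
      rw [β.support_normed_eq, mem_ball, dist_zero_right] at h1
      rw [mem_closedBall, dist_eq_norm, sub_eq_add_neg]
      exact h1.le.trans (min_le_left _ _)
    have h2 := hpos _ ht fun z _ => β.nonneg_normed _
    have h3 := abs_real_inner_le_norm (gr w - r) (gr fun y => ρ (y + -x))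
    rw [norm_shift hρt, inner_sub_left, ← hFx] at h3
    have h4 := neg_abs_le (F x - inner ℝ r (gr fun y => ρ (y + -x)))
    linarith
  refine ⟨fun x => (F x + d) * c x, test_mul hc (hFc.add contDiff_const), ?_, ?_⟩
  · intro z
    by_cases hz : z ∈ tsupport c
    · exact mul_nonneg (hFd z hz) (hc2 z).1
    · show 0 ≤ (F z + d) * c z
      rw [image_eq_zero_of_notMem_tsupport hz, mul_zero]
  intro v hv
  set W : ℂ → ℝ := fun z => c z * v z with hW
  have hWt : IsTest U W := test_mul hv hc.1
  have hW1 : ‖gr W‖ ≤ K * ‖gr v‖ := hKb v hv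
  have hW2 : ∫ z, |W z| ≤ K1 * ‖gr v‖ := by
    refine le_trans ?_ (hK1b v hv)
    apply integral_mono (test_int hWt).abs (test_int hv).abs
    intro z
    show |c z * v z| ≤ |v z|
    rw [abs_mul]
    exact mul_le_of_le_one_left (abs_nonneg _) (hca z)
  have hrW : inner ℝ r (gr v) = inner ℝ r (gr W) := by
    have h1 := hpos _ (test_comb hv hWt 1 (-1)) fun z hz => by
      show 0 ≤ 1 * v z + -1 * (c z * v z)
      rw [hc1 z hz]; linarith
    have h2 := hpos _ (test_comb hv hWt (-1) 1) fun z hz => by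
      show 0 ≤ -1 * v z + 1 * (c z * v z)
      rw [hc1 z hz]; linarith
    rw [gr_comb hv hWt, inner_add_right, inner_smul_right, inner_smul_right] at h1 h2
    linarith
  obtain ⟨hi1, hsw⟩ := swap_conv hρt.1.continuous hρt.2.1 hgt.1.continuous hWt.1.continuous
    hWt.2.1
  have hsplit : ∫ z, (F z + d) * c z * v z = (∫ z, F z * W z) + d * ∫ z, W z := by
    rw [← integral_const_mul, ← integral_add]
    · congr 1
      funext z
      simp only [hW]
      ring
    · exact (hFc.continuous.mul hWt.1.continuous).integrable_of_hasCompactSupport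
        hWt.2.1.mul_left
    · exact (test_int hWt).const_mul d
  set κ := 3 * δ * ‖gr W‖ + η * ∫ z, |W z| with hκ
  have hA : ∀ z, ‖z‖ < e → |(∫ y, g y * W (y + z)) - inner ℝ r (gr W)| ≤ κ := by
    intro z hz
    have hWz := test_shift hWt z
    have h1 : ∫ y, g y * W (y + z) = inner ℝ (gr w) (gr fun y => W (y + z)) :=
      (inner_nlap hw hWz).symm
    have h2 := abs_real_inner_le_norm (gr w - gr u) (gr fun y => W (y + z))
    rw [norm_shift hWt, inner_sub_left] at h2
    have h3 : ‖gr w - gr u‖ ≤ 2 * δ := by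
      have := norm_sub_le (gr w - r) (gr u - r)
      rw [sub_sub_sub_cancel_right] at this
      linarith
    have h4 := abs_real_inner_le_norm (gr u - r) (gr W)
    rw [inner_sub_left] at h4
    have h5 : inner ℝ (gr u) (gr fun y => W (y + z)) - inner ℝ (gr u) (gr W) =
        ∫ x, (nlap u (x - z) - nlap u x) * W x := by
      have hn := (isTest_nlap hu).1.continuous
      rw [inner_nlap hu hWz, inner_nlap hu hWt,
        ← integral_add_right_eq_self (fun y => nlap u y * W (y + z)) (-z), ← integral_sub]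
      · congr 1
        funext x
        rw [neg_add_cancel_right, sub_eq_add_neg x z]
        ring
      · apply Continuous.integrable_of_hasCompactSupport
        · exact (hn.comp (continuous_id.add continuous_const)).mul
            (hWt.1.continuous.comp ((continuous_id.add continuous_const).add continuous_const))
        · simp only [neg_add_cancel_right]
          exact hWt.2.1.mul_left
      · exact (hn.mul hWt.1.continuous).integrable_of_hasCompactSupport hWt.2.1.mul_left
    have h6 : |∫ x, (nlap u (x - z) - nlap u x) * W x| ≤ η * ∫ z, |W z| := by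
      apply abs_int_le _ (test_int hWt)
      intro x
      have h7 : dist (x - z) x < e1 := by
        rw [dist_eq_norm, sub_sub_cancel_left, norm_neg]
        exact hz.trans_le (min_le_right _ _)
      have := hunif h7
      rw [Real.dist_eq] at this
      exact this.le
    rw [← h5] at h6
    rw [h1, hκ]
    have h8 := mul_le_mul_of_nonneg_right h3 (norm_nonneg (gr W))
    have h9 := mul_le_mul_of_nonneg_right hur.le (norm_nonneg (gr W))
    rw [abs_le] at h2 h4 h6 ⊢
    constructor <;> linarith [h2.1, h2.2, h4.1, h4.2, h6.1, h6.2]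
  have hB : |(∫ z, F z * W z) - inner ℝ r (gr W)| ≤ κ := by
    have h1 : (∫ z, F z * W z) - inner ℝ r (gr W) =
        ∫ z, ρ z * ((∫ y, g y * W (y + z)) - inner ℝ r (gr W)) := by
      simp only [mul_sub]
      rw [integral_sub hi1 ((test_int hρt).mul_const _), integral_mul_const, hρ,
        β.integral_normed, one_mul, ← hρ, ← hsw]
    have h2 : ∫ z, ρ z * κ = κ := by
      rw [integral_mul_const, hρ, β.integral_normed, one_mul]
    rw [h1, ← h2, ← Real.norm_eq_abs]
    apply norm_integral_le_of_norm_le ((test_int hρt).mul_const _)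
    refine Filter.Eventually.of_forall fun z => ?_
    rw [Real.norm_eq_abs, abs_mul, abs_of_nonneg (β.nonneg_normed z)]
    by_cases hz : ‖z‖ < e
    · exact mul_le_mul_of_nonneg_left (hA z hz) (β.nonneg_normed z)
    · have h3 : β.normed volume z = 0 := by
        by_contra h
        have h4 : z ∈ Function.support (β.normed volume) := h
        rw [β.support_normed_eq, mem_ball, dist_zero_right] at h4
        exact hz h4
      rw [hρ, h3, zero_mul, zero_mul]
  have hC : |d * ∫ z, W z| ≤ η * ∫ z, |W z| := by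
    rw [abs_mul, abs_of_nonneg hd0]
    exact mul_le_mul hdη abs_integral_le_integral_abs (abs_nonneg _) hη0.le
  show |(∫ z, (F z + d) * c z * v z) - inner ℝ r (gr v)| ≤ ε * ‖gr v‖
  rw [hsplit, hrW]
  have h1 : 3 * δ * ‖gr W‖ ≤ 3 / 8 * ε * ‖gr v‖ := by
    have h2 := mul_le_mul_of_nonneg_left hW1 (show 0 ≤ 3 * δ by positivity)
    have h3 : 3 * δ * (K * ‖gr v‖) = 3 / 8 * ε * ‖gr v‖ := by
      rw [hδ]
      field_simp
    linarith
  have h4 : η * ∫ z, |W z| ≤ 1 / 4 * ε * ‖gr v‖ := by
    have h2 := mul_le_mul_of_nonneg_left hW2 hη0.le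
    have h3 : η * (K1 * ‖gr v‖) = 1 / 4 * ε * ‖gr v‖ := by
      rw [hη]
      field_simp
    linarith
  have h5 : 0 ≤ ε * ‖gr v‖ := by positivity
  rw [abs_le] at hB hC ⊢
  constructor <;> linarith [hB.1, hB.2, hC.1, hC.2]

end Vale.Agent.P155.Soup.Fx
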