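import Vale.Agent.P155SG.Fx2

/-!
# P155, flux lemma, part 3: the deterministic statement
-/

namespace Vale.Agent.P155.Soup.Fx

open MeasureTheory Set Metric Vale.Agent.P155.Uq Vale.Agent.P155.U
open scoped ContDiff

/-- the distance to the fields supported in `U` -/
noncomputable def dr (U : Set ℂ) (r : HL) : ℝ := ‖r - (GV U).starProjection r‖

theorem dr_nonneg (U : Set ℂ) (r : HL) : 0 ≤ dr U r := norm_nonneg _

theorem dr_le {U : Set ℂ} (r : HL) {g : HL} (hg : g ∈ GV U) : dr U r ≤ ‖r - g‖ := by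
  unfold dr
  rw [Submodule.starProjection_minimal]
  exact ciInf_le (f := fun x : GV U => ‖r - x‖) ⟨0, by rintro _ ⟨x, rfl⟩; exact norm_nonneg _⟩
    ⟨g, hg⟩

theorem proj_mem (U : Set ℂ) (r : HL) : (GV U).starProjection r ∈ GV U := by
  rw [Submodule.starProjection_apply]
  exact Submodule.coe_mem _

theorem dr_lip (U : Set ℂ) (r r' : HL) : dr U r ≤ ‖r - r'‖ + dr U r' := by
  refine (dr_le r (proj_mem U r')).trans ?_
  have := norm_add_le (r - r') (r' - (GV U).starProjection r')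
  rwa [sub_add_sub_cancel] at this

theorem gv_ind {U : Set ℂ} {p : HL → Prop} (hp : IsClosed {g | p g})
    (h : ∀ v, IsTest U v → p (gr v)) {g : HL} (hg : g ∈ GV U) : p g := by
  rw [GV_eq] at hg
  have hsub : (G0 U : Set HL) ⊆ {g | p g} := by
    rintro _ ⟨v, hv, rfl⟩
    exact h v hv
  exact closure_minimal hsub hp hg

theorem le_dr {U : Set ℂ} {r : HL} {a : ℝ} (h : ∀ v, IsTest U v → a ≤ ‖r - gr v‖) : a ≤ dr U r :=
  gv_ind (p := fun g => a ≤ ‖r - g‖)
    (isClosed_le continuous_const (continuous_const.sub continuous_id).norm) h (proj_mem U r)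

theorem norm_le_of_test {U : Set ℂ} {d : HL} (hd : d ∈ GV U) {ε : ℝ} (hε : 0 ≤ ε)
    (h : ∀ v, IsTest U v → |inner ℝ d (gr v)| ≤ ε * ‖gr v‖) : ‖d‖ ≤ ε := by
  have h1 : |inner ℝ d d| ≤ ε * ‖d‖ :=
    gv_ind (p := fun g => |inner ℝ d g| ≤ ε * ‖g‖)
      (isClosed_le (continuous_const.inner continuous_id).abs
        (continuous_const.mul continuous_norm)) h hd
  rw [real_inner_self_eq_norm_sq, abs_of_nonneg (sq_nonneg _)] at h1
  by_contra h2
  rw [not_le] at h2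
  nlinarith

theorem drop_eq {U U' : Set ℂ} (hU : U' ⊆ U) {f : ℂ → ℝ} {r : HL} (hr : r ∈ GV U)
    (h : ∀ v, IsTest U v → inner ℝ r (gr v) = ∫ z, f z * v z) :
    greenEnergy U f - greenEnergy U' f = dr U' r ^ 2 := by
  rw [green_proj subset_rfl h, green_proj hU h, Submodule.starProjection_eq_self_iff.2 hr,
    Submodule.norm_sq_eq_add_norm_sq_starProjection r (GV U'),
    Submodule.starProjection_orthogonal_val]
  unfold dr
  ring

/-- **the Caccioppoli bound** -/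
theorem far_bound {U B T : Set ℂ} {θ : ℂ → ℝ} (hθ : IsTest B θ) (h1 : ∀ z ∈ T, θ z = 1)
    (h2 : ∀ z, 0 ≤ θ z ∧ θ z ≤ 1) {r : HL}
    (hpos : ∀ ψ, IsTest U ψ → (∀ z ∈ T, 0 ≤ ψ z) → 0 ≤ inner ℝ r (gr ψ)) {w : ℂ → ℝ}
    (hw : IsTest U w) (hw2 : ∀ z, |w z| ≤ 2) (hwr : ‖gr w - r‖ ≤ 1) :
    dr (U ∩ B) r ≤ 3 + 4 * ‖gr θ‖ := by
  set c : ℂ → ℝ := fun z => 1 - θ z with hc
  have hcs : ContDiff ℝ ∞ c := contDiff_const.sub hθ.1
  have hca : ∀ z, |c z| ≤ 1 := fun z => by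
    rw [abs_le]
    constructor <;> simp only [hc] <;> linarith [(h2 z).1, (h2 z).2]
  have hdc : ∀ z, fderiv ℝ c z = - fderiv ℝ θ z := fun z => by
    simp only [hc]
    rw [fderiv_const_sub]
  set u : ℂ → ℝ := fun z => c z * w z with hu
  have hut : IsTest U u := test_mul hw hcs
  set u2 : ℂ → ℝ := fun z => c z * u z with hu2
  have hu2t : IsTest U u2 := test_mul hut hcs
  set D := ‖gr θ‖ with hD
  set X := ‖gr u‖ with hX
  have hD0 : 0 ≤ D := norm_nonneg _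
  have hX0 : 0 ≤ X := norm_nonneg _
  have hw4 : ∀ z, w z ^ 2 ≤ 4 := fun z => by
    have := pow_le_pow_left₀ (abs_nonneg _) (hw2 z) 2
    rw [sq_abs] at this
    linarith
  have hu4 : ∀ z, u z ^ 2 ≤ 4 := fun z => by
    have h3 : c z ^ 2 ≤ 1 := by
      have := pow_le_pow_left₀ (abs_nonneg _) (hca z) 2
      rw [sq_abs] at this
      linarith
    simp only [hu]
    rw [mul_pow]
    nlinarith [hw4 z, sq_nonneg (w z), sq_nonneg (c z)]
  have hA : ‖gr u2‖ ^ 2 ≤ 2 * X ^ 2 + 8 * D ^ 2 := by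
    rw [hX, hD, norm_gr hu2t, norm_gr hut, norm_gr hθ, ← integral_const_mul, ← integral_const_mul,
      ← integral_add ((test_sq hut).const_mul _) ((test_sq hθ).const_mul _)]
    apply integral_mono (test_sq hu2t)
      (((test_sq hut).const_mul _).add ((test_sq hθ).const_mul _))
    intro z
    have h3 := prod_sq_le hut.1 hcs z (hca z)
    rw [hdc, norm_neg] at h3
    have h4 := mul_le_mul_of_nonneg_right (hu4 z) (sq_nonneg ‖fderiv ℝ θ z‖)
    show ‖fderiv ℝ u2 z‖ ^ 2 ≤ 2 * ‖fderiv ℝ u z‖ ^ 2 + 8 * ‖fderiv ℝ θ z‖ ^ 2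
    linarith
  have hI : Integrable (fun z => fderiv ℝ w z 1 * fderiv ℝ u2 z 1 +
      fderiv ℝ w z Complex.I * fderiv ℝ u2 z Complex.I) := by
    have hi : ∀ e : ℂ, Integrable (fun z => fderiv ℝ w z e * fderiv ℝ u2 z e) := fun e =>
      ((smooth_dir hw.1 e).continuous.mul
        (smooth_dir hu2t.1 e).continuous).integrable_of_hasCompactSupport
        (hw.2.1.fderiv_apply ℝ e).mul_right
    exact (hi 1).add (hi Complex.I)
  have hB : X ^ 2 ≤ inner ℝ (gr w) (gr u2) + 4 * D ^ 2 := by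
    rw [hX, hD, norm_gr hut, norm_gr hθ, inner_gr hw hu2t, ← integral_const_mul,
      ← integral_add hI ((test_sq hθ).const_mul _)]
    apply integral_mono (test_sq hut) (hI.add ((test_sq hθ).const_mul _))
    intro z
    show ‖fderiv ℝ u z‖ ^ 2 ≤ fderiv ℝ w z 1 * fderiv ℝ u2 z 1 +
      fderiv ℝ w z Complex.I * fderiv ℝ u2 z Complex.I + 4 * ‖fderiv ℝ θ z‖ ^ 2
    have e1 : fderiv ℝ u z = c z • fderiv ℝ w z + w z • fderiv ℝ c z := fderiv_mul' hw.1 hcs z
    have e2 : fderiv ℝ u2 z = c z • fderiv ℝ u z + u z • fderiv ℝ c z := fderiv_mul' hut.1 hcs z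
    have h4 := mul_le_mul_of_nonneg_right (hw4 z) (sq_nonneg ‖fderiv ℝ θ z‖)
    rw [norm_sq_clm] at h4
    rw [norm_sq_clm, norm_sq_clm, e2, e1, hdc]
    simp only [add_apply, smul_apply, neg_apply, smul_eq_mul, hu]
    nlinarith
  have hz : inner ℝ r (gr u2) = 0 := by
    have h3 := hpos _ hu2t fun z hz => by
      simp only [hu2, hc]
      rw [h1 z hz]
      simp
    have h4 := hpos _ (test_comb hu2t hu2t (-1) 0) fun z hz => by
      simp only [hu2, hc]
      rw [h1 z hz]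
      simp
    rw [gr_comb hu2t hu2t, zero_smul, add_zero, inner_smul_right] at h4
    linarith
  have hC : inner ℝ (gr w) (gr u2) ≤ ‖gr u2‖ := by
    have h3 := real_inner_le_norm (gr w - r) (gr u2)
    rw [inner_sub_left, hz, sub_zero] at h3
    exact h3.trans (mul_le_of_le_one_left (norm_nonneg _) hwr)
  have hXb : X ≤ 2 + 4 * D := by
    apply le_of_sq_le_sq _ (by positivity) |>.trans le_rfl
    nlinarith [sq_nonneg (‖gr u2‖ - 2)]
  have ht : IsTest (U ∩ B) fun z => θ z * w z := by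
    have h3 := test_mul hw hθ.1
    refine ⟨h3.1, h3.2.1, subset_inter h3.2.2 (subset_trans ?_ hθ.2.2)⟩
    apply closure_mono
    intro z hz h0
    apply hz
    show θ z * w z = 0
    rw [h0, zero_mul]
  have e : gr u = gr w - gr (fun z => θ z * w z) := by
    have h3 := gr_comb hw (test_mul hw hθ.1) 1 (-1)
    rw [one_smul, neg_one_smul, ← sub_eq_add_neg] at h3
    rw [← h3]
    congr 1
    funext z
    simp only [hu, hc]
    ring
  have h5 := dr_le r (gr_mem ht)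
  have h6 := norm_add_le (r - gr w) (gr u)
  rw [e, sub_add_sub_cancel, ← e, norm_sub_rev r (gr w)] at h6
  linarith

/-- all circles with radii in `[a, b]` meet `S` and the complement of `U` -/
def Cross (U S : Set ℂ) (p : ℂ) (a b : ℝ) : Prop :=
  ∀ t ∈ Icc a b, (∃ z ∈ S, dist z p = t) ∧ ∃ z, z ∉ U ∧ dist z p = t

theorem near_bound {U S : Set ℂ} {r : HL} {w : ℂ → ℝ} (hw : IsTest U w) (h1 : ∀ z ∈ S, 1 ≤ w z)
    {p : ℂ} {a b : ℝ} (ha : 0 < a) (hab : a ≤ b) (h : Cross U S p a b) :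
    Real.sqrt (Real.log (b / a) / (2 * Real.pi)) - ‖gr w - r‖ ≤ dr (U \ S) r := by
  apply le_dr
  intro v hv
  have hvU : IsTest U v := ⟨hv.1, hv.2.1, hv.2.2.trans sdiff_subset⟩
  have ht := test_comb hw hvU 1 (-1)
  have h2 := ann_energy ht p ha hab fun t ht' => by
    obtain ⟨⟨z, hz, e⟩, z', hz', e'⟩ := h t ht'
    refine ⟨⟨z', e', test_zero ht hz'⟩, z, e, ?_⟩
    have h3 : v z = 0 := test_zero hv fun h4 => h4.2 hz
    show 1 ≤ 1 * w z + -1 * v z
    rw [h3]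
    linarith [h1 z hz]
  rw [gr_comb hw hvU, one_smul, neg_one_smul, ← sub_eq_add_neg] at h2
  have h3 : Real.sqrt (Real.log (b / a) / (2 * Real.pi)) ≤ ‖gr w - gr v‖ :=
    Real.sqrt_le_iff.2 ⟨norm_nonneg _, h2⟩
  have h4 := norm_add_le (gr w - r) (r - gr v)
  rw [sub_add_sub_cancel] at h4
  linarith

/-- **the flux lemma**, in terms of the potential -/
theorem flux0 (y : ℂ) {s : ℝ} (hs : 0 < s) : ∃ C : ℝ, ∀ U O T : Set ℂ, IsOpen U →
    Bornology.IsBounded U → IsOpen O → IsCompact T → T ⊆ O → O ⊆ U → T ⊆ closedBall y (s / 2) →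
    ∃ f, IsTest O f ∧ (∀ z, 0 ≤ f z) ∧ ∀ r ∈ GV U,
      (∀ v, IsTest U v → inner ℝ r (gr v) = ∫ z, f z * v z) → dr (U ∩ ball y s) r ≤ C ∧
      ∀ (S : Set ℂ) (p : ℂ) (a b : ℝ), S ⊆ T → 0 < a → a ≤ b → Cross U S p a b →
        Real.sqrt (Real.log (b / a) / (2 * Real.pi)) - 2 ≤ dr (U \ S) r := by
  obtain ⟨θ, hθ, h1, h2⟩ := exists_cut (U := ball y s) isOpen_ball (isCompact_closedBall y (s / 2))
    (closedBall_subset_ball (by linarith))
  refine ⟨4 + 4 * ‖gr θ‖, ?_⟩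
  intro U O T hU hb hO hT hTO hOU hTs
  obtain ⟨r0, hpos, hap⟩ := exists_equil hU hT (hTO.trans hOU)
  obtain ⟨f, hf, hf0, hfr⟩ := approx hU hb hO hT hTO hOU hpos
    (fun δ hδ => (hap δ hδ).imp fun w hw => ⟨hw.1, hw.2.2.2⟩) one_pos
  have hr0 : r0 ∈ GV U := by
    apply (Submodule.isClosed_topologicalClosure _).closure_subset
    rw [Metric.mem_closure_iff]
    intro δ hδ
    obtain ⟨w, hw, -, -, hwr⟩ := hap δ hδ
    exact ⟨gr w, gr_mem hw, by rwa [dist_comm, dist_eq_norm]⟩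
  refine ⟨f, hf, hf0, fun r hr hrf => ?_⟩
  have hd : ‖r - r0‖ ≤ 1 := by
    apply norm_le_of_test ((GV U).sub_mem hr hr0) zero_le_one
    intro v hv
    rw [inner_sub_left, hrf v hv]
    exact hfr v hv
  obtain ⟨w, hw, hw1, hw2, hwr⟩ := hap 1 one_pos
  refine ⟨?_, fun S p a b hS ha hab hc => ?_⟩
  · have h3 := far_bound hθ (fun z hz => h1 z (hTs hz)) h2 hpos hw hw2 hwr.le
    linarith [dr_lip (U ∩ ball y s) r r0]
  · have h3 := near_bound (r := r0) hw (fun z hz => hw1 z (hS hz)) ha hab hc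
    have h4 := dr_lip (U \ S) r0 r
    rw [norm_sub_rev] at h4
    linarith

end Vale.Agent.P155.Soup.Fx
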