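import Vale.Agent.P155SG.Bas
import Vale.Agent.P155.U.ExtFub
import Mathlib.Analysis.Normed.Operator.Extend
import Mathlib.Geometry.Manifold.PartitionOfUnity

/-!
# P155, block (G): cutting a test function along an open set
-/

set_option linter.all false

namespace Vale.Agent.P155.SG.Hj

open MeasureTheory Set Metric Filter Topology Vale.Agent.P155 Vale.Agent.P155.Uq
  Vale.Agent.P155.SG

variable {V W O A : Set ℂ} {v χ φ : ℂ → ℝ}

theorem ind_loc (hW : IsOpen W) (hv : Disjoint (tsupport v) (frontier W)) (z : ℂ) :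
    (z ∈ W ∧ W.indicator v =ᶠ[𝓝 z] v) ∨ (z ∉ W ∧ W.indicator v =ᶠ[𝓝 z] fun _ => 0) := by
  by_cases hz : z ∈ W
  · left
    refine ⟨hz, ?_⟩
    filter_upwards [hW.mem_nhds hz] with y hy
    exact indicator_of_mem hy _
  · right
    refine ⟨hz, ?_⟩
    by_cases hc : z ∈ closure W
    · have h1 : z ∉ tsupport v := fun h =>
        disjoint_left.1 hv h (by rw [hW.frontier_eq]; exact ⟨hc, hz⟩)
      filter_upwards [notMem_tsupport_iff_eventuallyEq.1 h1] with y hy
      by_cases hyW : y ∈ W
      · rw [indicator_of_mem hyW]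
        exact hy
      · exact indicator_of_notMem hyW _
    · filter_upwards [isClosed_closure.isOpen_compl.mem_nhds hc] with y hy
      exact indicator_of_notMem (fun h => hy (subset_closure h)) _

theorem tsupp_ind (hW : IsOpen W) (hv : Disjoint (tsupport v) (frontier W)) :
    tsupport (W.indicator v) ⊆ tsupport v ∩ W := by
  intro z hz
  refine ⟨closure_mono (fun y hy => ?_) hz, ?_⟩
  · intro h0
    apply hy
    by_cases hyW : y ∈ W
    · rw [indicator_of_mem hyW, h0]
    · exact indicator_of_notMem hyW _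
  · rcases ind_loc hW hv z with h | h
    · exact h.1
    · exact absurd hz (notMem_tsupport_iff_eventuallyEq.2 h.2)

theorem test_ind (hW : IsOpen W) (h : IsTest O v) (hv : Disjoint (tsupport v) (frontier W)) :
    IsTest W (W.indicator v) := by
  refine ⟨contDiff_iff_contDiffAt.2 fun z => ?_, ?_, (tsupp_ind hW hv).trans inter_subset_right⟩
  · rcases ind_loc hW hv z with h1 | h1
    · exact h.1.contDiffAt.congr_of_eventuallyEq h1.2
    · exact contDiffAt_const.congr_of_eventuallyEq h1.2
  · exact h.2.1.isCompact.of_isClosed_subset (isClosed_tsupport _)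
      ((tsupp_ind hW hv).trans inter_subset_left)

theorem fderiv_ind (hW : IsOpen W) (hv : Disjoint (tsupport v) (frontier W)) (z : ℂ) :
    fderiv ℝ (W.indicator v) z = W.indicator (fderiv ℝ v) z := by
  rcases ind_loc hW hv z with h | h
  · rw [h.2.fderiv_eq, indicator_of_mem h.1]
  · rw [h.2.fderiv_eq, indicator_of_notMem h.1]
    simp

/-- a relatively clopen part carries all the energy of the charges in it -/
theorem green_clopen (hW : IsOpen W) (hb : Bornology.IsBounded W) (hU : Disjoint O (frontier W))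
    (hφ : IsTest W φ) : greenEnergy O φ ≤ greenEnergy W φ := by
  obtain ⟨M, hM⟩ := hφ.1.continuous.bounded_above_of_compact_support hφ.2.1
  refine U.greenEnergy_le fun v hv => ?_
  have hd : Disjoint (tsupport v) (frontier W) := hU.mono_left hv.2.2
  have ht := test_ind hW hv hd
  refine le_trans ?_ (gval_le_green hb (M := M) (fun z => hM z) ht)
  unfold gval
  have e1 : ∫ z, φ z * W.indicator v z = ∫ z, φ z * v z := by
    congr 1
    funext z
    by_cases hz : z ∈ W
    · rw [indicator_of_mem hz]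
    · rw [U.test_zero hφ hz, zero_mul, zero_mul]
  have e2 : ∫ z, ‖fderiv ℝ (W.indicator v) z‖ ^ 2 ≤ ∫ z, ‖fderiv ℝ v z‖ ^ 2 := by
    refine integral_mono (U.test_sq ht) (U.test_sq hv) fun z => ?_
    simp only [fderiv_ind hW hd]
    by_cases hz : z ∈ W
    · rw [indicator_of_mem hz]
    · rw [indicator_of_notMem hz, norm_zero, zero_pow two_ne_zero]
      positivity
  rw [e1]
  linarith

/-- the cutoff data -/
structure Ct (V W : Set ℂ) (χ : ℂ → ℝ) (M : ℝ) : Prop where
  op : IsOpen W
  bd : Bornology.IsBounded V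
  sub : W ⊆ V
  sm : ContDiff ℝ ((⊤ : ℕ∞) : WithTop ℕ∞) χ
  fr : ∀ z ∈ frontier W ∩ V, z ∉ tsupport χ
  le : ∀ z, |χ z| ≤ 1
  dle : ∀ z ∈ V, ‖fderiv ℝ χ z‖ ≤ M

/-- the cut function -/
noncomputable def cut (W : Set ℂ) (χ v : ℂ → ℝ) : ℂ → ℝ := W.indicator fun z => χ z * v z

variable {M : ℝ}

theorem test_mul (hχ : ContDiff ℝ ((⊤ : ℕ∞) : WithTop ℕ∞) χ) (hv : IsTest V v) :
    IsTest V fun z => χ z * v z :=
  ⟨hχ.mul hv.1, hv.2.1.mul_left, (tsupport_mul_subset_right).trans hv.2.2⟩

theorem Ct.dis (c : Ct V W χ M) (hv : IsTest V v) :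
    Disjoint (tsupport fun z => χ z * v z) (frontier W) :=
  disjoint_left.2 fun z hz hf => c.fr z ⟨hf, hv.2.2 (tsupport_mul_subset_right hz)⟩
    (tsupport_mul_subset_left hz)

theorem Ct.test (c : Ct V W χ M) (hv : IsTest V v) : IsTest W (cut W χ v) :=
  test_ind c.op (test_mul c.sm hv) (c.dis hv)

theorem Ct.tsupp (c : Ct V W χ M) (hv : IsTest V v) : tsupport (cut W χ v) ⊆ tsupport v :=
  (tsupp_ind c.op (c.dis hv)).trans (inter_subset_left.trans tsupport_mul_subset_right)

theorem Ct.fd (c : Ct V W χ M) (hv : IsTest V v) (z : ℂ) :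
    fderiv ℝ (cut W χ v) z = W.indicator (fun z => χ z • fderiv ℝ v z + v z • fderiv ℝ χ z) z := by
  unfold cut
  rw [fderiv_ind c.op (c.dis hv)]
  congr 1
  funext y
  exact fderiv_fun_mul (c.sm.differentiable (by simp) y) (hv.1.differentiable (by simp) y)

theorem Ct.bound (c : Ct V W χ M) : ∃ C : ℝ, ∀ v, IsTest V v → ‖gr (cut W χ v)‖ ≤ C * ‖gr v‖ := by
  obtain ⟨C, hC, h⟩ := poinc_sq c.bd
  refine ⟨√(2 + 2 * M ^ 2 * C), fun v hv => ?_⟩
  have h1 : ‖gr (cut W χ v)‖ ^ 2 ≤ (2 + 2 * M ^ 2 * C) * ‖gr v‖ ^ 2 := by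
    rw [U.norm_gr (c.test hv), U.norm_gr hv]
    have i2 : Integrable fun z => v z ^ 2 := (tmemLp hv).integrable_sq
    have h2 : ∫ z, ‖fderiv ℝ (cut W χ v) z‖ ^ 2 ≤
        ∫ z, (2 * ‖fderiv ℝ v z‖ ^ 2 + 2 * M ^ 2 * v z ^ 2) := by
      refine integral_mono (U.test_sq (c.test hv))
        (((U.test_sq hv).const_mul 2).add (i2.const_mul _)) fun z => ?_
      simp only [c.fd hv]
      by_cases hz : z ∈ W
      · rw [indicator_of_mem hz]
        have k1 : ‖χ z • fderiv ℝ v z + v z • fderiv ℝ χ z‖ ≤ ‖fderiv ℝ v z‖ + |v z| * M := by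
          refine (norm_add_le _ _).trans (add_le_add ?_ ?_)
          · rw [norm_smul, Real.norm_eq_abs]
            exact mul_le_of_le_one_left (norm_nonneg _) (c.le z)
          · rw [norm_smul, Real.norm_eq_abs]
            exact mul_le_mul_of_nonneg_left (c.dle z (c.sub hz)) (abs_nonneg _)
        have k2 := pow_le_pow_left₀ (norm_nonneg _) k1 2
        have k3 := sq_abs (v z)
        nlinarith [sq_nonneg (‖fderiv ℝ v z‖ - |v z| * M)]
      · rw [indicator_of_notMem hz, norm_zero, zero_pow two_ne_zero]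
        positivity
    rw [integral_add ((U.test_sq hv).const_mul 2) (i2.const_mul _), integral_const_mul,
      integral_const_mul] at h2
    have h3 := mul_le_mul_of_nonneg_left (h v hv) (by positivity : 0 ≤ 2 * M ^ 2)
    linarith
  apply abs_le_of_sq_le_sq' _ (by positivity) |>.2
  rw [mul_pow, Real.sq_sqrt (by positivity)]
  exact h1

/-- gradients of test functions -/
noncomputable def grM (V : Set ℂ) : testMod V →ₗ[ℝ] GV V where
  toFun v := ⟨gr v, U.gr_mem v.2⟩
  map_add' v w := Subtype.ext (by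
    have h := U.gr_comb v.2 w.2 1 1
    simp only [one_mul, one_smul] at h
    exact h)
  map_smul' c v := Subtype.ext (by
    have h := U.gr_comb v.2 v.2 c 0
    simp only [zero_mul, add_zero, zero_smul] at h
    exact h)

theorem dense_grM (V : Set ℂ) : DenseRange (grM V) := by
  intro x
  obtain ⟨v, hv, hl⟩ := U.exists_seq_gr x.2
  refine mem_closure_of_tendsto (f := fun n => grM V ⟨v n, hv n⟩) (b := atTop) ?_
    (Eventually.of_forall fun n => ⟨_, rfl⟩)
  exact tendsto_subtype_rng.2 hl

/-- the cut as a linear map -/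
noncomputable def Ct.lin (c : Ct V W χ M) : testMod V →ₗ[ℝ] testMod W where
  toFun v := ⟨cut W χ v, c.test v.2⟩
  map_add' v w := Subtype.ext (by
    funext z
    change cut W χ (v + w : testMod V) z = cut W χ v z + cut W χ w z
    unfold cut
    by_cases hz : z ∈ W
    · simp only [indicator_of_mem hz, Submodule.coe_add, Pi.add_apply]
      ring
    · simp only [indicator_of_notMem hz, add_zero])
  map_smul' a v := Subtype.ext (by
    funext z
    change cut W χ (a • v : testMod V) z = a * cut W χ v z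
    unfold cut
    by_cases hz : z ∈ W
    · simp only [indicator_of_mem hz, Submodule.coe_smul, Pi.smul_apply, smul_eq_mul]
      ring
    · simp only [indicator_of_notMem hz, mul_zero])

/-- the cutoff operator -/
noncomputable def Ct.J (c : Ct V W χ M) : GV V →L[ℝ] GV W :=
  ((grM W).comp c.lin).extendOfNorm (grM V)

theorem Ct.J_gr (c : Ct V W χ M) (v : testMod V) : (c.J (grM V v) : Uq.HL) = gr (cut W χ v) := by
  obtain ⟨C, hC⟩ := c.bound
  unfold Ct.J
  rw [LinearMap.extendOfNorm_eq (dense_grM V) ⟨C, fun v => hC v v.2⟩]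
  rfl

theorem Ct.J_inner (c : Ct V W χ M) (hφ : IsTest V φ) (e : GV V) :
    inner ℝ (c.J e : Uq.HL) (Rv V φ : Uq.HL) = inner ℝ e (Rv V (cut W χ φ)) := by
  refine (dense_grM V).induction_on e (isClosed_eq ?_ ?_) fun v => ?_
  · exact (continuous_subtype_val.comp c.J.continuous).inner continuous_const
  · exact continuous_id.inner continuous_const
  · rw [c.J_gr, real_inner_comm, Rv_inner c.bd (test_univ hφ) (test_mono (c.test v.2) c.sub),
      real_inner_comm, Submodule.coe_inner]
    change _ = inner ℝ _ (gr v)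
    rw [Rv_inner c.bd (test_univ (c.test hφ)) v.2]
    congr 1
    funext z
    unfold cut
    by_cases hz : z ∈ W
    · simp only [indicator_of_mem hz]
      ring
    · simp only [indicator_of_notMem hz, mul_zero, zero_mul]

/-- existence of the cutoff -/
theorem exists_ct (hb : Bornology.IsBounded V) (hW : IsOpen W) (hWV : W ⊆ V)
    (hA : frontier W ∩ V ⊆ A) {ε : ℝ} (hε : 0 < ε) : ∃ (χ : ℂ → ℝ) (M : ℝ), Ct V W χ M ∧
      (∀ z ∈ thickening (ε / 3) A, fderiv ℝ χ z = 0) ∧
      ∀ z, z ∉ thickening (ε / 2) A → χ z = 1 := by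
  obtain ⟨f, h0, h1, h2⟩ := exists_contMDiffMap_zero_one_of_isClosed (n := ⊤)
    (modelWithCornersSelf ℝ ℂ) (isClosed_cthickening (δ := ε / 3) (E := A))
    (isOpen_thickening (δ := ε / 2) (E := A)).isClosed_compl
    (disjoint_compl_right_iff_subset.2 (cthickening_subset_thickening' (by positivity)
      (by linarith) A))
  have hs : ContDiff ℝ ((⊤ : ℕ∞) : WithTop ℕ∞) f := f.contMDiff.contDiff
  have hz : ∀ z ∈ thickening (ε / 3) A, (f : ℂ → ℝ) =ᶠ[𝓝 z] fun _ => 0 := fun z hz => by
    filter_upwards [isOpen_thickening.mem_nhds hz] with y hy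
    exact h0 (thickening_subset_cthickening _ _ hy)
  obtain ⟨M, hM⟩ := hb.isCompact_closure.exists_bound_of_continuousOn
    (hs.continuous_fderiv (by simp)).continuousOn
  refine ⟨f, M, ⟨hW, hb, hWV, hs, fun z h => ?_, fun z => ?_, fun z h => hM z (subset_closure h)⟩,
    fun z h => ?_, fun z h => h1 h⟩
  · exact notMem_tsupport_iff_eventuallyEq.2
      (hz z (self_subset_thickening (by positivity) A (hA h)))
  · rw [abs_of_nonneg (h2 z).1]
    exact (h2 z).2
  · rw [(hz z h).fderiv_eq]
    simp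

theorem dens : DENS := by
  intro V W A ε hV hb hW hWV hA hε e he η hη
  obtain ⟨χ, M, c, -, h1⟩ := exists_ct hb hW hWV hA hε
  set O := V ∩ (thickening ε A ∪ (closure W)ᶜ) with hO
  let S : Submodule ℝ (GV V) :=
    { carrier := {r | ∃ φ, IsTest O φ ∧ r = Rv V φ}
      add_mem' := by
        rintro _ _ ⟨φ, hφ, rfl⟩ ⟨ψ, hψ, rfl⟩
        exact ⟨_, tadd hφ hψ, (Rv_add hb (test_univ hφ) (test_univ hψ)).symm⟩
      zero_mem' := ⟨_, tzero O, (Rv_zero hb).symm⟩
      smul_mem' := by
        rintro a _ ⟨φ, hφ, rfl⟩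
        exact ⟨_, tmul hφ a, (Rv_smul hb (test_univ hφ) a).symm⟩ }
  have key : ∀ g ∈ Sᗮ, (g : Uq.HL) = c.J g := by
    intro g hg
    refine U.GV_ext g.2 (U.GV_mono hWV (c.J g).2) fun u hu => ?_
    obtain ⟨φ, hφ, -, hN⟩ := (isR_Rv hb).ex u hu
    rw [← Rv_lap hb hu (test_univ hφ) hN, c.J_inner hφ]
    have hc := test_mono (c.test hφ) hWV
    have ht : IsTest O fun z => 1 * φ z + -1 * cut W χ φ z := by
      have h0 := tlin hφ hc 1 (-1)
      refine test_of h0 fun z hz => ⟨h0.2.2 hz, ?_⟩
      by_contra hn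
      rw [mem_union, not_or, notMem_compl_iff] at hn
      have hzA : z ∉ cthickening (ε / 2) A := fun h =>
        hn.1 (cthickening_subset_thickening' hε (by linarith) A h)
      have hzW : z ∈ W := by
        by_contra hzW
        exact hn.1 (self_subset_thickening hε A (hA ⟨by rw [hW.frontier_eq]; exact ⟨hn.2, hzW⟩,
          h0.2.2 hz⟩))
      refine notMem_tsupport_iff_eventuallyEq.2 ?_ hz
      filter_upwards [hW.mem_nhds hzW, isClosed_cthickening.isOpen_compl.mem_nhds hzA] with y k1 k2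
      unfold cut
      rw [indicator_of_mem k1, h1 y fun h => k2 (thickening_subset_cthickening _ _ h)]
      simp
    have h2 := (Submodule.mem_orthogonal' _ _).1 hg _ ⟨_, ht, rfl⟩
    rw [Rv_lin hb (test_univ hφ) (test_univ hc), one_smul, neg_one_smul, inner_add_right,
      inner_neg_right] at h2
    rw [← Submodule.coe_inner]
    linarith
  have hm : e ∈ Sᗮᗮ := by
    rw [Submodule.mem_orthogonal]
    intro g hg
    rw [Submodule.coe_inner, key g hg]
    exact (Submodule.mem_orthogonal _ _).1 he _ (c.J g).2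
  rw [Submodule.orthogonal_orthogonal_eq_closure] at hm
  obtain ⟨_, ⟨φ, hφ, rfl⟩, h⟩ := Metric.mem_closure_iff.1 hm η hη
  exact ⟨φ, hφ, by rwa [← dist_eq_norm]⟩

end Vale.Agent.P155.SG.Hj
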