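import Vale.Agent.P155.U.Key

/-!
# P155, block (G), KEY: the harmonic part of the union of two local sets, on bumps
-/

set_option linter.all false

namespace Vale.Agent.P155.KG

open Finset MeasureTheory TopologicalSpace Vale.Agent.P155.G45 Vale.Agent.P155.Uq Metric Filter
  Topology Vale.Agent.P155.UK

/-- two random sets, the fields off them and off their union, the harmonic part for the union -/
structure Kp (Ω : Set ℂ) {X S S' : Type} [mX : MeasurableSpace X] [mS : MeasurableSpace S]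
    [mS' : MeasurableSpace S'] (μ : Measure X) (a : X → S) (a' : X → S')
    (A : S → NonemptyCompacts ℂ) (A' : S' → NonemptyCompacts ℂ)
    (Ya Yb Y3 Z : (ℂ → ℝ) → X → ℝ) : Prop where
  bdd : Bornology.IsBounded Ω
  prob : IsProbabilityMeasure μ
  mA : Measurable A
  mA' : Measurable A'
  geo1 : ∀ᵐ x ∂μ, Geo Ω (A (a x) : Set ℂ)
  geo2 : ∀ᵐ x ∂μ, Geo Ω (A' (a' x) : Set ℂ)
  cv1 : CondVar μ (MeasurableSpace.comap a mS) Ω (fun x => (A (a x) : Set ℂ)) Ya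
  cv2 : CondVar μ (MeasurableSpace.comap a' mS') Ω (fun x => (A' (a' x) : Set ℂ)) Yb
  cv3 : CondVar μ (MeasurableSpace.comap (fun x => (a x, a' x)) (mS.prod mS')) Ω
    (fun x => (A (a x) : Set ℂ) ∪ A' (a' x)) Y3
  memZ : ∀ φ, IsTest Ω φ → MemLp (Z φ) 2 μ
  linZ : ∀ φ ψ, IsTest Ω φ → IsTest Ω ψ → ∀ s t : ℝ,
    Z (fun z => s * φ z + t * ψ z) =ᵐ[μ] fun x => s * Z φ x + t * Z ψ x
  harm : ∀ v φ, IsTest Ω v → IsTest Ω φ → NegLap v φ → ∀ᵐ x ∂μ,
    Disjoint (tsupport v) ((A (a x) : Set ℂ) ∪ A' (a' x)) → Z φ x = 0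
  sq : ∀ φ, IsTest Ω φ → ∫ x, Z φ x ^ 2 ∂μ ≤ greenEnergy Ω φ
  s1 : ∀ z r, 0 < r → closedBall z r ⊆ Ω → ∀ᵐ x ∂μ, Disjoint (closedBall z r) (A (a x) : Set ℂ) →
    |Z (bump z r) x + Y3 (bump z r) x - Ya (bump z r) x| ≤ cst
  s2 : ∀ z r, 0 < r → closedBall z r ⊆ Ω → ∀ᵐ x ∂μ, Disjoint (closedBall z r) (A' (a' x) : Set ℂ) →
    |Z (bump z r) x + Y3 (bump z r) x - Yb (bump z r) x| ≤ cst

variable {Ω : Set ℂ} {X S S' : Type} [mX : MeasurableSpace X] [mS : MeasurableSpace S]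
    [mS' : MeasurableSpace S'] {μ : Measure X} {a : X → S} {a' : X → S'}
    {A : S → NonemptyCompacts ℂ} {A' : S' → NonemptyCompacts ℂ} {Ya Yb Y3 Z : (ℂ → ℝ) → X → ℝ}

theorem sg {K : X → Set ℂ} {g : ℂ → ℝ → X → ℝ} (hg : ∀ᵐ x ∂μ, Geo Ω (K x))
    (h : ∀ z r, 0 < r → closedBall z r ⊆ Ω → ∀ᵐ x ∂μ, Disjoint (closedBall z r) (K x) →
      |g z r x| ≤ cst) (z : ℂ) (δ : ℝ) {s : ℝ} (hs : 0 < s) :
    ∀ᵐ x ∂μ, ∀ y : Pt, gp z δ y ∈ Ω → s < infDist (gp z δ y) (K x) → |g (gp z δ y) s x| ≤ cst := by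
  refine ae_all_iff.2 fun y => ?_
  by_cases h1 : closedBall (gp z δ y) s ⊆ Ω
  · exact (h _ s hs h1).mono fun x hx _ h2 => hx (closedBall_disj h2)
  · exact hg.mono fun x g h2 h3 => (h1 (g.closedBall_sub h2 h3)).elim

theorem Z_sq_le (hc : Kp Ω μ a a' A A' Ya Yb Y3 Z) {R : ℝ} (hR : 0 < R)
    (hΩ : ∀ z ∈ Ω, ‖z‖ < R) {φ : ℂ → ℝ} (hφ : IsTest Ω φ) {ε : ℝ} (hε : ∀ z, |φ z| ≤ ε) :
    ∫ x, Z φ x ^ 2 ∂μ ≤ 160 * (R ^ 2 * ε) ^ 2 :=
  (hc.sq φ hφ).trans (greenEnergy_sup hR hΩ hε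
    fun z hz => Vale.Agent.P155.U.test_zero hφ fun h => by linarith [hΩ z h])

/-- The discrete Laplacian of the fields. -/
theorem lap_ae (hc : Kp Ω μ a a' A A' Ya Yb Y3 Z) {z : ℂ} {δ s : ℝ} (hδ : 0 ≤ δ) (hs : 0 < s)
    (p : Pt) (hp : closedBall (gp z δ p) (s + δ) ⊆ Ω) :
    ∀ᵐ x ∂μ, Disjoint (closedBall (gp z δ p) s) ((A (a x) : Set ℂ) ∪ A' (a' x)) →
      lap (fun y => Z (bump (gp z δ y) s) x) p = Z (psi (bump (gp z δ p) s) δ) x := by
  set c := gp z δ p with hcdef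
  have sub : ∀ e : ℂ, ‖e‖ ≤ δ → closedBall (c + e) s ⊆ Ω := by
    intro e he
    refine Set.Subset.trans ?_ hp
    intro w hw
    rw [mem_closedBall] at hw ⊢
    have : dist w c ≤ dist w (c + e) + dist (c + e) c := dist_triangle _ _ _
    have h2 : dist (c + e) c = ‖e‖ := by rw [dist_eq_norm, add_sub_cancel_left]
    linarith
  have t0 : IsTest Ω (bump c s) := by
    have := sub 0 (by simpa using hδ)
    rw [add_zero] at this
    exact bump_test hs this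
  have t1 : IsTest Ω (bump (c + δ) s) :=
    bump_test hs (sub δ (by rw [Complex.norm_real, Real.norm_of_nonneg hδ]))
  have t2 : IsTest Ω (bump (c - δ) s) := by
    have := sub (-δ) (by rw [norm_neg, Complex.norm_real, Real.norm_of_nonneg hδ])
    rw [← sub_eq_add_neg] at this
    exact bump_test hs this
  have t3 : IsTest Ω (bump (c + δ * Complex.I) s) :=
    bump_test hs (sub _ (by
      rw [norm_mul, Complex.norm_I, mul_one, Complex.norm_real, Real.norm_of_nonneg hδ]))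
  have t4 : IsTest Ω (bump (c - δ * Complex.I) s) := by
    have := sub (-(δ * Complex.I)) (by
      rw [norm_neg, norm_mul, Complex.norm_I, mul_one, Complex.norm_real, Real.norm_of_nonneg hδ])
    rw [← sub_eq_add_neg] at this
    exact bump_test hs this
  have t5 : IsTest Ω (fun w => - lapC (bump c s) w) := by
    have h1 := IsTest.add_mul (-1) (Vale.Agent.P155.U.isTest_zero Ω) (lapC_test t0)
    refine (iff_of_eq ?_).1 h1
    congr 1
    funext w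
    ring
  have hh := hc.harm _ _ t0 t5 (negLap_lapC t0.1 t0.2.1)
  -- linear combinations
  have lin : ∀ φ ψ (t : ℝ), IsTest Ω φ → IsTest Ω ψ →
      Z (fun z => φ z + t * ψ z) =ᵐ[μ] fun x => Z φ x + t * Z ψ x := by
    intro φ ψ t hφ hψ
    have := hc.linZ φ ψ hφ hψ 1 t
    simp only [one_mul] at this
    exact this
  have f1 := lin _ _ 1 t1 t2
  have g1 := IsTest.add_mul 1 t1 t2
  have f2 := lin _ _ 1 g1 t3
  have g2 := IsTest.add_mul 1 g1 t3
  have f3 := lin _ _ 1 g2 t4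
  have g3 := IsTest.add_mul 1 g2 t4
  have f4 := lin _ _ (-4) g3 t0
  have g4 := IsTest.add_mul (-4) g3 t0
  have f5 := lin _ _ (δ ^ 2) g4 t5
  have e : psi (bump c s) δ = fun w => bump (c + δ) s w + 1 * bump (c - δ) s w +
      1 * bump (c + δ * Complex.I) s w + 1 * bump (c - δ * Complex.I) s w +
      -4 * bump c s w + δ ^ 2 * (- lapC (bump c s) w) := by
    funext w
    rw [psi_bump]
    ring
  filter_upwards [hh, f1, f2, f3, f4, f5] with x hh f1 f2 f3 f4 f5 hd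
  rw [e, f5, f4, f3, f2, f1, hh (hd.mono_left (bump_tsupport hs))]
  unfold lap
  simp only [gp_e1, gp_e2, gp_e3, gp_e4]
  ring

/-- The visibility error. -/
theorem vis_ae (hc : Kp Ω μ a a' A A' Ya Yb Y3 Z) {z : ℂ} {δ s r r' : ℝ} {B : Finset Pt}
    (hB : Bx Ω z δ B) (hz : z ∈ Ω) (hδ : 0 ≤ δ) (hs : 0 < s) (hsr : s + δ ≤ r) (hsr' : s ≤ r') :
    ∀ᵐ x ∂μ, |Z (bump (gp z δ (0, 0)) s) x - ∑ y ∈ B,
      W (near Ω z δ (A (a x)) r ∪ near Ω z δ (A' (a' x)) r')ᶜ (0, 0) y *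
        Z (bump (gp z δ y) s) x| ≤ e0 B Ω z δ s Z x := by
  classical
  have h1 : ∀ᵐ x ∂μ, ∀ p ∈ B, closedBall (gp z δ p) (s + δ) ⊆ Ω →
      Disjoint (closedBall (gp z δ p) s) ((A (a x) : Set ℂ) ∪ A' (a' x)) →
      lap (fun y => Z (bump (gp z δ y) s) x) p = Z (psi (bump (gp z δ p) s) δ) x := by
    rw [Filter.eventually_all_finset]
    intro p _
    by_cases hp : closedBall (gp z δ p) (s + δ) ⊆ Ω
    · filter_upwards [lap_ae hc hδ hs p hp] with x hx _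
      exact hx
    · exact Filter.Eventually.of_forall fun x h' => absurd h' hp
  filter_upwards [h1, hc.geo1] with x h1 g
  have hO : (near Ω z δ (A (a x)) r ∪ near Ω z δ (A' (a' x)) r')ᶜ ⊆ {y | gp z δ y ∈ Ω} := by
    intro y hy
    rw [Set.mem_compl_iff, Set.mem_union, not_or] at hy
    exact (notMem_near.1 hy.1).1
  refine (vis_mono (inn_Om hB) hO (fun y => Z (bump (gp z δ y) s) x) (origin_mem hB hz)).trans ?_
  apply Finset.sum_le_sum
  intro p hp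
  apply mul_le_mul_of_nonneg_left _ (gr_nonneg (inn_Om hB).finite _ _)
  by_cases hpO : p ∈ (near Ω z δ (A (a x)) r ∪ near Ω z δ (A' (a' x)) r')ᶜ
  · rw [ch_mem hpO, one_mul]
    rw [Set.mem_compl_iff, Set.mem_union, not_or] at hpO
    obtain ⟨p1, p2⟩ := notMem_near.1 hpO.1
    obtain ⟨_, p3⟩ := notMem_near.1 hpO.2
    have hcb : closedBall (gp z δ p) (s + δ) ⊆ Ω := g.closedBall_sub p1 (by linarith)
    rw [if_pos hcb, h1 p hp hcb]
    rw [Set.disjoint_union_right]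
    exact ⟨closedBall_disj (by linarith), closedBall_disj (by linarith)⟩
  · rw [ch_not hpO, zero_mul]
    split_ifs
    · exact abs_nonneg _
    · exact le_rfl

/-- The expectation of the discretisation error. -/
theorem e0_int (hc : Kp Ω μ a a' A A' Ya Yb Y3 Z) {R M z δ s} {B : Finset Pt} {L : ℕ}
    (hR : 0 < R) (hΩ : ∀ z ∈ Ω, ‖z‖ < R) (hB : Bx Ω z δ B) (hδ : 0 ≤ δ) (hs : 0 < s)
    (hM0 : 0 ≤ M) (hM : ∀ (z : ℂ) (s : ℝ) (w : ℂ) (δ : ℝ), 0 < s → 0 ≤ δ →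
      |psi (bump z s) δ w| ≤ M * δ ^ 3 / s ^ 5)
    (hL : ∀ p, gp z δ p ∈ Ω → dn (0, 0) p ≤ L) :
    Integrable (e0 B Ω z δ s Z) μ ∧
      ∫ x, e0 B Ω z δ s Z x ∂μ ≤ ((L : ℝ) + 1) ^ 2 * (13 * (R ^ 2 * (M * δ ^ 3 / s ^ 5))) := by
  classical
  have := hc.prob
  set ε : ℝ := M * δ ^ 3 / s ^ 5 with hε
  have hε0 : 0 ≤ ε := by positivity
  have one : ∀ p ∈ B, Integrable (fun x => if closedBall (gp z δ p) (s + δ) ⊆ Ω then
      |Z (psi (bump (gp z δ p) s) δ) x| else 0) μ ∧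
      ∫ x, (if closedBall (gp z δ p) (s + δ) ⊆ Ω then
      |Z (psi (bump (gp z δ p) s) δ) x| else 0) ∂μ ≤ 13 * (R ^ 2 * ε) := by
    intro p _
    by_cases hp : closedBall (gp z δ p) (s + δ) ⊆ Ω
    · simp only [if_pos hp]
      have ht := psi_test hs hδ hp
      have hm := hc.memZ _ ht
      have hi : Integrable (Z (psi (bump (gp z δ p) s) δ)) μ := hm.integrable (by norm_num)
      refine ⟨hi.abs, ?_⟩
      have h1 := Z_sq_le hc hR hΩ ht (fun w => hM _ _ w _ hs hδ)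
      have h2 := (integral_sqrt_le (μ := μ) hm.integrable_sq
        (Filter.Eventually.of_forall fun x => sq_nonneg _)).2
      simp only [Real.sqrt_sq_eq_abs] at h2
      have h3 : μ.real Set.univ = 1 := by simp
      rw [h3, Real.sqrt_one, mul_one] at h2
      refine h2.trans ?_
      have h4 : √(∫ x, Z (psi (bump (gp z δ p) s) δ) x ^ 2 ∂μ) ≤
          √((13 * (R ^ 2 * ε)) ^ 2) := by
        apply Real.sqrt_le_sqrt
        refine h1.trans ?_
        rw [mul_pow 13]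
        exact mul_le_mul_of_nonneg_right (by norm_num : (160 : ℝ) ≤ 13 ^ 2) (sq_nonneg _)
      rwa [Real.sqrt_sq (by positivity)] at h4
    · simp only [if_neg hp]
      refine ⟨integrable_zero _ _ _, ?_⟩
      simp only [integral_zero]
      positivity
  have hint : Integrable (e0 B Ω z δ s Z) μ := by
    apply integrable_finsetSum
    intro p hp
    exact (one p hp).1.const_mul _
  refine ⟨hint, ?_⟩
  have hsum : ∫ x, e0 B Ω z δ s Z x ∂μ = ∑ p ∈ B, gr {y | gp z δ y ∈ Ω} (0, 0) p *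
      ∫ x, (if closedBall (gp z δ p) (s + δ) ⊆ Ω then
        |Z (psi (bump (gp z δ p) s) δ) x| else 0) ∂μ := by
    unfold e0
    rw [integral_finsetSum _ (fun p hp => (one p hp).1.const_mul _)]
    simp only [integral_const_mul]
  rw [hsum]
  calc _ ≤ ∑ p ∈ B, gr {y | gp z δ y ∈ Ω} (0, 0) p * (13 * (R ^ 2 * ε)) := by
        apply Finset.sum_le_sum
        intro p hp
        exact mul_le_mul_of_nonneg_left (one p hp).2 (gr_nonneg (inn_Om hB).finite _ _)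
    _ = (∑ p ∈ B, gr {y | gp z δ y ∈ Ω} (0, 0) p) * (13 * (R ^ 2 * ε)) := by
        rw [Finset.sum_mul]
    _ ≤ _ := mul_le_mul_of_nonneg_right (sum_gr_le (p := (0, 0)) (fun p hp => hL p hp) (0, 0) B)
        (by positivity)

/-- Different radii. -/
theorem bump_radius (hc : Kp Ω μ a a' A A' Ya Yb Y3 Z) {z : ℂ} {s r : ℝ} (hs : 0 < s) (hsr : s ≤ r)
    (hr : closedBall z r ⊆ Ω) : ∀ᵐ x ∂μ, Disjoint (closedBall z r) ((A (a x) : Set ℂ) ∪ A' (a' x)) →
      Z (bump z s) x = Z (bump z r) x := by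
  have hr0 : 0 < r := hs.trans_le hsr
  have hm : max r s = r := max_eq_left hsr
  have t1 : IsTest Ω (bump z s) := bump_test hs ((closedBall_subset_closedBall hsr).trans hr)
  have t2 : IsTest Ω (bump z r) := bump_test hr0 hr
  have t3 : IsTest Ω (pdiff z r s) := pdiff_test hr0 hs (by rw [hm]; exact hr)
  have t4 := IsTest.add_mul (-1) t1 t2
  have e : (fun w => bump z s w - bump z r w) = fun w => bump z s w + -1 * bump z r w := by
    funext w; ring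
  have h1 := hc.harm _ _ t3 t4 (by rw [← e]; exact negLap_pdiff z hs hr0)
  have h2 := hc.linZ _ _ t1 t2 1 (-1)
  simp only [one_mul] at h2
  filter_upwards [h1, h2] with x h1 h2 hd
  have := h1 (hd.mono_left (by have := pdiff_tsupport (z := z) hr0 hs; rwa [hm] at this))
  rw [h2] at this
  linarith

theorem meas1 (hc : Kp Ω μ a a' A A' Ya Yb Y3 Z) (w : ℂ) (r : ℝ) :
    MeasurableSet[MeasurableSpace.comap a mS] {θ | Metric.infDist w (A (a θ) : Set ℂ) ≤ r} :=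
  hc.cv1.near w r

theorem meas1' (hc : Kp Ω μ a a' A A' Ya Yb Y3 Z) (w : ℂ) (r : ℝ) :
    MeasurableSet {θ | Metric.infDist w (A (a θ) : Set ℂ) ≤ r} :=
  hc.cv1.le _ (meas1 hc w r)

theorem meas2 (hc : Kp Ω μ a a' A A' Ya Yb Y3 Z) (w : ℂ) (r : ℝ) :
    MeasurableSet[MeasurableSpace.comap a' mS'] {θ | Metric.infDist w (A' (a' θ) : Set ℂ) ≤ r} :=
  hc.cv2.near w r

theorem meas2' (hc : Kp Ω μ a a' A A' Ya Yb Y3 Z) (w : ℂ) (r : ℝ) :
    MeasurableSet {θ | Metric.infDist w (A' (a' θ) : Set ℂ) ≤ r} :=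
  hc.cv2.le _ (meas2 hc w r)

theorem meas31 (hc : Kp Ω μ a a' A A' Ya Yb Y3 Z) (w : ℂ) (r : ℝ) :
    MeasurableSet[MeasurableSpace.comap (fun x => (a x, a' x)) (mS.prod mS')]
      {θ | Metric.infDist w (A (a θ) : Set ℂ) ≤ r} :=
  ⟨{s : S × S' | Metric.infDist w (A s.1 : Set ℂ) ≤ r},
    measurableSet_le ((meas_infDist hc.mA w).comp measurable_fst) measurable_const, rfl⟩

theorem meas32 (hc : Kp Ω μ a a' A A' Ya Yb Y3 Z) (w : ℂ) (r : ℝ) :
    MeasurableSet[MeasurableSpace.comap (fun x => (a x, a' x)) (mS.prod mS')]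
      {θ | Metric.infDist w (A' (a' θ) : Set ℂ) ≤ r} :=
  ⟨{s : S × S' | Metric.infDist w (A' s.2 : Set ℂ) ≤ r},
    measurableSet_le ((meas_infDist hc.mA' w).comp measurable_snd) measurable_const, rfl⟩

/-- The pointwise inequality. -/
theorem pointwise (hc : Kp Ω μ a a' A A' Ya Yb Y3 Z) {z : ℂ} {r0 δ s r rm r' rm' : ℝ}
    {B : Finset Pt} (hB : Bx Ω z δ B) (hz : z ∈ Ω) (hδ : 0 < δ) (hs : 0 < s)
    (c1 : Sc r0 δ s r rm) (c2 : Sc r0 δ s r' rm') :
    ∀ᵐ x ∂μ, x ∈ UK.DD z a a' A A' r0 → |Z (bump z s) x| ≤ cst + (e0 B Ω z δ s Z x +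
      √(fe Ω z δ B (fun x => (A (a x) : Set ℂ)) (fun x => (A' (a' x) : Set ℂ))
        Y3 tau1 r r' s x) +
      √(fe Ω z δ B (fun x => (A' (a' x) : Set ℂ)) (fun x => (A (a x) : Set ℂ))
        Y3 tau2 r' r s x) +
      (√(ft1 Ω z δ B (fun x => (A (a x) : Set ℂ)) Ya r rm s x) +
        √(ft2 Ω z δ B (fun x => (A (a x) : Set ℂ)) Ya r s x) *
          √(m1 Ω z δ a a' A A' r rm r' x)) +
      (√(ft1 Ω z δ B (fun x => (A' (a' x) : Set ℂ)) Yb r' rm' s x) +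
        √(ft2 Ω z δ B (fun x => (A' (a' x) : Set ℂ)) Yb r' s x) *
          √(m2 Ω z δ a a' A A' r r' rm' x))) := by
  classical
  have hr : 0 < r := by linarith [c1.a1]
  have hr' : 0 < r' := by linarith [c2.a1]
  filter_upwards [hc.geo1, hc.geo2, vis_ae hc hB hz hδ.le hs (r := r) (r' := r')
    (by linarith [c1.a2]) (by linarith [c2.a2]), sg hc.geo1 hc.s1 z δ hs,
    sg hc.geo2 hc.s2 z δ hs] with x g g' hv hs1 hs2 hD
  obtain ⟨hD1, hD2⟩ := hD
  have hD1' : r0 < infDist z (A (a x) : Set ℂ) := hD1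
  have hD2' : r0 < infDist z (A' (a' x) : Set ℂ) := hD2
  set SS := near Ω z δ (A (a x)) r with hSS
  set SS' := near Ω z δ (A' (a' x)) r' with hSS'
  have h0 : ((0, 0) : Pt) ∉ SS :=
    notMem_near.2 (by rw [gp_zero]; exact ⟨hz, by linarith [c1.a3, c1.a4]⟩)
  have h0' : ((0, 0) : Pt) ∉ SS' :=
    notMem_near.2 (by rw [gp_zero]; exact ⟨hz, by linarith [c2.a3, c2.a4]⟩)
  have fin1 := g.finite hδ z r
  have fin1' := g'.finite hδ z r'
  have key := key1 (B := B) (S := SS) (Sm := near Ω z δ (A (a x)) rm) (S' := SS')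
    (Sm' := near Ω z δ (A' (a' x)) rm') (hB _ _) (hB _ _)
    (near_mono (by linarith [c1.a3])) (near_mono (by linarith [c2.a3])) (origin_mem hB hz)
    (X := fun y => Z (bump (gp z δ y) s) x)
    (h := fun y => (fun φ x => Z φ x + Y3 φ x - Ya φ x) (bump (gp z δ y) s) x)
    (h' := fun y => (fun φ x => Z φ x + Y3 φ x - Yb φ x) (bump (gp z δ y) s) x)
    (Y1 := fun y => Ya (bump (gp z δ y) s) x)
    (Y2 := fun y => Yb (bump (gp z δ y) s) x)
    (Y3 := fun y => Y3 (bump (gp z δ y) s) x) (c := cst)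
    (e0 := e0 B Ω z δ s Z x) hv
    (by
      intro y hy hyS hW
      refine ⟨by simp only; ring, ?_⟩
      have hW0 : 0 < W (SS ∪ SS')ᶜ (0, 0) y := lt_of_le_of_ne
        (W_nonneg (fin1.subset (Set.compl_subset_compl.2 Set.subset_union_left)) _ _) (Ne.symm hW)
      obtain ⟨y1, y2, y3⟩ := g.exit_spec hδ (by linarith [c1.a2]) h0
        (hW0.trans_le (W_le_W fin1 _ hyS)).ne'
      exact hs1 _ y1 (by linarith [c1.a2]))
    (by
      intro y hy hyS hyn hW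
      refine ⟨by simp only; ring, ?_⟩
      have hW0 : 0 < W (SS' ∪ SS)ᶜ (0, 0) y := by
        rw [Set.union_comm]
        exact lt_of_le_of_ne (W_nonneg (fin1.subset
          (Set.compl_subset_compl.2 Set.subset_union_left)) _ _) (Ne.symm hW)
      obtain ⟨y1, y2, y3⟩ := g'.exit_spec hδ (by linarith [c2.a2]) h0'
        (hW0.trans_le (W_le_W fin1' _ hyS)).ne'
      exact hs2 _ y1 (by linarith [c2.a2]))
  rw [gp_zero] at key
  -- comparison of the terms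
  have e1 : |∑ y ∈ B, W (SS ∪ SS')ᶜ (0, 0) y * ch SS y *
      Y3 (bump (gp z δ y) s) x| =
      √(fe Ω z δ B (fun x => (A (a x) : Set ℂ)) (fun x => (A' (a' x) : Set ℂ))
        Y3 tau1 r r' s x) := by
    unfold fe
    rw [Real.sqrt_sq_eq_abs]
    congr 1
    apply Finset.sum_congr rfl
    intro y hy
    congr 2
    unfold tau1 ch
    simp only [OF, Finset.mem_filter, hy, true_and, ← hSS]
    by_cases hyS : y ∈ SS <;> simp [hyS]
  have e2 : |∑ y ∈ B, W (SS ∪ SS')ᶜ (0, 0) y * ch (SS' \ SS) y *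
      Y3 (bump (gp z δ y) s) x| =
      √(fe Ω z δ B (fun x => (A' (a' x) : Set ℂ)) (fun x => (A (a x) : Set ℂ))
        Y3 tau2 r' r s x) := by
    unfold fe
    rw [Real.sqrt_sq_eq_abs]
    congr 1
    apply Finset.sum_congr rfl
    intro y hy
    simp only [← hSS, ← hSS']
    rw [Set.union_comm SS' SS]
    congr 2
    unfold tau2 ch
    simp only [OF, Finset.mem_filter, hy, true_and, ← hSS, ← hSS']
    by_cases hyS : y ∈ SS <;> by_cases hyS' : y ∈ SS' <;> simp [hyS, hyS']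
  have t1 : T1 B SS (near Ω z δ (A (a x)) rm) (fun y => Ya (bump (gp z δ y) s) x) (0, 0) ≤
      √(ft1 Ω z δ B (fun x => (A (a x) : Set ℂ)) Ya r rm s x) :=
    sum_abs_le_sqrt (fun p _ => W_nonneg (g.finite hδ z rm) _ _)
      (sum_W (hB _ _) (origin_mem hB hz)).le _
  have t1' : T1 B SS' (near Ω z δ (A' (a' x)) rm') (fun y => Yb (bump (gp z δ y) s) x)
      (0, 0) ≤ √(ft1 Ω z δ B (fun x => (A' (a' x) : Set ℂ)) Yb r' rm' s x) :=
    sum_abs_le_sqrt (fun p _ => W_nonneg (g'.finite hδ z rm') _ _)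
      (sum_W (hB _ _) (origin_mem hB hz)).le _
  rw [e1, e2] at key
  have t2 : T2 B SS (fun y => Ya (bump (gp z δ y) s) x) (0, 0) =
      ft2 Ω z δ B (fun x => (A (a x) : Set ℂ)) Ya r s x := rfl
  have t2' : T2 B SS' (fun y => Yb (bump (gp z δ y) s) x) (0, 0) =
      ft2 Ω z δ B (fun x => (A' (a' x) : Set ℂ)) Yb r' s x := rfl
  rw [t2, t2'] at key
  unfold m1 m2
  linarith

theorem meas_DD (hc : Kp Ω μ a a' A A' Ya Yb Y3 Z) (z : ℂ) (r0 : ℝ) :
    MeasurableSet (UK.DD z a a' A A' r0) :=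
  (meas_gt (meas1' hc z r0)).inter (meas_gt (meas2' hc z r0))

/-- The inequality at one scale, in expectation. -/
theorem scale (hc : Kp Ω μ a a' A A' Ya Yb Y3 Z) {M C β M' R : ℝ} (hM : BB M) (hC : SP C β)
    (hM0' : 0 ≤ M') (hM' : ∀ (z : ℂ) (s : ℝ) (w : ℂ) (δ : ℝ), 0 < s → 0 ≤ δ →
      |psi (bump z s) δ w| ≤ M' * δ ^ 3 / s ^ 5) (hR : 0 < R) (hΩ : ∀ z ∈ Ω, ‖z‖ < R)
    {z : ℂ} {r0 δ s r rm r' rm' : ℝ}
    {B : Finset Pt} {L : ℕ} (hL : ∀ p, gp z δ p ∈ Ω → dn (0, 0) p ≤ L)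
    (hB : Bx Ω z δ B) (hz : closedBall z r0 ⊆ Ω) (hδ : 0 < δ) (hs : 0 < s)
    (c1 : Sc r0 δ s r rm) (c2 : Sc r0 δ s r' rm') :
    ∫ x in UK.DD z a a' A A' r0, max (|Z (bump z s) x| - cst) 0 ∂μ ≤
      ((L : ℝ) + 1) ^ 2 * (13 * (R ^ 2 * (M' * δ ^ 3 / s ^ 5))) +
      (√(qn M r s * (C * (2 * r / rm) ^ β)) + √(qn M r' s * (C * (2 * r' / rm') ^ β))) +
      (√(qn M r s * (C * (2 * r / rm) ^ β)) +
        √(qn M r s) * √(∫ x in UK.DD z a a' A A' r0, m1 Ω z δ a a' A A' r rm r' x ∂μ)) +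
      (√(qn M r' s * (C * (2 * r' / rm') ^ β)) +
        √(qn M r' s) * √(∫ x in UK.DD z a a' A A' r0, m2 Ω z δ a a' A A' r r' rm' x ∂μ)) := by
  have := hc.prob
  have hr : 0 < r := by linarith [c1.a1]
  have hr' : 0 < r' := by linarith [c2.a1]
  have hrm : 0 < rm := by linarith [c1.a3]
  have hrm' : 0 < rm' := by linarith [c2.a3]
  have hr0 : 0 < r0 := by linarith [c1.a4]
  have hzΩ : z ∈ Ω := hz (mem_closedBall_self hr0.le)
  have g1 := hc.geo1
  have g2 := hc.geo2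
  set D := UK.DD z a a' A A' r0 with hDdef
  have hDm : MeasurableSet D := meas_DD hc z r0
  have hD1 : D ⊆ {x | r0 < infDist z (A (a x) : Set ℂ)} := Set.inter_subset_left
  have hD2 : D ⊆ {x | r0 < infDist z (A' (a' x) : Set ℂ)} := Set.inter_subset_right
  -- T1, T2
  obtain ⟨iT1, bT1⟩ := cvT1 hM hC hc.cv1 g1 hB hzΩ hδ hs c1.a1 c1.a2 c1.a3 c1.a4 c1.a5
  obtain ⟨iT2, bT2⟩ := cvT2 hM hc.cv1 g1 hB hzΩ hδ hs c1.a1 c1.a2 c1.a5
  obtain ⟨iT1', bT1'⟩ := cvT1 hM hC hc.cv2 g2 hB hzΩ hδ hs c2.a1 c2.a2 c2.a3 c2.a4 c2.a5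
  obtain ⟨iT2', bT2'⟩ := cvT2 hM hc.cv2 g2 hB hzΩ hδ hs c2.a1 c2.a2 c2.a5
  have cv3 := hc.cv3
  have cv3' : CondVar μ (MeasurableSpace.comap (fun x => (a x, a' x)) (mS.prod mS')) Ω
      (fun x => (A' (a' x) : Set ℂ) ∪ A (a x)) Y3 := by
    have e : (fun x => (A' (a' x) : Set ℂ) ∪ A (a x)) =
        (fun x => (A (a x) : Set ℂ) ∪ A' (a' x)) := by
      funext x; exact Set.union_comm _ _
    rw [e]; exact cv3
  have hβ := hC.2.1
  have hC0 := hC.1
  obtain ⟨iE1, bE1⟩ := cvE (r' := r') hM hC cv3 (meas31 hc) (meas32 hc) g1 hB hzΩ hδ hs c1.a1 c1.a2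
    c1.a5 tau1 (fun i y => by unfold tau1; split_ifs <;> norm_num)
    (fun i y => by unfold tau1; split_ifs <;> norm_num)
    (fun i y hy => by unfold tau1; rw [if_pos hy])
  obtain ⟨iE2, bE2⟩ := cvE (r' := r) hM hC cv3' (meas32 hc) (meas31 hc) g2 hB hzΩ hδ hs c2.a1 c2.a2
    c2.a5 tau2 (fun i y => by unfold tau2; split_ifs <;> norm_num)
    (fun i y => by unfold tau2; split_ifs <;> norm_num)
    (fun i y hy => by unfold tau2; rw [if_pos hy])
  have q0 := qn_nonneg M hs c1.a1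
  have q0' := qn_nonneg M hs c2.a1
  have bE1' : qn M r s * (C * (2 * r / r0) ^ β) ≤ qn M r s * (C * (2 * r / rm) ^ β) := by
    apply mul_le_mul_of_nonneg_left _ q0
    apply mul_le_mul_of_nonneg_left _ hC0.le
    apply Real.rpow_le_rpow (by positivity) _ hβ.le
    exact div_le_div_of_nonneg_left (by positivity) hrm c1.a4
  have bE2' : qn M r' s * (C * (2 * r' / r0) ^ β) ≤ qn M r' s * (C * (2 * r' / rm') ^ β) := by
    apply mul_le_mul_of_nonneg_left _ q0'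
    apply mul_le_mul_of_nonneg_left _ hC0.le
    apply Real.rpow_le_rpow (by positivity) _ hβ.le
    exact div_le_div_of_nonneg_left (by positivity) hrm' c2.a4
  obtain ⟨-, jE1, dE1⟩ := sqrt_on hD1 (Filter.Eventually.of_forall fun x _ => sq_nonneg _)
    (meas_gt (meas1' hc z r0)) iE1 (bE1.trans bE1')
  obtain ⟨-, jE2, dE2⟩ := sqrt_on hD2 (Filter.Eventually.of_forall fun x _ => sq_nonneg _)
    (meas_gt (meas2' hc z r0)) iE2 (bE2.trans bE2')
  obtain ⟨-, jT1, dT1⟩ := sqrt_on hD1 (by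
      filter_upwards [g1] with x g _
      exact Finset.sum_nonneg fun p _ => mul_nonneg (W_nonneg (g.finite hδ z rm) _ _) (sq_nonneg _))
    (meas_gt (meas1' hc z r0)) iT1 bT1
  obtain ⟨-, jT1', dT1'⟩ := sqrt_on hD2 (by
      filter_upwards [g2] with x g _
      exact Finset.sum_nonneg fun p _ => mul_nonneg (W_nonneg (g.finite hδ z rm') _ _) (sq_nonneg _))
    (meas_gt (meas2' hc z r0)) iT1' bT1'
  have nT2 : ∀ᵐ x ∂μ, x ∈ {x | r0 < infDist z (A (a x) : Set ℂ)} → 0 ≤ ∑ y ∈ B,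
      W (near Ω z δ (A (a x)) r)ᶜ (0, 0) y * Ya (bump (gp z δ y) s) x ^ 2 := by
    filter_upwards [g1] with x g _
    exact Finset.sum_nonneg fun p _ => mul_nonneg (W_nonneg (g.finite hδ z r) _ _) (sq_nonneg _)
  have nT2' : ∀ᵐ x ∂μ, x ∈ {x | r0 < infDist z (A' (a' x) : Set ℂ)} → 0 ≤ ∑ y ∈ B,
      W (near Ω z δ (A' (a' x)) r')ᶜ (0, 0) y * Yb (bump (gp z δ y) s) x ^ 2 := by
    filter_upwards [g2] with x g _
    exact Finset.sum_nonneg fun p _ => mul_nonneg (W_nonneg (g.finite hδ z r') _ _) (sq_nonneg _)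
  obtain ⟨⟨kT2, lT2⟩, -⟩ := sqrt_on hD1 nT2 (meas_gt (meas1' hc z r0)) iT2 bT2
  obtain ⟨⟨kT2', lT2'⟩, -⟩ := sqrt_on hD2 nT2' (meas_gt (meas2' hc z r0)) iT2' bT2'
  -- the losses of mass
  have im1 : Integrable (m1 Ω z δ a a' A A' r rm r') μ :=
    (hp_int hB (meas1' hc) (meas2' hc) rm r' (0, 0)).sub
      (hp_int hB (meas1' hc) (meas2' hc) r r' (0, 0))
  have im2 : Integrable (m2 Ω z δ a a' A A' r r' rm') μ :=
    (hp_int hB (meas1' hc) (meas2' hc) r r' (0, 0)).sub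
      (hp_int hB (meas1' hc) (meas2' hc) r rm' (0, 0))
  have nm1 : ∀ᵐ x ∂μ, 0 ≤ m1 Ω z δ a a' A A' r rm r' x := by
    filter_upwards [g1] with x g
    have hfin := g.finite hδ z r
    exact sub_nonneg.2 (hp_mono_S (near_mono (by linarith [c1.a3]))
      (hfin.subset (Set.compl_subset_compl.2 Set.subset_union_left)) _)
  have nm2 : ∀ᵐ x ∂μ, 0 ≤ m2 Ω z δ a a' A A' r r' rm' x := by
    filter_upwards [g1] with x g
    have hfin := g.finite hδ z r
    exact sub_nonneg.2 (hp_mono_R (near_mono (by linarith [c2.a3]))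
      (hfin.subset (Set.compl_subset_compl.2 Set.subset_union_left)) _)
  have ae_sub : ∀ {P : X → Prop}, (∀ᵐ x ∂μ, P x) → ∀ᵐ x ∂(μ.restrict D), P x := fun hP =>
    ae_restrict_of_ae hP
  obtain ⟨jm1, dm1⟩ := integral_sqrt_mul_le (μ := μ.restrict D) kT2 im1.integrableOn
    (by
      have := ae_restrict_of_ae (s := D) nT2
      filter_upwards [this, ae_restrict_mem hDm] with x hx hxD
      exact hx (hD1 hxD))
    (ae_sub nm1)
  obtain ⟨jm2, dm2⟩ := integral_sqrt_mul_le (μ := μ.restrict D) kT2' im2.integrableOn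
    (by
      have := ae_restrict_of_ae (s := D) nT2'
      filter_upwards [this, ae_restrict_mem hDm] with x hx hxD
      exact hx (hD2 hxD))
    (ae_sub nm2)
  -- the discretisation error
  obtain ⟨i0, b0⟩ := e0_int (s := s) hc hR hΩ hB hδ.le hs hM0' hM' hL
  have b0' : ∫ x in D, e0 B Ω z δ s Z x ∂μ ≤
      ((L : ℝ) + 1) ^ 2 * (13 * (R ^ 2 * (M' * δ ^ 3 / s ^ 5))) :=
    (setIntegral_le_integral i0 (Filter.Eventually.of_forall fun x => e0_nonneg hB x)).trans b0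
  -- the left hand side
  have hsr : s ≤ r0 := by linarith [c1.a1, c1.a5]
  have hZ : Integrable (Z (bump z s)) μ :=
    (hc.memZ _ (bump_test hs ((closedBall_subset_closedBall hsr).trans hz))).integrable
      (by norm_num)
  have hZi : Integrable (fun x => max (|Z (bump z s) x| - cst) 0) μ :=
    (hZ.abs.sub (integrable_const _)).sup (integrable_zero _ _ _)
  have hpt := pointwise hc hB hzΩ hδ hs c1 c2
  have hI := ((((i0.integrableOn (s := D)).add jE1).add jE2).add (jT1.add jm1)).add (jT1'.add jm2)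
  have hmono := integral_mono_ae (μ := μ.restrict D) hZi.integrableOn hI (by
    filter_upwards [ae_restrict_of_ae (s := D) hpt, ae_restrict_mem hDm] with x hx hxD
    have hx' := hx hxD
    apply max_le
    · simp only [Pi.add_apply]
      unfold fe ft1 ft2 at hx'
      linarith
    · have := e0_nonneg (s := s) (Z := Z) hB x
      simp only [Pi.add_apply]
      positivity)
  refine hmono.trans ?_
  have hsum := integral_add (μ := μ.restrict D)
    ((((i0.integrableOn (s := D)).add jE1).add jE2).add (jT1.add jm1)) (jT1'.add jm2)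
  have hsum2 := integral_add (μ := μ.restrict D)
    (((i0.integrableOn (s := D)).add jE1).add jE2) (jT1.add jm1)
  have hsum3 := integral_add (μ := μ.restrict D) ((i0.integrableOn (s := D)).add jE1) jE2
  have hsum4 := integral_add (μ := μ.restrict D) (i0.integrableOn (s := D)) jE1
  have hsum5 := integral_add (μ := μ.restrict D) jT1 jm1
  have hsum6 := integral_add (μ := μ.restrict D) jT1' jm2
  simp only [Pi.add_apply] at hsum hsum2 hsum3 hsum4 hsum5 hsum6 ⊢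
  rw [hsum, hsum2, hsum3, hsum4, hsum5, hsum6]
  have f1 : √(∫ x in D, ∑ y ∈ B, W (near Ω z δ (A (a x)) r)ᶜ (0, 0) y *
      Ya (bump (gp z δ y) s) x ^ 2 ∂μ) ≤ √(qn M r s) := Real.sqrt_le_sqrt lT2
  have f2 : √(∫ x in D, ∑ y ∈ B, W (near Ω z δ (A' (a' x)) r')ᶜ (0, 0) y *
      Yb (bump (gp z δ y) s) x ^ 2 ∂μ) ≤ √(qn M r' s) := Real.sqrt_le_sqrt lT2'
  have f3 := mul_le_mul_of_nonneg_right f1 (Real.sqrt_nonneg
    (∫ x in D, m1 Ω z δ a a' A A' r rm r' x ∂μ))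
  have f4 := mul_le_mul_of_nonneg_right f2 (Real.sqrt_nonneg
    (∫ x in D, m2 Ω z δ a a' A A' r r' rm' x ∂μ))
  linarith

/-- The loss of mass is small at some scale. -/
theorem pigeon (hc : Kp Ω μ a a' A A' Ya Yb Y3 Z) {C β : ℝ} (hC : HC C β) {z : ℂ} {r0 δ ρ : ℝ}
    {B : Finset Pt} (hB : Bx Ω z δ B) (hr0 : 0 < r0) (hρ : 0 < ρ) (hρ8 : ρ ≤ 1 / 8) {L : ℕ}
    (hL : 0 < L) (hδ : 0 < δ) (hδ' : δ ≤ r0 * ρ ^ (L + 4)) :
    ∃ i < L, ∫ x in UK.DD z a a' A A' r0,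
        m1 Ω z δ a a' A A' (r0 * ρ ^ (i + 1)) (r0 * ρ ^ i) (r0 * ρ ^ (i + 3)) x ∂μ +
      ∫ x in UK.DD z a a' A A' r0,
        m2 Ω z δ a a' A A' (r0 * ρ ^ (i + 1)) (r0 * ρ ^ (i + 3)) (r0 * ρ ^ (i + 2)) x ∂μ ≤
      3 / L + 2 * (C * ρ ^ β) := by
  have := hc.prob
  have hρ1 : ρ ≤ 1 := by linarith
  have hβ := hC.2.1
  have hC0 := hC.1
  set ε : ℝ := C * ρ ^ β with hε
  have hε0 : 0 ≤ ε := by positivity
  have mono : ∀ i j : ℕ, i ≤ j → r0 * ρ ^ j ≤ r0 * ρ ^ i := fun i j hij =>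
    mul_le_mul_of_nonneg_left (pow_le_pow_of_le_one hρ.le hρ1 hij) hr0.le
  have pos : ∀ i : ℕ, 0 < r0 * ρ ^ i := fun i => by positivity
  have half : ∀ i : ℕ, r0 * ρ ^ (i + 1) ≤ r0 * ρ ^ i / 2 := by
    intro i
    rw [pow_succ]
    have := pos i
    nlinarith
  set f : ℕ → X → ℝ := fun i x =>
    m1 Ω z δ a a' A A' (r0 * ρ ^ (i + 1)) (r0 * ρ ^ i) (r0 * ρ ^ (i + 3)) x +
    m2 Ω z δ a a' A A' (r0 * ρ ^ (i + 1)) (r0 * ρ ^ (i + 3)) (r0 * ρ ^ (i + 2)) x with hf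
  have im1 : ∀ r rm r' : ℝ, Integrable (m1 Ω z δ a a' A A' r rm r') μ := fun r rm r' =>
    (hp_int hB (meas1' hc) (meas2' hc) rm r' (0, 0)).sub
      (hp_int hB (meas1' hc) (meas2' hc) r r' (0, 0))
  have im2 : ∀ r r' rm' : ℝ, Integrable (m2 Ω z δ a a' A A' r r' rm') μ := fun r r' rm' =>
    (hp_int hB (meas1' hc) (meas2' hc) r r' (0, 0)).sub
      (hp_int hB (meas1' hc) (meas2' hc) r rm' (0, 0))
  have hsum : ∀ᵐ x ∂μ, ∑ i ∈ Finset.range L, f i x ≤ 3 + L * (2 * ε) := by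
    filter_upwards [hc.geo1, hc.geo2] with x g g'
    set G : ℕ → ℝ := fun k => hp (near Ω z δ (A (a x)) (r0 * ρ ^ k))
      (near Ω z δ (A' (a' x)) (r0 * ρ ^ (L + 4))) (0, 0) with hG
    have hfin : ∀ k : ℕ, ((near Ω z δ (A (a x)) (r0 * ρ ^ k) ∪
        near Ω z δ (A' (a' x)) (r0 * ρ ^ (L + 4)))ᶜ : Set Pt).Finite := fun k =>
      (g.finite hδ z _).subset (Set.compl_subset_compl.2 Set.subset_union_left)
    have G0 : ∀ k, 0 ≤ G k := fun k => hp_nonneg (hfin k) _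
    have G1 : ∀ k, G k ≤ 1 := fun k => hp_le_one (hfin k) _
    have hterm : ∀ i ∈ Finset.range L, f i x ≤ (G i - G (i + 1)) +
        2 * (G (i + 1) - G (i + 2)) + 2 * ε := by
      intro i hi
      rw [Finset.mem_range] at hi
      have hP : ∀ p ∈ near Ω z δ (A' (a' x)) (r0 * ρ ^ (i + 2)),
          p ∉ near Ω z δ (A (a x)) (r0 * ρ ^ (i + 1)) →
          hp (near Ω z δ (A (a x)) (r0 * ρ ^ (i + 2)))
            (near Ω z δ (A' (a' x)) (r0 * ρ ^ (L + 4))) p ≤ ε := by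
        intro p hp1 hp2
        have := hC.2.2 Ω (A (a x)) (A' (a' x)) g g' z δ (r0 * ρ ^ (L + 4)) (r0 * ρ ^ (i + 2))
          (r0 * ρ ^ (i + 1)) (r0 * ρ ^ (i + 2)) hδ hδ' (mono _ _ (by omega)) (pos _) (half _) p
          hp1 hp2
        refine this.trans (le_of_eq ?_)
        rw [hε]
        congr 2
        have h1 : r0 ≠ 0 := hr0.ne'
        have h2 : ρ ≠ 0 := hρ.ne'
        rw [pow_succ ρ (i + 1)]
        field_simp
      have l1 := loss1 (S1 := near Ω z δ (A (a x)) (r0 * ρ ^ i))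
        (S2 := near Ω z δ (A (a x)) (r0 * ρ ^ (i + 1)))
        (S3 := near Ω z δ (A (a x)) (r0 * ρ ^ (i + 2)))
        (R := near Ω z δ (A' (a' x)) (r0 * ρ ^ (i + 3)))
        (R' := near Ω z δ (A' (a' x)) (r0 * ρ ^ (L + 4)))
        (near_mono (mono _ _ (by omega))) (near_mono (mono _ _ (by omega)))
        (near_mono (mono _ _ (by omega))) (hfin (i + 2)) hε0
        (fun p hp1 hp2 => hP p (near_mono (mono _ _ (by omega)) hp1) hp2) (0, 0)
      have l2 := loss2 (S2 := near Ω z δ (A (a x)) (r0 * ρ ^ (i + 1)))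
        (S3 := near Ω z δ (A (a x)) (r0 * ρ ^ (i + 2)))
        (R'' := near Ω z δ (A' (a' x)) (r0 * ρ ^ (i + 2)))
        (R := near Ω z δ (A' (a' x)) (r0 * ρ ^ (i + 3)))
        (R' := near Ω z δ (A' (a' x)) (r0 * ρ ^ (L + 4)))
        (near_mono (mono _ _ (by omega))) (near_mono (mono _ _ (by omega)))
        (near_mono (mono _ _ (by omega))) (hfin (i + 2)) hε0 hP (0, 0)
      simp only [hf, hG, m1, m2]
      linarith
    calc ∑ i ∈ Finset.range L, f i x ≤ ∑ i ∈ Finset.range L, ((G i - G (i + 1)) +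
          2 * (G (i + 1) - G (i + 2)) + 2 * ε) := Finset.sum_le_sum hterm
      _ = (G 0 - G L) + 2 * (G 1 - G (L + 1)) + L * (2 * ε) := by
          rw [Finset.sum_add_distrib, Finset.sum_add_distrib, ← Finset.mul_sum,
            Finset.sum_range_sub' G L, Finset.sum_range_sub' (fun i => G (i + 1)) L,
            Finset.sum_const, Finset.card_range, nsmul_eq_mul]
      _ ≤ 3 + L * (2 * ε) := by
          have := G0 L
          have := G1 0
          have := G1 1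
          have := G0 (L + 1)
          linarith
  have if1 : ∀ i, Integrable (f i) μ := fun i => (im1 _ _ _).add (im2 _ _ _)
  have hint : ∑ i ∈ Finset.range L, ∫ x in UK.DD z a a' A A' r0, f i x ∂μ ≤ 3 + L * (2 * ε) := by
    rw [← integral_finsetSum _ (fun i _ => (if1 i).integrableOn)]
    have h1 : ∫ x in UK.DD z a a' A A' r0, ∑ i ∈ Finset.range L, f i x ∂μ ≤
        ∫ _ in UK.DD z a a' A A' r0, (3 + L * (2 * ε)) ∂μ := by
      apply integral_mono_ae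
      · exact (integrable_finsetSum _ (fun i _ => (if1 i))).integrableOn
      · exact (integrable_const _).integrableOn
      · exact ae_restrict_of_ae hsum
    refine h1.trans ?_
    rw [setIntegral_const, smul_eq_mul]
    have : μ.real (UK.DD z a a' A A' r0) ≤ 1 := measureReal_le_one
    have h3 : (0 : ℝ) ≤ 3 + L * (2 * ε) := by positivity
    nlinarith
  have hL' : (0 : ℝ) < L := by exact_mod_cast hL
  obtain ⟨i, hi, hle⟩ := Finset.exists_le_of_sum_le (s := Finset.range L)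
    (f := fun i => ∫ x in UK.DD z a a' A A' r0, f i x ∂μ) (g := fun _ => 3 / L + 2 * ε)
    ⟨0, Finset.mem_range.2 hL⟩ (by
      rw [Finset.sum_const, Finset.card_range, nsmul_eq_mul]
      refine hint.trans (le_of_eq ?_)
      field_simp)
  refine ⟨i, Finset.mem_range.1 hi, ?_⟩
  rw [← integral_add (im1 _ _ _).integrableOn (im2 _ _ _).integrableOn]
  exact hle

/-- The bound for given `ρ`, `L`, `δ`. -/
theorem bound1 (hc : Kp Ω μ a a' A A' Ya Yb Y3 Z) {M C β M' R C3 β3 : ℝ} (hM : BB M)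
    (hC : SP C β) (hC3 : HC C3 β3)
    (hM0' : 0 ≤ M') (hM' : ∀ (z : ℂ) (s : ℝ) (w : ℂ) (δ : ℝ), 0 < s → 0 ≤ δ →
      |psi (bump z s) δ w| ≤ M' * δ ^ 3 / s ^ 5) (hR : 0 < R) (hΩ : ∀ z ∈ Ω, ‖z‖ < R)
    {z : ℂ} {r0 δ ρ : ℝ} (hz : closedBall z r0 ⊆ Ω) (hr0 : 0 < r0) (hρ : 0 < ρ) (hρ8 : ρ ≤ 1 / 8)
    {L : ℕ} (hL : 0 < L) (hδ : 0 < δ) (hδ' : 4 * δ ≤ r0 * ρ ^ (L + 4)) :
    ∫ x in UK.DD z a a' A A' r0, max (|Z (bump z r0) x| - cst) 0 ∂μ ≤
      (R + ‖z‖ + 2 * δ) ^ 2 * (13 * (R ^ 2 * (M' * δ / (r0 * ρ ^ (L + 2) / 8) ^ 5))) +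
      4 * √(Qr M ρ * (C * (2 * ρ) ^ β)) +
      2 * (√(Qr M ρ) * √(3 / L + 2 * (C3 * ρ ^ β3))) := by
  have := hc.prob
  have hρ1 : ρ ≤ 1 := by linarith
  have mono : ∀ i j : ℕ, i ≤ j → r0 * ρ ^ j ≤ r0 * ρ ^ i := fun i j hij =>
    mul_le_mul_of_nonneg_left (pow_le_pow_of_le_one hρ.le hρ1 hij) hr0.le
  have pos : ∀ i : ℕ, 0 < r0 * ρ ^ i := fun i => by positivity
  have step : ∀ i : ℕ, r0 * ρ ^ (i + 1) ≤ r0 * ρ ^ i / 8 := by
    intro i
    rw [pow_succ]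
    have := pos i
    nlinarith
  obtain ⟨N, hN⟩ := exists_inn hc.bdd hδ z
  have hB : Bx Ω z δ (box (0, 0) N) := hN
  obtain ⟨i, hiL, hi⟩ := pigeon hc hC3 hB hr0 hρ hρ8 hL hδ (by linarith)
  set s : ℝ := r0 * ρ ^ (i + 3) / 8 with hs
  have hs0 : 0 < s := by have := pos (i + 3); positivity
  have hδs : 4 * δ ≤ r0 * ρ ^ (i + 3) := hδ'.trans (mono _ _ (by omega))
  have c1 : Sc r0 δ s (r0 * ρ ^ (i + 1)) (r0 * ρ ^ i) := by
    have h1 := mono (i + 1) (i + 3) (by omega)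
    have h2 := step i
    have h3 := mono 0 i (by omega)
    have h4 := mono 0 (i + 1) (by omega)
    have h5 := pos (i + 3)
    have h6 := step 0
    have h7 := mono (0 + 1) (i + 1) (by omega)
    simp only [pow_zero, mul_one] at h3 h4 h6
    constructor <;> linarith
  have c2 : Sc r0 δ s (r0 * ρ ^ (i + 3)) (r0 * ρ ^ (i + 2)) := by
    have h2 := step (i + 2)
    have h3 := mono 0 (i + 2) (by omega)
    have h5 := pos (i + 3)
    have h6 := step 0
    have h7 := mono (0 + 1) (i + 3) (by omega)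
    simp only [pow_zero, mul_one] at h3 h6
    constructor <;> linarith
  set L' : ℕ := ⌈(R + ‖z‖) / δ⌉₊ with hL'
  have hLp : ∀ p, gp z δ p ∈ Ω → dn (0, 0) p ≤ L' := by
    intro p hp
    have h2 := le_gp_dist (z := z) hδ.le p (0, 0)
    rw [gp_zero] at h2
    have h4 : ‖gp z δ p - z‖ ≤ R + ‖z‖ := (norm_sub_le _ _).trans (by linarith [hΩ _ hp])
    have h5 : (dn (0, 0) p : ℝ) ≤ (R + ‖z‖) / δ := by
      rw [le_div_iff₀ hδ, dn_comm]
      linarith
    have h7 : (dn (0, 0) p : ℝ) ≤ (⌈(R + ‖z‖) / δ⌉₊ : ℝ) := h5.trans (Nat.le_ceil _)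
    exact_mod_cast h7
  have key := scale hc hM hC hM0' hM' hR hΩ hLp hB hz hδ hs0 c1 c2
  -- the left hand side
  have hsr : s ≤ r0 := by linarith [c1.a1, c1.a5]
  have hlhs : ∫ x in UK.DD z a a' A A' r0, max (|Z (bump z r0) x| - cst) 0 ∂μ =
      ∫ x in UK.DD z a a' A A' r0, max (|Z (bump z s) x| - cst) 0 ∂μ := by
    apply integral_congr_ae
    filter_upwards [ae_restrict_of_ae (s := UK.DD z a a' A A' r0) (bump_radius hc hs0 hsr hz),
      ae_restrict_mem (meas_DD hc z r0)] with x hx hxD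
    rw [hx (by
      rw [Set.disjoint_union_right]
      exact ⟨closedBall_disj hxD.1, closedBall_disj hxD.2⟩)]
  rw [hlhs]
  refine key.trans ?_
  -- the energies
  have hρ0 : ρ ≠ 0 := hρ.ne'
  have hr00 : r0 ≠ 0 := hr0.ne'
  have eq1 : qn M (r0 * ρ ^ (i + 1)) s = Qr M ρ := by
    unfold qn Qr
    congr 3
    rw [hs, pow_add ρ i 3, pow_add ρ i 1]
    field_simp
    ring
  have eq2 : qn M (r0 * ρ ^ (i + 3)) s ≤ Qr M ρ := by
    unfold qn Qr
    apply mul_le_mul_of_nonneg_left _ (by positivity)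
    have e : r0 * ρ ^ (i + 3) / (2 * s) = 4 := by
      rw [hs]
      field_simp
      ring
    rw [e]
    have : Real.log 4 ≤ Real.log (4 / ρ ^ 2) := by
      apply Real.log_le_log (by norm_num)
      rw [le_div_iff₀ (by positivity)]
      nlinarith
    linarith
  have eq3 : 2 * (r0 * ρ ^ (i + 1)) / (r0 * ρ ^ i) = 2 * ρ := by
    rw [pow_succ]
    field_simp
  have eq4 : 2 * (r0 * ρ ^ (i + 3)) / (r0 * ρ ^ (i + 2)) = 2 * ρ := by
    rw [pow_succ ρ (i + 2)]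
    field_simp
  rw [eq1, eq3, eq4]
  have hQ0 : 0 ≤ Qr M ρ := by rw [← eq1]; exact qn_nonneg M hs0 c1.a1
  have hC0 := hC.1
  have k1 : √(qn M (r0 * ρ ^ (i + 3)) s * (C * (2 * ρ) ^ β)) ≤ √(Qr M ρ * (C * (2 * ρ) ^ β)) :=
    Real.sqrt_le_sqrt (mul_le_mul_of_nonneg_right eq2 (by positivity))
  have k2 : √(qn M (r0 * ρ ^ (i + 3)) s) ≤ √(Qr M ρ) := Real.sqrt_le_sqrt eq2
  -- the losses
  have n1 : 0 ≤ ∫ x in UK.DD z a a' A A' r0,
      m1 Ω z δ a a' A A' (r0 * ρ ^ (i + 1)) (r0 * ρ ^ i) (r0 * ρ ^ (i + 3)) x ∂μ := by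
    apply integral_nonneg_of_ae
    apply ae_restrict_of_ae
    filter_upwards [hc.geo1] with x g
    exact sub_nonneg.2 (hp_mono_S (near_mono (mono _ _ (by omega)))
      ((g.finite hδ z _).subset (Set.compl_subset_compl.2 Set.subset_union_left)) _)
  have n2 : 0 ≤ ∫ x in UK.DD z a a' A A' r0,
      m2 Ω z δ a a' A A' (r0 * ρ ^ (i + 1)) (r0 * ρ ^ (i + 3)) (r0 * ρ ^ (i + 2)) x ∂μ := by
    apply integral_nonneg_of_ae
    apply ae_restrict_of_ae
    filter_upwards [hc.geo1] with x g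
    exact sub_nonneg.2 (hp_mono_R (near_mono (mono _ _ (by omega)))
      ((g.finite hδ z _).subset (Set.compl_subset_compl.2 Set.subset_union_left)) _)
  have k3 := Real.sqrt_le_sqrt ((le_add_of_nonneg_right n2).trans hi)
  have k4 := Real.sqrt_le_sqrt ((le_add_of_nonneg_left n1).trans hi)
  have k5 := mul_le_mul_of_nonneg_left k3 (Real.sqrt_nonneg (Qr M ρ))
  have k6 := mul_le_mul k2 k4 (Real.sqrt_nonneg _) (Real.sqrt_nonneg _)
  -- the discretisation error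
  have k7 : ((L' : ℝ) + 1) ^ 2 * (13 * (R ^ 2 * (M' * δ ^ 3 / s ^ 5))) ≤
      (R + ‖z‖ + 2 * δ) ^ 2 * (13 * (R ^ 2 * (M' * δ / (r0 * ρ ^ (L + 2) / 8) ^ 5))) := by
    have h1 : (L' : ℝ) + 1 ≤ (R + ‖z‖ + 2 * δ) / δ := by
      have := (Nat.ceil_lt_add_one (a := (R + ‖z‖) / δ) (by positivity)).le
      rw [← hL'] at this
      have e : (R + ‖z‖ + 2 * δ) / δ = (R + ‖z‖) / δ + 1 + 1 := by
        field_simp
        ring
      rw [e]
      linarith
    have h2 : s ^ 5 ≥ (r0 * ρ ^ (L + 2) / 8) ^ 5 := by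
      apply pow_le_pow_left₀ (by positivity)
      rw [hs]
      have := mono (i + 3) (L + 2) (by omega)
      linarith
    have h3 : 0 < (r0 * ρ ^ (L + 2) / 8) ^ 5 := by positivity
    have h4 : M' * δ ^ 3 / s ^ 5 ≤ M' * δ ^ 3 / (r0 * ρ ^ (L + 2) / 8) ^ 5 :=
      div_le_div_of_nonneg_left (by positivity) h3 h2
    have h5 : ((L' : ℝ) + 1) ^ 2 ≤ ((R + ‖z‖ + 2 * δ) / δ) ^ 2 :=
      pow_le_pow_left₀ (by positivity) h1 2
    calc _ ≤ ((R + ‖z‖ + 2 * δ) / δ) ^ 2 *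
          (13 * (R ^ 2 * (M' * δ ^ 3 / (r0 * ρ ^ (L + 2) / 8) ^ 5))) := by
          apply mul_le_mul h5 _ (by positivity) (by positivity)
          apply mul_le_mul_of_nonneg_left _ (by norm_num)
          exact mul_le_mul_of_nonneg_left h4 (by positivity)
      _ = _ := by
          rw [div_pow]
          field_simp
  linarith

theorem key_int (hc : Kp Ω μ a a' A A' Ya Yb Y3 Z) {z : ℂ} {r0 : ℝ} (hr0 : 0 < r0)
    (hz : closedBall z r0 ⊆ Ω) :
    ∫ x in UK.DD z a a' A A' r0, max (|Z (bump z r0) x| - cst) 0 ∂μ ≤ 0 := by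
  set I : ℝ := ∫ x in UK.DD z a a' A A' r0, max (|Z (bump z r0) x| - cst) 0 ∂μ with hI
  obtain ⟨M, hM⟩ := bump_bound
  obtain ⟨M', hM0', hM'⟩ := psi_bump_bound
  obtain ⟨C, β, hC⟩ := P2
  obtain ⟨C3, β3, hC3⟩ := P3
  obtain ⟨R0, hR0⟩ := hc.bdd.exists_norm_le
  set R : ℝ := |R0| + 1 with hR
  have hRp : 0 < R := by positivity
  have hΩ : ∀ w ∈ Ω, ‖w‖ < R := fun w hw => by
    have := hR0 w hw
    have := le_abs_self R0
    rw [hR]
    linarith
  -- step 1: `δ → 0`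
  have step1 : ∀ ρ : ℝ, 0 < ρ → ρ ≤ 1 / 8 → ∀ L : ℕ, 0 < L → I ≤
      4 * √(Qr M ρ * (C * (2 * ρ) ^ β)) +
      2 * (√(Qr M ρ) * √(3 / L + 2 * (C3 * ρ ^ β3))) := by
    intro ρ hρ hρ8 L hL
    have hlim : Tendsto (fun δ : ℝ =>
        (R + ‖z‖ + 2 * δ) ^ 2 * (13 * (R ^ 2 * (M' * δ / (r0 * ρ ^ (L + 2) / 8) ^ 5))) +
        4 * √(Qr M ρ * (C * (2 * ρ) ^ β)) +
        2 * (√(Qr M ρ) * √(3 / L + 2 * (C3 * ρ ^ β3)))) (𝓝[>] 0)
        (𝓝 ((R + ‖z‖ + 2 * 0) ^ 2 * (13 * (R ^ 2 * (M' * 0 / (r0 * ρ ^ (L + 2) / 8) ^ 5))) +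
        4 * √(Qr M ρ * (C * (2 * ρ) ^ β)) +
        2 * (√(Qr M ρ) * √(3 / L + 2 * (C3 * ρ ^ β3))))) := by
      apply Tendsto.mono_left _ nhdsWithin_le_nhds
      apply Continuous.tendsto
      fun_prop
    have h1 := ge_of_tendsto hlim (b := I) (by
      have hpos : 0 < r0 * ρ ^ (L + 4) / 4 := by positivity
      filter_upwards [self_mem_nhdsWithin,
        mem_nhdsWithin_of_mem_nhds (Iio_mem_nhds hpos)] with δ hδ hδ'
      exact bound1 hc ⟨hM.1, hM.2⟩ hC hC3 hM0' hM' hRp hΩ hz hr0 hρ hρ8 hL hδ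
        (by have : δ < r0 * ρ ^ (L + 4) / 4 := hδ'; linarith))
    refine h1.trans (le_of_eq ?_)
    ring
  -- step 2: `L → ∞`
  have step2 : ∀ ρ : ℝ, 0 < ρ → ρ ≤ 1 / 8 → I ≤
      4 * √(Qr M ρ * (C * (2 * ρ) ^ β)) +
      2 * (√(Qr M ρ) * √(0 + 2 * (C3 * ρ ^ β3))) := by
    intro ρ hρ hρ8
    have h3 : Tendsto (fun L : ℕ => (3 : ℝ) / L) atTop (𝓝 0) :=
      tendsto_const_div_atTop_nhds_zero_nat 3
    have hlim : Tendsto (fun L : ℕ => 4 * √(Qr M ρ * (C * (2 * ρ) ^ β)) +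
        2 * (√(Qr M ρ) * √(3 / L + 2 * (C3 * ρ ^ β3)))) atTop
        (𝓝 (4 * √(Qr M ρ * (C * (2 * ρ) ^ β)) +
        2 * (√(Qr M ρ) * √(0 + 2 * (C3 * ρ ^ β3))))) := by
      apply Tendsto.const_add
      apply Tendsto.const_mul
      apply Tendsto.const_mul
      exact (Real.continuous_sqrt.tendsto _).comp (h3.add_const _)
    apply ge_of_tendsto hlim
    filter_upwards [eventually_gt_atTop 0] with L hL
    exact step1 ρ hρ hρ8 L hL
  -- step 3: `ρ → 0`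
  have l1 := lim_Q M hC.2.1
  have l2 := lim_Q M hC3.2.1
  have hlim : Tendsto (fun ρ : ℝ => 4 * √(C * 2 ^ β * (Qr M ρ * ρ ^ β)) +
      2 * √(2 * C3 * (Qr M ρ * ρ ^ β3))) (𝓝[>] 0)
      (𝓝 (4 * √(C * 2 ^ β * 0) + 2 * √(2 * C3 * 0))) := by
    apply Tendsto.add
    · exact ((Real.continuous_sqrt.tendsto _).comp (l1.const_mul _)).const_mul _
    · exact ((Real.continuous_sqrt.tendsto _).comp (l2.const_mul _)).const_mul _
  have h0 : 4 * √(C * 2 ^ β * 0) + 2 * √(2 * C3 * 0) = 0 := by simp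
  rw [h0] at hlim
  apply ge_of_tendsto hlim
  filter_upwards [self_mem_nhdsWithin,
    mem_nhdsWithin_of_mem_nhds (Iio_mem_nhds (show (0 : ℝ) < 1 / 8 by norm_num))] with ρ hρ hρ8
  have hρ' : (0 : ℝ) < ρ := hρ
  have hρ8' : ρ ≤ 1 / 8 := le_of_lt hρ8
  refine (step2 ρ hρ' hρ8').trans (le_of_eq ?_)
  have e1 : Qr M ρ * (C * (2 * ρ) ^ β) = C * 2 ^ β * (Qr M ρ * ρ ^ β) := by
    rw [Real.mul_rpow (by norm_num) hρ'.le]
    ring
  have e2 : √(Qr M ρ) * √(0 + 2 * (C3 * ρ ^ β3)) = √(2 * C3 * (Qr M ρ * ρ ^ β3)) := by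
    rw [← Real.sqrt_mul (Qr_nonneg M hρ' (by linarith))]
    congr 1
    ring
  rw [e1, e2]

/-- **KEY**: in a coupled pair, `|Z| ≤ √(π/2)` off `A ∪ A'`. -/
theorem key (hc : Kp Ω μ a a' A A' Ya Yb Y3 Z) {z : ℂ} {r : ℝ} (hr : 0 < r)
    (hz : closedBall z r ⊆ Ω) :
    ∀ᵐ x ∂μ, Disjoint (closedBall z r) ((A (a x) : Set ℂ) ∪ A' (a' x)) →
      |Z (bump z r) x| ≤ cst := by
  have := hc.prob
  have h1 := key_int hc hr hz
  have hZ : Integrable (Z (bump z r)) μ := (hc.memZ _ (bump_test hr hz)).integrable (by norm_num)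
  have hZi : Integrable (fun x => max (|Z (bump z r) x| - cst) 0) μ :=
    (hZ.abs.sub (integrable_const _)).sup (integrable_zero _ _ _)
  have h2 : ∫ x in UK.DD z a a' A A' r, max (|Z (bump z r) x| - cst) 0 ∂μ = 0 :=
    le_antisymm h1 (integral_nonneg fun x => le_max_right _ _)
  replace h2 := (integral_eq_zero_iff_of_nonneg
    (f := fun x => max (|Z (bump z r) x| - cst) 0) (fun x => le_max_right _ _)
    hZi.integrableOn).1 h2
  rw [Filter.EventuallyEq, ae_restrict_iff' (meas_DD hc z r)] at h2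
  filter_upwards [h2] with x hx hd
  rw [Set.disjoint_union_right] at hd
  have far : ∀ K : NonemptyCompacts ℂ, Disjoint (closedBall z r) (K : Set ℂ) →
      r < infDist z (K : Set ℂ) := by
    intro K hK
    obtain ⟨p, hp, hpd⟩ := K.isCompact.exists_infDist_eq_dist K.nonempty z
    rw [hpd]
    by_contra hcon
    rw [not_lt] at hcon
    exact Set.disjoint_left.1 hK (by rw [mem_closedBall, dist_comm]; exact hcon) hp
  have h3 := hx ⟨far _ hd.1, far _ hd.2⟩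
  simp only [Pi.zero_apply] at h3
  have := le_max_left (|Z (bump z r) x| - cst) 0
  rw [h3] at this
  linarith

end Vale.Agent.P155.KG
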