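import Vale.Agent.P155T.D
import Vale.Agent.P155.U.Mom

/-!
# P155, block (G): Gaussian fields, exponential moments and shifts
-/

set_option linter.all false

namespace Vale.Agent.P155.SG.Tm

open MeasureTheory ProbabilityTheory Filter Topology Complex Vale.Agent.P155.GT
open scoped NNReal ENNReal

variable {S : Type*} [MeasurableSpace S] {P : Measure S} [IsProbabilityMeasure P]
  {H : Type*} [NormedAddCommGroup H] [InnerProductSpace ℝ H] {W : H →ₗᵢ[ℝ] Lp ℝ 2 P}

omit [IsProbabilityMeasure P] in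
theorem int_add3 {a b c : S → ℝ} (ha : Integrable a P) (hb : Integrable b P) (hc : Integrable c P) :
    ∫ s, a s + b s + c s ∂P = ∫ s, a s ∂P + ∫ s, b s ∂P + ∫ s, c s ∂P := by
  rw [← integral_add ha hb]
  exact integral_add (ha.add hb) hc

theorem law_of {X : S → ℝ} (hX : AEMeasurable X P) {v : ℝ} (hv : 0 ≤ v)
    (h : ∀ t : ℝ, ∫ s, cexp (I * (t * X s : ℝ)) ∂P = cexp (-(t ^ 2 * v / 2 : ℝ))) :
    P.map X = gaussianReal 0 v.toNNReal := by
  have := Measure.isProbabilityMeasure_map hX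
  refine Measure.ext_of_charFun (funext fun t => ?_)
  rw [charFun_gaussianReal, charFun_apply_real, integral_map hX (by fun_prop)]
  have e : (fun s => cexp (t * X s * I)) = fun s => cexp (I * (t * X s : ℝ)) := by
    funext s
    push_cast
    ring_nf
  rw [e, h, Real.coe_toNNReal _ hv]
  congr 1
  push_cast
  ring

omit [IsProbabilityMeasure P] in
theorem mW (W : H →ₗᵢ[ℝ] Lp ℝ 2 P) (f : H) : Measurable (W f) :=
  (Lp.stronglyMeasurable _).measurable

omit [IsProbabilityMeasure P] in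
theorem W_smul (W : H →ₗᵢ[ℝ] Lp ℝ 2 P) (t : ℝ) (f : H) :
    ∀ᵐ s ∂P, W (t • f) s = t * W f s := by
  rw [map_smul]
  exact Lp.coeFn_smul t (W f)

omit [IsProbabilityMeasure P] in
theorem W_add (W : H →ₗᵢ[ℝ] Lp ℝ 2 P) (f g : H) : ∀ᵐ s ∂P, W (f + g) s = W f s + W g s := by
  rw [map_add]
  exact Lp.coeFn_add (W f) (W g)

omit [IsProbabilityMeasure P] in
theorem W_zero (W : H →ₗᵢ[ℝ] Lp ℝ 2 P) : ∀ᵐ s ∂P, W 0 s = 0 := by
  rw [map_zero]
  exact Lp.coeFn_zero ℝ 2 P

omit [IsProbabilityMeasure P] in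
theorem W_fin {J : Type*} (W : H →ₗᵢ[ℝ] Lp ℝ 2 P) (u : Finset J) (t : J → ℝ) (f : J → H) :
    ∀ᵐ s ∂P, W (∑ i ∈ u, t i • f i) s = ∑ i ∈ u, t i * W (f i) s := by
  have h := W_sum W 0 u t f
  rw [zero_add] at h
  filter_upwards [h, W_zero W] with s h1 h2
  rw [h1, h2, zero_add]

theorem law (hW : Iso W) (f : H) : P.map (W f) = gaussianReal 0 (‖f‖ ^ 2).toNNReal :=
  law_of (mW W f).aemeasurable (sq_nonneg _) fun t => by
    rw [integral_congr_ae (g := fun s => cexp (I * (W (t • f) s : ℝ)))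
      ((W_smul W t f).mono fun s hs => by simp only [hs]), hW, norm_smul, mul_pow,
      Real.norm_eq_abs, sq_abs]

theorem int_exp (hW : Iso W) (h : H) : Integrable (fun s => Real.exp (W h s)) P := by
  have h1 := integrable_exp_mul_gaussianReal (μ := 0) (v := (‖h‖ ^ 2).toNNReal) 1
  rw [← law hW h, integrable_map_measure (by fun_prop) (mW W h).aemeasurable] at h1
  simpa [Function.comp_def] using h1

theorem cexp_mom (hW : Iso W) (h : H) (z : ℂ) :
    ∫ s, cexp (z * W h s) ∂P = cexp ((‖h‖ ^ 2 : ℝ) * z ^ 2 / 2) := by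
  have h1 := complexMGF_id_gaussianReal (μ := 0) (v := (‖h‖ ^ 2).toNNReal) z
  rw [← law hW h, complexMGF, integral_map (mW W h).aemeasurable (by fun_prop),
    Real.coe_toNNReal _ (sq_nonneg _)] at h1
  simpa using h1

theorem exp_mom (hW : Iso W) (h : H) : ∫ s, Real.exp (W h s) ∂P = Real.exp (‖h‖ ^ 2 / 2) := by
  have h1 := cexp_mom hW h 1
  apply ofReal_injective
  rw [← integral_complex_ofReal]
  simpa using h1

/-- from characters to the real exponential -/
theorem ext_exp (hW : Iso W) (h : H) {G : S → ℂ} (hG : Bm G)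
    (h0 : ∀ t : ℝ, ∫ s, cexp (I * (t * W h s : ℝ)) * G s ∂P = 0) :
    ∫ s, (Real.exp (W h s) : ℂ) * G s ∂P = 0 := by
  obtain ⟨mG, C, hC⟩ := hG
  have hn : ∀ n : ℕ, ∫ s, (min (Real.exp (W h s)) n : ℝ) * G s ∂P = 0 := fun n =>
    uq (P := P) (X := fun s (_ : Unit) => W h s) (measurable_pi_lambda _ fun _ => mW W h)
      (Bm.int ⟨mG, C, hC⟩) (fun u t => by
        rw [← h0 (∑ i ∈ u, t i)]
        simp only [ex, Finset.sum_mul])
      (F := fun x => (min (Real.exp (x ())) n : ℝ))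
      (Bm.ofReal (by fun_prop) (C := n) fun x => by
        rw [abs_of_nonneg (le_min (Real.exp_pos _).le n.cast_nonneg)]
        exact min_le_right _ _)
  have hm := mW W h
  have := tendsto_integral_of_dominated_convergence (μ := P)
    (F := fun (n : ℕ) s => ((min (Real.exp (W h s)) n : ℝ) : ℂ) * G s)
    (f := fun s => (Real.exp (W h s) : ℂ) * G s) (fun s => Real.exp (W h s) * C)
    (fun n => (by fun_prop : Measurable _).aestronglyMeasurable) ((int_exp hW h).mul_const C)
    (fun n => ae_of_all _ fun s => by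
      rw [norm_mul, norm_real, Real.norm_of_nonneg (le_min (Real.exp_pos _).le n.cast_nonneg)]
      exact mul_le_mul (min_le_left _ _) (hC s) (norm_nonneg _) (Real.exp_pos _).le)
    (ae_of_all _ fun s => tendsto_const_nhds.congr' (by
      filter_upwards [tendsto_natCast_atTop_atTop.eventually_ge_atTop (Real.exp (W h s))] with n hn
      rw [min_eq_left hn]))
  simp only [hn] at this
  exact tendsto_nhds_unique this tendsto_const_nhds

theorem int_mix (hW : Iso W) (h : H) {G : S → ℂ} (hG : Bm G) :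
    Integrable (fun s => (Real.exp (W h s) : ℂ) * G s) P := by
  exact (hG.mul_int (int_exp hW h).ofReal).congr (ae_of_all _ fun s => mul_comm _ _)

theorem bm_const (c : ℂ) : Bm fun _ : S => c := ⟨measurable_const, ‖c‖, fun _ => le_rfl⟩

/-- a factor which is independent of the rest, under the exponential weight -/
theorem perp_exp (hW : Iso W) {v : S → ℂ} (hv : Bm v) {f g h : H} {c : ℂ}
    (h0 : ∀ t : ℝ, ∫ s, v s * cexp (I * (W (g + t • h + f) s : ℝ)) ∂P =
      c * ∫ s, v s * cexp (I * (W (g + t • h) s : ℝ)) ∂P) :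
    ∫ s, (Real.exp (W h s) : ℂ) * (v s * cexp (I * (W (g + f) s : ℝ))) ∂P =
      c * ∫ s, (Real.exp (W h s) : ℂ) * (v s * cexp (I * (W g s : ℝ))) ∂P := by
  have b1 := hv.mul (bm_W W (g + f))
  have b2 := hv.mul (bm_W W g)
  have h1 := ext_exp hW h (b1.sub ((bm_const c).mul b2)) fun t => by
    have e : ∀ᵐ s ∂P, cexp (I * (t * W h s : ℝ)) * ((fun s => v s * cexp (I * (W (g + f) s : ℝ))) -
        fun s => c * (v s * cexp (I * (W g s : ℝ)))) s =
        v s * cexp (I * (W (g + t • h + f) s : ℝ)) - c * (v s * cexp (I * (W (g + t • h) s : ℝ))) := by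
      filter_upwards [W_add W (g + t • h) f, W_add W g (t • h), W_add W g f, W_smul W t h]
        with s a1 a2 a3 a4
      simp only [Pi.sub_apply, a1, a2, a3, a4]
      push_cast
      simp only [mul_add, Complex.exp_add]
      ring
    rw [integral_congr_ae e, integral_sub (hv.mul (bm_W W _)).int
      ((hv.mul (bm_W W _)).int.const_mul c), integral_const_mul, h0, sub_self]
  simp only [Pi.sub_apply, mul_sub, mul_left_comm _ c] at h1
  rwa [integral_sub (int_mix hW h b1) ((int_mix hW h b2).const_mul c), integral_const_mul,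
    sub_eq_zero] at h1

/-- **Cameron-Martin** -/
theorem shift (hW : Iso W) (g h : H) :
    ∫ s, (Real.exp (W h s) : ℂ) * cexp (I * (W g s : ℝ)) ∂P =
      cexp ((‖h‖ ^ 2 / 2 - ‖g‖ ^ 2 / 2 : ℝ) + I * (inner ℝ g h : ℝ)) := by
  set a : ℝ := inner ℝ g h / ‖h‖ ^ 2 with ha
  have ha' : a * ‖h‖ ^ 2 = inner ℝ g h := by
    by_cases h0 : h = 0
    · simp [h0]
    · exact div_mul_cancel₀ _ (pow_ne_zero _ (norm_ne_zero_iff.2 h0))
  set f := g - a • h with hf
  have hfh : inner ℝ h f = 0 := by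
    rw [hf, inner_sub_right, real_inner_smul_right, real_inner_self_eq_norm_sq, ha',
      real_inner_comm, sub_self]
  have hn : ∀ t : ℝ, ‖t • h + f‖ ^ 2 = ‖t • h‖ ^ 2 + ‖f‖ ^ 2 := fun t => by
    rw [norm_add_sq_real, real_inner_smul_left, hfh]
    ring
  have h1 := perp_exp hW (bm_const 1) (f := f) (g := a • h) (h := h)
    (c := cexp (-(‖f‖ ^ 2 / 2 : ℝ))) fun t => by
      simp only [one_mul]
      rw [hW, hW, ← add_smul, hn, ← Complex.exp_add]
      congr 1
      push_cast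
      ring
  have e1 : a • h + f = g := by rw [hf]; abel
  simp only [one_mul, e1] at h1
  have e2 : ∀ᵐ s ∂P, (Real.exp (W h s) : ℂ) * cexp (I * (W (a • h) s : ℝ)) =
      cexp ((1 + I * a) * W h s) := (W_smul W a h).mono fun s hs => by
    rw [hs, ofReal_exp, ← Complex.exp_add]
    congr 1
    push_cast
    ring
  rw [h1, integral_congr_ae e2, cexp_mom hW, ← Complex.exp_add, ← ha']
  have e3 := hn a
  rw [e1, norm_smul, mul_pow, Real.norm_eq_abs, sq_abs] at e3
  rw [e3]
  congr 1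
  push_cast
  linear_combination (‖h‖ : ℂ) ^ 2 * (a : ℂ) ^ 2 / 2 * I_sq

/-- the density of the shifted field -/
noncomputable def dn (W : H →ₗᵢ[ℝ] Lp ℝ 2 P) (h : H) (s : S) : ℝ :=
  Real.exp (W h s - ‖h‖ ^ 2 / 2)

theorem int_dn (hW : Iso W) (h : H) : Integrable (dn W h) P := by
  exact ((int_exp hW h).div_const (Real.exp (‖h‖ ^ 2 / 2))).congr
    (ae_of_all _ fun s => (Real.exp_sub _ _).symm)

theorem dn_one (hW : Iso W) (h : H) : ∫ s, dn W h s ∂P = 1 := by
  simp only [dn, Real.exp_sub, integral_div, exp_mom hW, div_self (Real.exp_pos _).ne']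

theorem dn_l1 (hW : Iso W) (h k : H) : ∫ s, |dn W h s - dn W k s| ∂P ≤ ‖h - k‖ := by
  rcases eq_or_ne h k with rfl | hne
  · simp
  set d := ‖h - k‖ with hd
  have d0 : 0 < d := norm_pos_iff.2 (sub_ne_zero.2 hne)
  set m := (1 / 2 : ℝ) • (h + k) with hm
  set c := Real.exp (-(d ^ 2 / 8)) with hc
  have par : ‖m‖ ^ 2 = ‖h‖ ^ 2 / 2 + ‖k‖ ^ 2 / 2 - d ^ 2 / 4 := by
    rw [hm, hd, norm_smul, mul_pow, norm_add_sq_real, norm_sub_sq_real]
    norm_num
    ring
  have pt : ∀ᵐ s ∂P, |dn W h s - dn W k s| ≤ (2 / d + d / 8) * dn W h s +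
      (2 / d + d / 8) * dn W k s + (d / 4 - 4 / d) * c * dn W m s := by
    filter_upwards [W_smul W (1 / 2) (h + k), W_add W h k] with s a1 a2
    set x := Real.exp ((W h s - ‖h‖ ^ 2 / 2) / 2) with hx
    set y := Real.exp ((W k s - ‖k‖ ^ 2 / 2) / 2) with hy
    have e1 : dn W h s = x ^ 2 := by rw [hx, sq, ← Real.exp_add, add_halves, dn]
    have e2 : dn W k s = y ^ 2 := by rw [hy, sq, ← Real.exp_add, add_halves, dn]
    have e3 : c * dn W m s = x * y := by
      rw [dn, hc, hx, hy, ← Real.exp_add, ← Real.exp_add, par, hm, a1, a2]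
      congr 1
      ring
    have x0 : 0 < x := Real.exp_pos _
    have y0 : 0 < y := Real.exp_pos _
    rw [e1, e2, mul_assoc, e3, show x ^ 2 - y ^ 2 = (x - y) * (x + y) by ring, abs_mul,
      abs_of_pos (add_pos x0 y0)]
    have e4 : (2 / d + d / 8) * x ^ 2 + (2 / d + d / 8) * y ^ 2 + (d / 4 - 4 / d) * (x * y) =
        2 / d * |x - y| ^ 2 + d / 8 * (x + y) ^ 2 := by
      rw [sq_abs]
      ring
    rw [e4]
    have e5 : 2 / d * |x - y| ^ 2 + d / 8 * (x + y) ^ 2 - |x - y| * (x + y) =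
        2 / d * (|x - y| - d / 4 * (x + y)) ^ 2 := by
      field_simp
      ring
    have : 0 ≤ 2 / d * (|x - y| - d / 4 * (x + y)) ^ 2 := by positivity
    linarith
  have i1 := (int_dn hW h).const_mul (2 / d + d / 8)
  have i2 := (int_dn hW k).const_mul (2 / d + d / 8)
  have i3 := (int_dn hW m).const_mul ((d / 4 - 4 / d) * c)
  refine (integral_mono_ae ((int_dn hW h).sub (int_dn hW k)).abs ((i1.add i2).add i3) pt).trans ?_
  simp only [Pi.add_apply]
  rw [int_add3 i1 i2 i3, integral_const_mul, integral_const_mul,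
    integral_const_mul, dn_one hW, dn_one hW, dn_one hW]
  have c1 : c ≤ 1 := Real.exp_le_one_iff.2 (by nlinarith [sq_nonneg d])
  have c2 : 1 - d ^ 2 / 8 ≤ c := by
    have := Real.add_one_le_exp (-(d ^ 2 / 8))
    linarith
  have e6 : 4 / d * (1 - c) ≤ 4 / d * (d ^ 2 / 8) := by gcongr; linarith
  have e7 : 4 / d * (d ^ 2 / 8) = d / 2 := by field_simp; ring
  have e8 : d / 4 * c ≤ d / 4 := by nlinarith
  have e9 : 4 / d = 2 / d + 2 / d := by ring
  nlinarith

/-- second moments under the tilt -/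
theorem tilt_sq {ι : Type*} [Fintype ι] [DecidableEq ι] (hW : Iso W) {l : ℝ} (hl : 0 ≤ l)
    (r : ι → H) (g : H) (v : ℝ) (hv : ∀ t : ℝ, qf l r (t • g) = t ^ 2 * v) :
    ∫ s, tilt l (fun j => W (r j) s) * W g s ^ 2 ∂P = Zd l (Matrix.gram ℝ r) * v := by
  have v0 : 0 ≤ v := by
    have := hv 1
    rw [one_pow, one_mul] at this
    rw [← this]
    unfold qf q1
    positivity
  have mt : Measurable fun s => tilt l fun j => W (r j) s :=
    (cont_tilt l).measurable.comp (meas_W W r)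
  have h := Uq.mom_two (μ := P) (w := fun s => tilt l fun j => W (r j) s) (C := 1)
    (U := fun s => W g s) (v := fun _ => v) mt.aestronglyMeasurable
    (fun s => (abs_of_pos (tilt_pos _ _)).trans_le (tilt_le hl _)) (Lp.memLp _)
    aestronglyMeasurable_const (D := v) (fun _ => v0) (fun _ => le_rfl) fun t => by
      have h1 := tilt_char hW hl r (t • g)
      rw [hv] at h1
      rw [integral_mul_const, integral_complex_ofReal, hW.tilt hl,
        integral_congr_ae (g := fun s => cexp (I * (W (t • g) s : ℝ)) *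
          tilt l fun j => W (r j) s) ((W_smul W t g).mono fun s hs => by
            simp only [hs, mul_comm]), h1]
      push_cast
      rfl
  rw [h, integral_mul_const, hW.tilt hl]

theorem qf_smul {ι : Type*} [Fintype ι] [DecidableEq ι] (l : ℝ) (r : ι → H) (g : H) (t : ℝ) :
    qf l r (t • g) = t ^ 2 * qf l r g := by
  have e : ∀ r : ι → H, cv r (t • g) = t • cv r g := fun r => by
    unfold cv
    rw [← Matrix.mulVec_smul]
    congr 1
    funext j
    rw [real_inner_smul_right]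
    rfl
  unfold qf q1
  rw [e]
  simp only [Pi.smul_apply, smul_eq_mul, mul_smul, ← Finset.smul_sum, ← smul_sub, norm_smul,
    mul_pow, Real.norm_eq_abs, sq_abs, ← Finset.mul_sum]
  ring

theorem tilt_sq' {ι : Type*} [Fintype ι] [DecidableEq ι] (hW : Iso W) {l : ℝ} (hl : 0 ≤ l)
    (r : ι → H) (g : H) :
    ∫ s, tilt l (fun j => W (r j) s) * W g s ^ 2 ∂P = Zd l (Matrix.gram ℝ r) * qf l r g :=
  tilt_sq hW hl r g _ (qf_smul l r g)

omit [IsProbabilityMeasure P] in
theorem int_w2 {τ : S → ℝ} (mτ : Measurable τ) {C : ℝ} (hC : ∀ s, |τ s| ≤ C) (f g : H) :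
    Integrable (fun s => τ s * (W f s * W g s)) P :=
  ((Lp.memLp (W f)).integrable_mul (Lp.memLp (W g))).bdd_mul mτ.aestronglyMeasurable (c := C)
    (ae_of_all _ hC)

omit [IsProbabilityMeasure P] in
/-- the second moment of a random vector -/
theorem eta_sq {τ : S → ℝ} (mτ : Measurable τ) {C : ℝ} (hC : ∀ s, |τ s| ≤ C) {Z : ℝ}
    (K : Submodule ℝ H) (hq : ∀ g ∈ K, ∫ s, τ s * W g s ^ 2 ∂P = Z * ‖g‖ ^ 2) {J : Type*}
    {e : J → H} (he : Orthonormal ℝ e) (u : Finset J) (hu : ∀ i ∈ u, e i ∈ K) {M : Type*}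
    [NormedAddCommGroup M] [InnerProductSpace ℝ M] (v : J → M) :
    Integrable (fun s => τ s * ‖∑ i ∈ u, W (e i) s • v i‖ ^ 2) P ∧
    ∫ s, τ s * ‖∑ i ∈ u, W (e i) s • v i‖ ^ 2 ∂P = Z * ∑ i ∈ u, ‖v i‖ ^ 2 := by
  classical
  have pol : ∀ f ∈ K, ∀ g ∈ K, ∫ s, τ s * (W f s * W g s) ∂P = Z * inner ℝ f g := by
    intro f hf g hg
    have h1 := hq _ (K.add_mem hf hg)
    have h2 := hq f hf
    have h3 := hq g hg
    rw [integral_congr_ae (g := fun s => τ s * (W f s * W f s) + 2 * (τ s * (W f s * W g s)) +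
      τ s * (W g s * W g s)) ((W_add W f g).mono fun s hs => by simp only [hs]; ring),
      int_add3 (int_w2 mτ hC f f) ((int_w2 mτ hC f g).const_mul 2) (int_w2 mτ hC g g),
      integral_const_mul,
      norm_add_sq_real] at h1
    simp only [← sq] at h1
    linarith
  have e1 : (fun s => τ s * ‖∑ i ∈ u, W (e i) s • v i‖ ^ 2) = fun s => ∑ i ∈ u, ∑ j ∈ u,
      inner ℝ (v i) (v j) * (τ s * (W (e i) s * W (e j) s)) := by
    funext s
    simp only [← real_inner_self_eq_norm_sq, sum_inner, inner_sum, real_inner_smul_left,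
      real_inner_smul_right, Finset.mul_sum]
    refine Finset.sum_congr rfl fun i _ => Finset.sum_congr rfl fun j _ => ?_
    rw [real_inner_comm]
    ring
  rw [e1]
  refine ⟨integrable_finset_sum _ fun i _ => integrable_finset_sum _ fun j _ =>
    (int_w2 mτ hC _ _).const_mul _, ?_⟩
  rw [integral_finset_sum _ fun i _ => integrable_finset_sum _ fun j _ =>
    (int_w2 mτ hC _ _).const_mul _, Finset.mul_sum]
  refine Finset.sum_congr rfl fun i hi => ?_
  rw [integral_finset_sum _ fun j _ => (int_w2 mτ hC _ _).const_mul _,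
    Finset.sum_eq_single_of_mem i hi fun j hj hji => ?_]
  · rw [integral_const_mul, pol _ (hu i hi) _ (hu i hi), real_inner_self_eq_norm_sq,
      real_inner_self_eq_norm_sq, he.1 i]
    ring
  · rw [integral_const_mul, pol _ (hu i hi) _ (hu j hj), he.2 hji.symm]
    ring

omit [IsProbabilityMeasure P] in
theorem sq_mom (W : H →ₗᵢ[ℝ] Lp ℝ 2 P) (g : H) : ∫ s, W g s ^ 2 ∂P = ‖g‖ ^ 2 := by
  rw [← W.norm_map, ← real_inner_self_eq_norm_sq, L2.inner_def]
  simp [sq]

/-- an isonormal process from its characteristic functional -/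
theorem mkIso (w : H → S → ℝ) (mw : ∀ g, Measurable (w g))
    (ha : ∀ f g, ∀ᵐ s ∂P, w (f + g) s = w f s + w g s)
    (hs : ∀ (t : ℝ) g, ∀ᵐ s ∂P, w (t • g) s = t * w g s)
    (hc : ∀ g, ∫ s, cexp (I * (w g s : ℝ)) ∂P = cexp (-(‖g‖ ^ 2 / 2 : ℝ))) :
    ∃ W : H →ₗᵢ[ℝ] Lp ℝ 2 P, Iso W ∧ ∀ g, ∀ᵐ s ∂P, W g s = w g s := by
  have hl : ∀ g, P.map (w g) = gaussianReal 0 (‖g‖ ^ 2).toNNReal := fun g =>
    law_of (mw g).aemeasurable (sq_nonneg _) fun t => by
      rw [integral_congr_ae (g := fun s => cexp (I * (w (t • g) s : ℝ)))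
        ((hs t g).mono fun s hs => by simp only [hs]), hc, norm_smul, mul_pow,
        Real.norm_eq_abs, sq_abs]
  have hm : ∀ g, MemLp (w g) 2 P := fun g => by
    have := memLp_id_gaussianReal' (μ := 0) (v := (‖g‖ ^ 2).toNNReal) 2 (by simp)
    rw [← hl g, memLp_map_measure_iff (by fun_prop) (mw g).aemeasurable] at this
    exact this
  have hv : ∀ g, ∫ s, w g s ^ 2 ∂P = ‖g‖ ^ 2 := fun g => by
    have h1 := variance_fun_id_gaussianReal (μ := 0) (v := (‖g‖ ^ 2).toNNReal)
    rw [variance_eq_integral measurable_id'.aemeasurable, integral_id_gaussianReal,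
      Real.coe_toNNReal _ (sq_nonneg _), ← hl g, integral_map (mw g).aemeasurable (by fun_prop)]
      at h1
    simpa using h1
  refine ⟨⟨⟨⟨fun g => (hm g).toLp, fun f g => ?_⟩, fun t g => ?_⟩, fun g => ?_⟩, fun g => ?_,
    fun g => (hm g).coeFn_toLp⟩
  · rw [← MemLp.toLp_add]
    exact MemLp.toLp_congr _ _ (ha f g)
  · rw [RingHom.id_apply, ← MemLp.toLp_const_smul]
    exact MemLp.toLp_congr (hm _) _ (hs t g)
  · change ‖(hm g).toLp‖ = _
    rw [← sq_eq_sq₀ (norm_nonneg _) (norm_nonneg _), ← real_inner_self_eq_norm_sq, L2.inner_def,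
      ← hv]
    exact integral_congr_ae ((hm g).coeFn_toLp.mono fun s hs => by simp [hs, sq])
  · rw [← hc]
    exact integral_congr_ae ((hm g).coeFn_toLp.mono fun s hs => congrArg (fun x : ℝ =>
      cexp (I * x)) hs)

end Vale.Agent.P155.SG.Tm
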