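import Vale.Agent.P155SG.TmA

/-!
# P155, block (G): the density of a randomly shifted Gaussian field
-/

set_option linter.all false

namespace Vale.Agent.P155.SG.Tm

open MeasureTheory ProbabilityTheory Filter Topology Complex Vale.Agent.P155.GT
open scoped NNReal ENNReal

variable {S0 S1 : Type*} [MeasurableSpace S0] [MeasurableSpace S1] {Q0 : Measure S0}
  {Q1 : Measure S1} [IsProbabilityMeasure Q0] [IsProbabilityMeasure Q1]
  {H M : Type*} [NormedAddCommGroup H] [InnerProductSpace ℝ H] [NormedAddCommGroup M]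
  [InnerProductSpace ℝ M] {W0 : M →ₗᵢ[ℝ] Lp ℝ 2 Q0} {W1 : H →ₗᵢ[ℝ] Lp ℝ 2 Q1} {κ : Type*}
  {e : κ → H} {v : κ → M}

/-- the random shift -/
noncomputable def eta (W1 : H →ₗᵢ[ℝ] Lp ℝ 2 Q1) (e : κ → H) (v : κ → M) (u : Finset κ) (y : S1) :
    M := ∑ i ∈ u, W1 (e i) y • v i

/-- the density -/
noncomputable def rho (W0 : M →ₗᵢ[ℝ] Lp ℝ 2 Q0) (W1 : H →ₗᵢ[ℝ] Lp ℝ 2 Q1) (e : κ → H) (v : κ → M)
    (u : Finset κ) (x : S0 × S1) : ℝ :=
  Real.exp (∑ i ∈ u, W1 (e i) x.2 * W0 (v i) x.1 - ‖eta W1 e v u x.2‖ ^ 2 / 2)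

omit [IsProbabilityMeasure Q1] in
theorem sm_eta (u : Finset κ) : StronglyMeasurable (eta W1 e v u) :=
  Finset.stronglyMeasurable_fun_sum _ fun i _ => (Lp.stronglyMeasurable (W1 (e i))).smul_const _

theorem int_eta (u : Finset κ) : Integrable (eta W1 e v u) Q1 :=
  integrable_finset_sum _ fun i _ =>
    ((Lp.memLp (W1 (e i))).integrable one_le_two).smul_const _

omit [IsProbabilityMeasure Q0] [IsProbabilityMeasure Q1] in
theorem meas_rho (u : Finset κ) : Measurable (rho W0 W1 e v u) :=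
  ((Finset.measurable_sum _ fun i _ => ((mW W1 _).comp measurable_snd).mul
    ((mW W0 _).comp measurable_fst)).sub ((((sm_eta u).norm.measurable.comp
      measurable_snd).pow_const 2).div_const 2)).exp

omit [IsProbabilityMeasure Q0] [IsProbabilityMeasure Q1] in
theorem rho_eq (W0 : M →ₗᵢ[ℝ] Lp ℝ 2 Q0) (W1 : H →ₗᵢ[ℝ] Lp ℝ 2 Q1) (e : κ → H) (v : κ → M)
    (u : Finset κ) (y : S1) :
    ∀ᵐ s ∂Q0, rho W0 W1 e v u (s, y) = dn W0 (eta W1 e v u y) s :=
  (W_fin W0 u (fun i => W1 (e i) y) v).mono fun s hs => by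
    rw [dn, eta, hs]
    rfl

omit [IsProbabilityMeasure Q0] [IsProbabilityMeasure Q1] in
theorem rho_pos (u : Finset κ) (x : S0 × S1) : 0 < rho W0 W1 e v u x := Real.exp_pos _

omit [IsProbabilityMeasure Q0] [IsProbabilityMeasure Q1] in
theorem rho_empty (x : S0 × S1) : rho W0 W1 e v ∅ x = 1 := by simp [rho, eta]

theorem int_rho (h0 : Iso W0) (W1 : H →ₗᵢ[ℝ] Lp ℝ 2 Q1) (e : κ → H) (v : κ → M) (u : Finset κ) :
    Integrable (rho W0 W1 e v u) (Q0.prod Q1) := by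
  refine (integrable_prod_iff' (meas_rho u).aestronglyMeasurable).2
    ⟨ae_of_all _ fun y => (int_dn h0 _).congr (EventuallyEq.symm (rho_eq W0 W1 e v u y)), ?_⟩
  refine (integrable_const (1 : ℝ)).congr (ae_of_all _ fun y => ?_)
  rw [← dn_one h0 (eta W1 e v u y)]
  exact integral_congr_ae ((rho_eq W0 W1 e v u y).mono fun s hs => by
    simp only [Real.norm_of_nonneg (rho_pos u _).le]
    exact hs.symm)

theorem int_rhoc (h0 : Iso W0) (W1 : H →ₗᵢ[ℝ] Lp ℝ 2 Q1) (e : κ → H) (v : κ → M) (u : Finset κ)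
    {F : S0 × S1 → ℂ} (hF : Bm F) :
    Integrable (fun x => F x * (rho W0 W1 e v u x : ℂ)) (Q0.prod Q1) :=
  hF.mul_int (int_rho h0 W1 e v u).ofReal

theorem fub_rho (h0 : Iso W0) (u : Finset κ) {F : S0 × S1 → ℂ} (hF : Bm F) :
    ∫ x, F x * rho W0 W1 e v u x ∂Q0.prod Q1 =
      ∫ y, ∫ s, F (s, y) * dn W0 (eta W1 e v u y) s ∂Q0 ∂Q1 := by
  rw [integral_prod_symm _ (int_rhoc h0 W1 e v u hF)]
  exact integral_congr_ae (ae_of_all _ fun y => integral_congr_ae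
    ((rho_eq W0 W1 e v u y).mono fun s hs => by simp only [hs]))

theorem wl1 (h0 : Iso W0) {τ : S1 → ℝ} (mτ : Measurable τ) (τ0 : ∀ y, 0 ≤ τ y)
    (τ1 : ∀ y, τ y ≤ 1) (u u' : Finset κ) :
    ∫ x, τ x.2 * |rho W0 W1 e v u x - rho W0 W1 e v u' x| ∂Q0.prod Q1 ≤
      ∫ y, τ y * ‖eta W1 e v u y - eta W1 e v u' y‖ ∂Q1 := by
  have hb : ∀ y, ‖τ y‖ ≤ 1 := fun y => (Real.norm_of_nonneg (τ0 y)).trans_le (τ1 y)
  have i1 : Integrable (fun x : S0 × S1 => τ x.2 * |rho W0 W1 e v u x - rho W0 W1 e v u' x|)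
      (Q0.prod Q1) := ((int_rho h0 W1 e v u).sub (int_rho h0 W1 e v u')).abs.bdd_mul
        (mτ.comp measurable_snd).aestronglyMeasurable (c := 1) (ae_of_all _ fun x => hb _)
  rw [integral_prod_symm _ i1]
  refine integral_mono i1.integral_prod_right (((int_eta u).sub (int_eta u')).norm.bdd_mul
    mτ.aestronglyMeasurable (c := 1) (ae_of_all _ hb)) fun y => ?_
  simp only [integral_const_mul]
  refine mul_le_mul_of_nonneg_left (le_of_eq_of_le (integral_congr_ae ?_) (dn_l1 h0 _ _)) (τ0 y)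
  filter_upwards [rho_eq W0 W1 e v u y,
    rho_eq W0 W1 e v u' y] with s h1 h2
  rw [h1, h2]

theorem amgm {τ X : S1 → ℝ} (τ0 : ∀ y, 0 ≤ τ y) (i0 : Integrable τ Q1)
    (i2 : Integrable (fun y => τ y * X y ^ 2) Q1) (X0 : ∀ y, 0 ≤ X y) {Z a : ℝ} (ha : 0 < a)
    (hZ : ∫ y, τ y ∂Q1 = Z) (h : ∫ y, τ y * X y ^ 2 ∂Q1 ≤ Z * a ^ 2) :
    ∫ y, τ y * X y ∂Q1 ≤ Z * a := by
  have h1 : ∫ y, τ y * X y ∂Q1 ≤ ∫ y, 1 / (2 * a) * (τ y * X y ^ 2) + a / 2 * τ y ∂Q1 := by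
    refine integral_mono_of_nonneg (ae_of_all _ fun y => mul_nonneg (τ0 y) (X0 y))
      ((i2.const_mul _).add (i0.const_mul _)) (ae_of_all _ fun y => ?_)
    have : 1 / (2 * a) * (τ y * X y ^ 2) + a / 2 * τ y - τ y * X y =
        τ y * (X y - a) ^ 2 / (2 * a) := by
      field_simp
      ring
    have h2 : 0 ≤ τ y * (X y - a) ^ 2 / (2 * a) := by have := τ0 y; positivity
    dsimp only
    linarith
  rw [integral_add (i2.const_mul _) (i0.const_mul _), integral_const_mul, integral_const_mul, hZ]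
    at h1
  have h3 : 1 / (2 * a) * ∫ y, τ y * X y ^ 2 ∂Q1 ≤ 1 / (2 * a) * (Z * a ^ 2) := by gcongr
  have h4 : 1 / (2 * a) * (Z * a ^ 2) = Z * a / 2 := by field_simp
  linarith

omit [IsProbabilityMeasure Q1] in
theorem eta_sub [DecidableEq κ] {u u' : Finset κ} (h : u' ⊆ u) (y : S1) :
    eta W1 e v u y - eta W1 e v u' y = eta W1 e v (u \ u') y := by
  unfold eta
  rw [← Finset.sum_sdiff h, add_sub_cancel_right]

theorem eta_l1 (he : Orthonormal ℝ e) (u : Finset κ) {a : ℝ} (ha : 0 < a)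
    (h : ∑ i ∈ u, ‖v i‖ ^ 2 ≤ a ^ 2) : ∫ y, 1 * ‖eta W1 e v u y‖ ∂Q1 ≤ a := by
  have h1 := eta_sq (W := W1) (τ := fun _ => 1) measurable_const (C := 1) (by simp) (Z := 1) ⊤
    (fun g _ => by simp [sq_mom]) he u (fun _ _ => trivial) v
  have := amgm (Q1 := Q1) (τ := fun _ => 1) (X := fun y => ‖eta W1 e v u y‖) (fun _ => zero_le_one)
    (integrable_const _) h1.1 (fun _ => norm_nonneg _) ha (Z := 1) (by simp)
    (h1.2.trans_le (by simpa using h))
  rwa [one_mul a] at this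

theorem tail (hs : Summable fun i => ‖v i‖ ^ 2) {a : ℝ} (ha : 0 < a) :
    ∃ u0 : Finset κ, ∀ u, Disjoint u u0 → ∑ i ∈ u, ‖v i‖ ^ 2 ≤ a ^ 2 := by
  obtain ⟨u0, h⟩ := summable_iff_vanishing_norm.1 hs (a ^ 2) (by positivity)
  exact ⟨u0, fun u hu => (le_abs_self _).trans (h u hu).le⟩

/-- the limit density -/
theorem exists_rho (h0 : Iso W0) (he : Orthonormal ℝ e) (hs : Summable fun i => ‖v i‖ ^ 2) :
    ∃ ρ : S0 × S1 → ℝ, Measurable ρ ∧ (∀ x, 0 ≤ ρ x) ∧ Integrable ρ (Q0.prod Q1) ∧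
      Tendsto (fun u => ∫ x, |rho W0 W1 e v u x - ρ x| ∂Q0.prod Q1) atTop (𝓝 0) := by
  classical
  set r : Finset κ → Lp ℝ 1 (Q0.prod Q1) := fun u => (int_rho h0 W1 e v u).toL1
    with hr
  have hd : ∀ u (g : Lp ℝ 1 (Q0.prod Q1)),
      dist (r u) g = ∫ x, |rho W0 W1 e v u x - g x| ∂Q0.prod Q1 := fun u g => by
    rw [L1.dist_eq_integral_dist]
    exact integral_congr_ae ((Integrable.coeFn_toL1 (int_rho h0 W1 e v u)).mono fun x hx => by
      simp only [hr, hx, Real.dist_eq])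
  have hc : CauchySeq r := by
    rw [Metric.cauchySeq_iff']
    intro ε hε
    obtain ⟨u0, hu⟩ := tail hs (half_pos hε)
    refine ⟨u0, fun u h => lt_of_le_of_lt ?_ (half_lt_self hε)⟩
    have h1 := wl1 (W1 := W1) (e := e) (v := v) h0 (τ := fun _ => 1) measurable_const
      (fun _ => zero_le_one) (fun _ => le_rfl) u u0
    simp only [eta_sub h] at h1
    rw [hd]
    refine le_of_eq_of_le (integral_congr_ae ?_)
      (h1.trans (eta_l1 he _ (half_pos hε) (hu _ Finset.sdiff_disjoint)))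
    exact (Integrable.coeFn_toL1 (int_rho h0 W1 e v u0)).mono fun x hx => by simp only [hr, hx, one_mul]
  obtain ⟨g, hg⟩ := cauchySeq_tendsto_of_complete hc
  have mg : Measurable g := (Lp.stronglyMeasurable g).measurable
  have ig : Integrable g (Q0.prod Q1) := L1.integrable_coeFn g
  refine ⟨fun x => max (g x) 0, mg.max measurable_const, fun x => le_max_right _ _, ig.pos_part,
    squeeze_zero (fun u => integral_nonneg fun x => abs_nonneg _) (fun u => ?_)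
      (tendsto_iff_dist_tendsto_zero.1 hg)⟩
  rw [hd]
  refine integral_mono ((int_rho h0 W1 e v u).sub ig.pos_part).abs ((int_rho h0 W1 e v u).sub ig).abs fun x => ?_
  have := abs_max_sub_max_le_abs (rho W0 W1 e v u x) (g x) 0
  rwa [max_eq_left (rho_pos u x).le] at this

theorem lim_rho (h0 : Iso W0) {ρ : S0 × S1 → ℝ} (iρ : Integrable ρ (Q0.prod Q1))
    (h : Tendsto (fun u => ∫ x, |rho W0 W1 e v u x - ρ x| ∂Q0.prod Q1) atTop (𝓝 0))
    {F : S0 × S1 → ℂ} (hF : Bm F) :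
    Tendsto (fun u => ∫ x, F x * rho W0 W1 e v u x ∂Q0.prod Q1) atTop
      (𝓝 (∫ x, F x * ρ x ∂Q0.prod Q1)) := by
  obtain ⟨C, hC⟩ := hF.2
  rw [tendsto_iff_norm_sub_tendsto_zero]
  refine squeeze_zero (fun u => norm_nonneg _) (fun u => ?_) (by simpa using h.const_mul C)
  have i2 : Integrable (fun x => F x * (ρ x : ℂ)) (Q0.prod Q1) := hF.mul_int iρ.ofReal
  rw [← integral_sub (int_rhoc h0 W1 e v u hF) i2, ← integral_const_mul]
  refine norm_integral_le_of_norm_le (((int_rho h0 W1 e v u).sub iρ).abs.const_mul C)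
    (ae_of_all _ fun x => ?_)
  change ‖F x * (rho W0 W1 e v u x : ℂ) - F x * (ρ x : ℂ)‖ ≤ _
  rw [← mul_sub, ← ofReal_sub, norm_mul, norm_real, Real.norm_eq_abs]
  exact mul_le_mul_of_nonneg_right (hC x) (abs_nonneg _)

/-- the tilt kills the shift -/
theorem tilt_eta (h1 : Iso W1) (he : Orthonormal ℝ e) (hs : Summable fun i => ‖v i‖ ^ 2) {δ : ℝ}
    (hδ : 0 < δ) : ∃ (n : ℕ) (c : Fin n → κ) (l : ℝ), 0 ≤ l ∧ ∀ᶠ u in atTop,
      ∫ y, tilt l (fun j => W1 (e (c j)) y) * ‖eta W1 e v u y‖ ∂Q1 ≤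
        Zd l (Matrix.gram ℝ fun j => e (c j)) * δ := by
  classical
  obtain ⟨u0, hu⟩ := tail hs (half_pos hδ)
  set B := ∑ i ∈ u0, ‖v i‖ + 1 with hB
  have B0 : 0 < B := by positivity
  set a := δ / 2 / B with ha
  have a0 : 0 < a := by positivity
  set c : Fin u0.card → κ := fun j => u0.equivFin.symm j with hc
  set l := 1 / a ^ 2 with hl
  have l0 : 0 < l := by positivity
  refine ⟨u0.card, c, l, l0.le, (eventually_ge_atTop u0).mono fun u h => ?_⟩
  set r : Fin u0.card → H := fun j => e (c j) with hr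
  set τ : S1 → ℝ := fun y => tilt l fun j => W1 (r j) y with hτ
  set Z := Zd l (Matrix.gram ℝ r) with hZ
  have Z0 : 0 < Z := Zd_pos l0.le (Matrix.posSemidef_gram ℝ r)
  have mτ : Measurable τ := (cont_tilt l).measurable.comp (meas_W W1 r)
  have τ0 : ∀ y, 0 ≤ τ y := fun y => (tilt_pos _ _).le
  have τ1 : ∀ y, |τ y| ≤ 1 := fun y => (abs_of_nonneg (τ0 y)).trans_le (tilt_le l0.le _)
  have iτ : Integrable τ Q1 := .of_bound mτ.aestronglyMeasurable 1 (ae_of_all _ τ1)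
  have hτZ : ∫ y, τ y ∂Q1 = Z := h1.tilt l0.le r
  -- the tail
  set K : Submodule ℝ H := (Submodule.span ℝ (Set.range r))ᗮ with hK
  have hq : ∀ g ∈ K, ∫ y, τ y * W1 g y ^ 2 ∂Q1 = Z * ‖g‖ ^ 2 := fun g hg => by
    rw [hτ, tilt_sq' h1 l0.le]
    congr 1
    have e0 : cv (fun j => √l • r j) g = 0 := by
      unfold cv
      rw [show (fun j => inner ℝ (√l • r j) g) = 0 from funext fun j => by
        rw [real_inner_smul_left, (Submodule.mem_orthogonal _ _).1 hg _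
          (Submodule.subset_span ⟨j, rfl⟩), mul_zero, Pi.zero_apply], Matrix.mulVec_zero]
    simp [qf, q1, e0]
  have t1 := eta_sq (W := W1) mτ τ1 K hq he (u \ u0) (fun i hi => by
    rw [hK, Submodule.mem_orthogonal]
    intro g hg
    refine Submodule.span_induction (p := fun g _ => inner ℝ g (e i) = 0) ?_ (inner_zero_left _)
      (fun x y _ _ hx hy => by rw [inner_add_left, hx, hy, add_zero])
      (fun a x _ hx => by rw [real_inner_smul_left, hx, mul_zero]) hg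
    rintro _ ⟨j, rfl⟩
    exact he.2 fun hji => (Finset.mem_sdiff.1 hi).2 (hji ▸ (u0.equivFin.symm j).2)) v
  have t2 := amgm τ0 iτ t1.1 (fun _ => norm_nonneg _) (half_pos hδ) hτZ
    (t1.2.trans_le (mul_le_mul_of_nonneg_left (hu _ Finset.sdiff_disjoint) Z0.le))
  -- the head
  have i3 : ∀ i, Integrable (fun y => τ y * |W1 (e i) y|) Q1 := fun i =>
    ((Lp.memLp (W1 (e i))).integrable one_le_two).abs.bdd_mul mτ.aestronglyMeasurable (c := 1)
      (ae_of_all _ τ1)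
  have t3 : ∀ i ∈ u0, ∫ y, τ y * |W1 (e i) y| ∂Q1 ≤ Z * a := fun i hi => by
    refine amgm τ0 iτ (by simpa only [sq, abs_mul_abs_self] using int_w2 (W := W1) mτ τ1 (e i) (e i))
      (fun _ => abs_nonneg _) a0 hτZ ?_
    simp only [sq_abs]
    rw [hτ, tilt_sq' h1 l0.le]
    refine mul_le_mul_of_nonneg_left ((qf_le l0 r (e i)
      (Pi.single (u0.equivFin ⟨i, hi⟩) 1)).trans (le_of_eq ?_)) Z0.le
    simp [Pi.single_apply, hr, hc, hl]
  have i4 : Integrable (fun y => τ y * ‖eta W1 e v (u \ u0) y‖) Q1 :=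
    (int_eta _).norm.bdd_mul mτ.aestronglyMeasurable (c := 1) (ae_of_all _ τ1)
  have i5 : Integrable (fun y => ∑ i ∈ u0, τ y * |W1 (e i) y| * ‖v i‖) Q1 :=
    integrable_finset_sum _ fun i _ => (i3 i).mul_const _
  have t4 : ∫ y, τ y * ‖eta W1 e v u y‖ ∂Q1 ≤
      ∫ y, τ y * ‖eta W1 e v (u \ u0) y‖ + ∑ i ∈ u0, τ y * |W1 (e i) y| * ‖v i‖ ∂Q1 := by
    refine integral_mono_of_nonneg (ae_of_all _ fun y => mul_nonneg (τ0 y) (norm_nonneg _))
      (i4.add i5) (ae_of_all _ fun y => ?_)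
    simp only [mul_assoc, ← Finset.mul_sum, ← mul_add]
    refine mul_le_mul_of_nonneg_left ?_ (τ0 y)
    rw [← sub_add_cancel (eta W1 e v u y) (eta W1 e v u0 y), eta_sub h]
    refine (norm_add_le _ _).trans (add_le_add le_rfl ((norm_sum_le _ _).trans (le_of_eq ?_)))
    simp only [norm_smul, Real.norm_eq_abs]
  rw [integral_add i4 i5, integral_finset_sum _ fun i _ => (i3 i).mul_const _] at t4
  have t5 : ∑ i ∈ u0, ∫ y, τ y * |W1 (e i) y| * ‖v i‖ ∂Q1 ≤ ∑ i ∈ u0, Z * a * ‖v i‖ :=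
    Finset.sum_le_sum fun i hi => by
      rw [integral_mul_const]
      exact mul_le_mul_of_nonneg_right (t3 i hi) (norm_nonneg _)
  rw [← Finset.mul_sum] at t5
  have t6 : Z * a * ∑ i ∈ u0, ‖v i‖ ≤ Z * a * B := by gcongr; linarith
  have t7 : Z * a * B = Z * (δ / 2) := by rw [ha]; field_simp
  change ∫ y, τ y * ‖eta W1 e v (u \ u0) y‖ ∂Q1 ≤ _ at t2
  linarith

end Vale.Agent.P155.SG.Tm
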